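import Crest.Agent.R220.Basic

open scoped ContDiff Topology
open MeasureTheory Set Metric Filter

noncomputable section
namespace Crest.Agent.R220

theorem orig_slope {f : P → ℝ} (hf : ContDiff ℝ ∞ f) (h0 : f 0 = 0) (v : P) :
    Tendsto (fun t : ℝ => f (t • v) / t) (𝓝[>] 0) (𝓝 (v.1 * dx f 0 + v.2 * dy f 0)) := by
  have h1 : HasDerivAt (fun t : ℝ => t • v) v 0 := by
    simpa using (hasDerivAt_id (0 : ℝ)).smul_const v
  have h2 : HasFDerivAt f (fderiv ℝ f 0) ((0 : ℝ) • v) := by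
    rw [zero_smul]; exact (sm_diff hf 0).hasFDerivAt
  have h3 := (h2.comp_hasDerivAt (0 : ℝ) h1).tendsto_slope_zero_right
  rw [fderiv_eq_dx_dy] at h3
  refine h3.congr fun t => ?_
  simp [h0, div_eq_inv_mul]

theorem orig_cont {f : P → ℝ} (hf : ContDiff ℝ ∞ f) (v : P) :
    Tendsto (fun t : ℝ => f (t • v)) (𝓝[>] 0) (𝓝 (f 0)) := by
  have : Continuous fun t : ℝ => f (t • v) := hf.continuous.comp (by fun_prop)
  simpa using (this.tendsto 0).mono_left nhdsWithin_le_nhds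

/-- If `kap = x²` on a half disc, the Hessian of a solution of the Darboux equation has a nonzero
diagonal entry at the origin. -/
theorem orig (u : P → ℝ) (hu : ContDiff ℝ ∞ u) (r : ℝ) (hr : 0 < r)
    (h : ∀ p : P, ‖p‖ < r → p.2 < 0 → Darboux (fun q => -q.1 ^ 4 / 12) u p)
    (hμ : 0 < 1 - dx u 0 ^ 2 - dy u 0 ^ 2) :
    dx (dx u) 0 ≠ 0 ∨ dy (dy u) 0 ≠ 0 := by
  by_contra hcon
  push Not at hcon
  obtain ⟨hxx, hyy⟩ := hcon
  have φx : dx (fun q : P => -q.1 ^ 4 / 12) = fun q => -q.1 ^ 3 / 3 := by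
    funext p
    rw [dx_div_const _ (by fun_prop), dx_neg, dx_pow _ (by fun_prop), dx_fst]
    norm_num
    ring
  have φy : dy (fun q : P => -q.1 ^ 4 / 12) = fun _ => 0 := by
    funext p
    rw [dy_div_const _ (by fun_prop), dy_neg, dy_pow _ (by fun_prop), dy_fst]
    norm_num
  have φxx : dx (fun q : P => -q.1 ^ 3 / 3) = fun q => -q.1 ^ 2 := by
    funext p
    rw [dx_div_const _ (by fun_prop), dx_neg, dx_pow _ (by fun_prop), dx_fst]
    norm_num
    ring
  have x1 := sm_dx hu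
  have y1 := sm_dy hu
  have key : ∀ p : P, ‖p‖ < r → p.2 < 0 →
      (dx (dx u) p + p.1 ^ 3 / 3 * dx u p) * (dy (dy u) p - p.1 ^ 3 / 3 * dx u p) -
        (dx (dy u) p + p.1 ^ 3 / 3 * dy u p) ^ 2 =
        p.1 ^ 2 * (Real.exp (2 * (-p.1 ^ 4 / 12)) - dx u p ^ 2 - dy u p ^ 2) := by
    intro p h1 h2
    have := h p h1 h2
    simp only [Darboux, S11, S12, S22, kap, mu, φx, φy, φxx, dy_const] at this
    linear_combination this
  have hev : ∀ v : P, v.2 < 0 → ∀ᶠ t : ℝ in 𝓝[>] 0, 0 < t ∧ ‖t • v‖ < r ∧ (t • v).2 < 0 := by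
    intro v hv
    have h1 : Tendsto (fun t : ℝ => ‖t • v‖) (𝓝[>] 0) (𝓝 0) := by
      have : Continuous fun t : ℝ => ‖t • v‖ := by fun_prop
      simpa using (this.tendsto 0).mono_left nhdsWithin_le_nhds
    filter_upwards [h1.eventually (gt_mem_nhds hr), self_mem_nhdsWithin] with t h1 h2
    exact ⟨h2, h1, by simpa using mul_neg_of_pos_of_neg h2 hv⟩
  have hxy : dx (dy u) 0 = 0 := by
    have t1 := ((orig_cont (sm_dx x1) (0, -1)).mul (orig_cont (sm_dy y1) (0, -1))).sub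
      ((orig_cont (sm_dx y1) (0, -1)).pow 2)
    have t2 : Tendsto (fun t : ℝ => dx (dx u) (t • ((0, -1) : P)) * dy (dy u) (t • ((0, -1) : P)) -
        dx (dy u) (t • ((0, -1) : P)) ^ 2) (𝓝[>] 0) (𝓝 0) := by
      apply tendsto_const_nhds.congr'
      filter_upwards [hev (0, -1) (by norm_num)] with t ht
      have := key _ ht.2.1 ht.2.2
      simp only [Prod.smul_fst, smul_eq_mul, mul_zero] at this
      linear_combination -this
    have := tendsto_nhds_unique t1 t2
    rw [hxx] at this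
    simpa using this
  have ht0 : Tendsto (fun t : ℝ => t) (𝓝[>] 0) (𝓝 0) := tendsto_id.mono_left nhdsWithin_le_nhds
  have ray : ∀ v : P, v.2 < 0 →
      (v.1 * dx (dx (dx u)) 0 + v.2 * dy (dx (dx u)) 0) *
        (v.1 * dx (dy (dy u)) 0 + v.2 * dy (dy (dy u)) 0) -
        (v.1 * dx (dx (dy u)) 0 + v.2 * dy (dx (dy u)) 0) ^ 2 =
        v.1 ^ 2 * (1 - dx u 0 ^ 2 - dy u 0 ^ 2) := by
    intro v hv
    have s11 := orig_slope (sm_dx x1) hxx v
    have s22 := orig_slope (sm_dy y1) hyy v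
    have s12 := orig_slope (sm_dx y1) hxy v
    have cx := orig_cont x1 v
    have cy := orig_cont y1 v
    have w : Tendsto (fun t : ℝ => t ^ 2 * (v.1 ^ 3 / 3)) (𝓝[>] 0) (𝓝 0) := by
      simpa using (ht0.pow 2).mul_const (v.1 ^ 3 / 3)
    have ce := orig_cont (f := fun p : P => Real.exp (2 * (-p.1 ^ 4 / 12))) (by fun_prop) v
    have t1 := ((s11.add (w.mul cx)).mul (s22.sub (w.mul cx))).sub ((s12.add (w.mul cy)).pow 2)
    have t2 := ((ce.sub (cx.pow 2)).sub (cy.pow 2)).const_mul (v.1 ^ 2)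
    have t3 := tendsto_nhds_unique_of_eventuallyEq t1 t2 (by
      filter_upwards [hev v hv] with t ht
      have := key _ ht.2.1 ht.2.2
      have h0 : t ≠ 0 := ht.1.ne'
      simp only [Prod.smul_fst, smul_eq_mul] at this ⊢
      generalize Real.exp (2 * (-(t * v.1) ^ 4 / 12)) = e at this ⊢
      field_simp
      linear_combination 9 * this)
    simpa using t3
  have c1 : dy (dx (dx u)) = dx (dx (dy u)) := by rw [dy_dx_comm' x1, dy_dx_comm' hu]
  have c2 : dy (dx (dy u)) = dx (dy (dy u)) := dy_dx_comm' y1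
  have r1 := ray (0, -1) (by norm_num)
  have r2 := ray (1, -1) (by norm_num)
  have r3 := ray (-1, -1) (by norm_num)
  rw [c1, c2] at r1 r2 r3
  simp only at r1 r2 r3
  generalize dx (dx (dx u)) 0 = a at r1 r2 r3
  generalize dx (dx (dy u)) 0 = b at r1 r2 r3
  generalize dx (dy (dy u)) 0 = c at r1 r2 r3
  generalize dy (dy (dy u)) 0 = d at r1 r2 r3
  generalize 1 - dx u 0 ^ 2 - dy u 0 ^ 2 = m at r1 r2 r3 hμ
  have e1 : b * d = c ^ 2 := by linear_combination r1
  have e2 : a * d = b * c := by linear_combination (r3 - r2) / 2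
  have e3 : a * c - b ^ 2 = m := by linear_combination (r2 + r3) / 2 - r1
  have e4 : m * d = 0 := by linear_combination -d * e3 + c * e2 - b * e1
  have e5 : d = 0 := (mul_eq_zero.1 e4).resolve_left hμ.ne'
  have e6 : c = 0 := by
    rw [e5, mul_zero] at e1
    exact pow_eq_zero_iff (two_ne_zero) |>.1 e1.symm
  rw [e6] at e3
  nlinarith [sq_nonneg b]

end Crest.Agent.R220
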