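import Crest.Agent.R220.Darb
import Crest.Agent.R220.Orig

open scoped ContDiff Topology
open MeasureTheory Set Metric Filter

noncomputable section
namespace Crest.Agent.R220

theorem asm_dx_shift (f : P → ℝ) (c : P) : dx (fun p => f (c + p)) = fun p => dx f (c + p) := by
  funext p
  simp only [dx, fderiv_comp_add_left]

theorem asm_dy_shift (f : P → ℝ) (c : P) : dy (fun p => f (c + p)) = fun p => dy f (c + p) := by
  funext p
  simp only [dy, fderiv_comp_add_left]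

theorem asm_dx_swap (f : P → ℝ) : dx (fun p => f p.swap) = fun p => dy f p.swap := by
  funext p
  have := (ContinuousLinearEquiv.prodComm ℝ ℝ ℝ).comp_right_fderiv (f := f) (x := p)
  simp only [dx, dy]
  change fderiv ℝ (f ∘ ContinuousLinearEquiv.prodComm ℝ ℝ ℝ) p (1, 0) = _
  rw [this]
  rfl

theorem asm_dy_swap (f : P → ℝ) : dy (fun p => f p.swap) = fun p => dx f p.swap := by
  funext p
  have := (ContinuousLinearEquiv.prodComm ℝ ℝ ℝ).comp_right_fderiv (f := f) (x := p)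
  simp only [dx, dy]
  change fderiv ℝ (f ∘ ContinuousLinearEquiv.prodComm ℝ ℝ ℝ) p (0, 1) = _
  rw [this]
  rfl

theorem asm_CB_shift {k : ℕ} {M : ℝ} {f : P → ℝ} {c p : P} (h : CB k M f (c + p)) :
    CB k M (fun q => f (c + q)) p := fun i hi => by
  rw [iteratedFDeriv_comp_add_left]; exact h i hi

theorem asm_CB_swap {k : ℕ} {M : ℝ} {f : P → ℝ} {p : P} (h : CB k M f p.swap) :
    CB k M (fun q => f q.swap) p := fun i hi => by
  have := (LinearIsometryEquiv.prodComm ℝ ℝ ℝ).norm_iteratedFDeriv_comp_right f p i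
  exact (le_of_eq this).trans (h i hi)

theorem asm_mu_congr {φ φ' u : P → ℝ} {p : P} (h : φ =ᶠ[𝓝 p] φ') : mu φ u p = mu φ' u p := by
  simp only [mu, h.eq_of_nhds]

theorem asm_darb_congr {φ φ' u : P → ℝ} {p : P} (h : φ =ᶠ[𝓝 p] φ') (hd : Darboux φ u p) :
    Darboux φ' u p := by
  simp only [Darboux, S11, S12, S22, kap, asm_mu_congr h, dx_congr h, dy_congr h,
    dx_congr (dx_congr' h), dy_congr (dy_congr' h)] at hd ⊢
  exact hd

theorem asm_darb_shift {φ u : P → ℝ} {c p : P} (hd : Darboux φ u (c + p)) :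
    Darboux (fun q => φ (c + q)) (fun q => u (c + q)) p := by
  simp only [Darboux, S11, S12, S22, kap, mu, asm_dx_shift, asm_dy_shift] at hd ⊢
  exact hd

theorem asm_darb_swap {φ u : P → ℝ} (hu : ContDiff ℝ ∞ u) {p : P} (hd : Darboux φ u p.swap) :
    Darboux (fun q => φ q.swap) (fun q => u q.swap) p := by
  simp only [Darboux, S11, S12, S22, kap, mu, asm_dx_swap, asm_dy_swap, dy_dx_comm' hu] at hd ⊢
  linear_combination hd

theorem asm_darb_neg {φ u : P → ℝ} {p : P} (hd : Darboux φ u p) : Darboux φ (fun q => -u q) p := by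
  have h1 : dx (fun q => -u q) = fun q => -dx u q := funext (dx_neg u)
  have h2 : dy (fun q => -u q) = fun q => -dy u q := funext (dy_neg u)
  simp only [Darboux, S11, S12, S22, kap, mu, h1, h2, dx_neg, dy_neg] at hd ⊢
  linear_combination hd

theorem asm_bound {f : P → ℝ} (hf : ContDiff ℝ ∞ f) (hc : HasCompactSupport f) (N : ℕ) :
    ∃ C : ℝ, 0 < C ∧ ∀ p, CB N C f p := by
  have h : ∀ i : ℕ, ∃ C : ℝ, ∀ p : P, ‖iteratedFDeriv ℝ i f p‖ ≤ C := fun i =>
    (hf.continuous_iteratedFDeriv (by exact_mod_cast le_top)).bounded_above_of_compact_support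
      (hc.iteratedFDeriv i)
  choose C hC using h
  have h0 : ∀ i, 0 ≤ C i := fun i => (norm_nonneg _).trans (hC i 0)
  refine ⟨∑ i ∈ Finset.range (N + 1), C i + 1, ?_, fun p i hi => ?_⟩
  · have := Finset.sum_nonneg (s := Finset.range (N + 1)) fun i _ => h0 i
    linarith
  · have := Finset.single_le_sum (f := C) (s := Finset.range (N + 1)) (a := i) (fun j _ => h0 j)
      (Finset.mem_range.2 (by omega))
    linarith [hC i p]

theorem asm_CB_add {k : ℕ} {M M' : ℝ} {f g : P → ℝ} {p : P} (hf : ContDiff ℝ ∞ f)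
    (hg : ContDiff ℝ ∞ g) (h : CB k M f p) (h' : CB k M' g p) :
    CB k (M + M') (fun q => f q + g q) p := fun i hi => by
  have hi' : ((i : ℕ∞) : WithTop ℕ∞) ≤ ∞ := by exact_mod_cast le_top
  rw [fun_iteratedFDeriv_add_apply (hf.of_le hi').contDiffAt (hg.of_le hi').contDiffAt]
  exact (norm_add_le _ _).trans (add_le_add (h i hi) (h' i hi))

theorem asm_CB_mul {k : ℕ} {M a : ℝ} {f : P → ℝ} {p : P} (hf : ContDiff ℝ ∞ f) (ha : 0 ≤ a)
    (h : CB k M f p) : CB k (a * M) (fun q => a * f q) p := fun i hi => by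
  have hi' : ((i : ℕ∞) : WithTop ℕ∞) ≤ ∞ := by exact_mod_cast le_top
  have := iteratedFDeriv_const_smul_apply' (a := a) (hf.of_le hi').contDiffAt (x := p)
  simp only [smul_eq_mul] at this
  rw [this, norm_smul, Real.norm_eq_abs, abs_of_nonneg ha]
  exact mul_le_mul_of_nonneg_left (h i hi) ha

/-- one perturbation, centred at the origin. -/
theorem asm_step0 (ML : MLStatement) (b : Bool) (M : ℝ) (hM : 1 ≤ M) (N : ℕ) {r δ : ℝ}
    (hr : 0 < r) (hδ : 0 < δ) :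
    ∃ φ₁ : P → ℝ, ContDiff ℝ ∞ φ₁ ∧ (∀ p, r ≤ ‖p‖ → φ₁ p = 0) ∧ (∀ p, CB N δ φ₁ p) ∧
      ∀ φ u : P → ℝ, ContDiff ℝ ∞ u → (∀ p, ‖p‖ < r → φ p = -p.1 ^ 4 / 12 + φ₁ p) →
        (∀ p, ‖p‖ < r → CB 4 M u p ∧ M⁻¹ ≤ (if b then dx (dx u) p else dy (dy u) p) ∧
          M⁻¹ ≤ mu φ u p ∧ Darboux φ u p) → False := by
  let χ : ContDiffBump (0 : P) := ⟨r / 2, r, by positivity, by linarith⟩
  have hχ : ContDiff ℝ ∞ χ := χ.contDiff
  have s1 : ContDiff ℝ ∞ fun p : P => χ p * (-p.2 ^ 4 / 12) := hχ.mul (by fun_prop)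
  have s2 : ContDiff ℝ ∞ fun p : P => χ p * (p.2 ^ 2 / 2) := hχ.mul (by fun_prop)
  obtain ⟨C1, hC1, b1⟩ := asm_bound s1 χ.hasCompactSupport.mul_right N
  obtain ⟨C2, hC2, b2⟩ := asm_bound s2 χ.hasCompactSupport.mul_right N
  set γ := min 1 (δ / 3 / C1) with hγ
  have hγ0 : 0 < γ := lt_min one_pos (by positivity)
  have hγ1 : γ ≤ 1 := min_le_left _ _
  have hγ2 : γ * C1 ≤ δ / 3 := by
    have : γ ≤ δ / 3 / C1 := min_le_right _ _
    rwa [le_div_iff₀ hC1] at this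
  set δ' := min (min 1 (δ / 3 / C2)) (δ / 3) with hδ'
  have hδ'0 : 0 < δ' := lt_min (lt_min one_pos (by positivity)) (by positivity)
  have hρ : ∀ ρ : ℝ, 0 < ρ → ρ ≤ δ' → ρ ^ 2 * C2 ≤ δ / 3 := by
    intro ρ h0 h1
    have e1 : ρ ≤ 1 := h1.trans ((min_le_left _ _).trans (min_le_left _ _))
    have e2 : ρ ≤ δ / 3 / C2 := h1.trans ((min_le_left _ _).trans (min_le_right _ _))
    rw [le_div_iff₀ hC2] at e2
    have : 0 ≤ ρ * C2 := by positivity
    nlinarith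
  have build : ∀ (ρ : ℝ) (ψ : P → ℝ), 0 < ρ → ρ ≤ δ' → ContDiff ℝ ∞ ψ →
      (∀ p, r / 2 ≤ ‖p‖ → ψ p = 0) → (∀ p, CB N δ' ψ p) →
      ∃ φ₁ : P → ℝ, ContDiff ℝ ∞ φ₁ ∧ (∀ p, r ≤ ‖p‖ → φ₁ p = 0) ∧ (∀ p, CB N δ φ₁ p) ∧
        ∀ p, ‖p‖ < r / 2 → φ₁ p = -γ * p.2 ^ 4 / 12 + ρ ^ 2 * p.2 ^ 2 / 2 + ψ p := by
    intro ρ ψ h0 h1 hψ hz hb
    refine ⟨fun p => γ * (χ p * (-p.2 ^ 4 / 12)) + ρ ^ 2 * (χ p * (p.2 ^ 2 / 2)) + ψ p,
      ((contDiff_const.mul s1).add (contDiff_const.mul s2)).add hψ, fun p hp => ?_, fun p => ?_,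
      fun p hp => ?_⟩
    · have : χ p = 0 := χ.zero_of_le_dist (by simpa using hp)
      simp [this, hz p (by linarith)]
    · refine (asm_CB_add ((contDiff_const.mul s1).add (contDiff_const.mul s2)) hψ
        (asm_CB_add (contDiff_const.mul s1) (contDiff_const.mul s2) (asm_CB_mul s1 hγ0.le (b1 p))
          (asm_CB_mul s2 (sq_nonneg ρ) (b2 p))) (hb p)).mono le_rfl ?_
      have : δ' ≤ δ / 3 := min_le_right _ _
      linarith [hρ ρ h0 h1]
    · have : χ p = 1 := χ.one_of_mem_closedBall (by simpa using hp.le)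
      simp only [this]
      ring
  have near : ∀ {f g : P → ℝ}, (∀ p, ‖p‖ < r / 2 → f p = g p) → ∀ p, ‖p‖ < r / 2 → f =ᶠ[𝓝 p] g :=
    fun h p hp => Filter.eventually_of_mem
      ((isOpen_lt continuous_norm continuous_const).mem_nhds hp) h
  cases b with
  | false =>
    obtain ⟨ρ, h0, h1, ψ, hψ, hz, hb, hML⟩ := ML M 1 γ 0 (r / 2) δ' N hM one_pos le_rfl hγ0 hγ1
      le_rfl zero_le_one (by positivity) hδ'0
    obtain ⟨φ₁, e1, e2, e3, e4⟩ := build ρ ψ h0 h1 hψ hz hb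
    refine ⟨φ₁, e1, e2, e3, fun φ u hu hφ h => hML u hu fun p hp => ?_⟩
    obtain ⟨t1, t2, t3, t4⟩ := h p (by linarith)
    have hn : φ =ᶠ[𝓝 p] fun q => phi0 1 γ 0 ρ q + ψ q := near (fun q hq => by
      rw [hφ q (by linarith), e4 q hq, phi0]; ring) p hp
    exact ⟨t1, by simpa using t2, asm_mu_congr hn ▸ t3, asm_darb_congr hn t4⟩
  | true =>
    obtain ⟨ρ, h0, h1, ψ, hψ, hz, hb, hML⟩ := ML M γ 1 1 (r / 2) δ' N hM hγ0 hγ1 one_pos le_rfl
      zero_le_one le_rfl (by positivity) hδ'0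
    have hsw : ∀ p : P, ‖p.swap‖ = ‖p‖ := fun p => by simp [Prod.norm_def, max_comm]
    have hss : ContDiff ℝ ∞ fun p : P => p.swap := contDiff_snd.prodMk contDiff_fst
    obtain ⟨φ₁, e1, e2, e3, e4⟩ := build ρ (fun p => ψ p.swap) h0 h1 (hψ.comp hss)
      (fun p hp => hz _ (by rwa [hsw])) (fun p => asm_CB_swap (hb _))
    refine ⟨φ₁, e1, e2, e3, fun φ u hu hφ h => hML (fun p => u p.swap) (hu.comp hss)
      fun p hp => ?_⟩
    obtain ⟨t1, t2, t3, t4⟩ := h p.swap (by rw [hsw]; linarith)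
    have hn : (fun q => φ q.swap) =ᶠ[𝓝 p] fun q => phi0 γ 1 1 ρ q + ψ q := near (fun q hq => by
      rw [hφ q.swap (by rw [hsw]; linarith), e4 q.swap (by rwa [hsw]), phi0]
      simp only [Prod.fst_swap, Prod.snd_swap, Prod.swap_swap]
      ring) p hp
    refine ⟨asm_CB_swap t1, ?_, ?_, asm_darb_congr hn (asm_darb_swap hu t4)⟩
    · simpa [asm_dx_swap, asm_dy_swap] using t2
    · rw [← asm_mu_congr hn]
      simp only [mu, asm_dx_swap, asm_dy_swap] at t3 ⊢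
      linarith

/-- one perturbation, centred on the vertical axis. -/
theorem asm_step (ML : MLStatement) (b : Bool) (M : ℝ) (hM : 1 ≤ M) (N : ℕ) (y : ℝ) {r δ : ℝ}
    (hr : 0 < r) (hδ : 0 < δ) :
    ∃ φ₁ : P → ℝ, ContDiff ℝ ∞ φ₁ ∧ (∀ p, r ≤ ‖p - (0, y)‖ → φ₁ p = 0) ∧ (∀ p, CB N δ φ₁ p) ∧
      ∀ φ u : P → ℝ, ContDiff ℝ ∞ u → (∀ p, ‖p - (0, y)‖ < r → φ p = -p.1 ^ 4 / 12 + φ₁ p) →
        (∀ p, ‖p - (0, y)‖ < r → CB 4 M u p ∧ M⁻¹ ≤ (if b then dx (dx u) p else dy (dy u) p) ∧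
          M⁻¹ ≤ mu φ u p ∧ Darboux φ u p) → False := by
  obtain ⟨φ₁, e1, e2, e3, e4⟩ := asm_step0 ML b M hM N hr hδ
  refine ⟨fun p => φ₁ (-(0, y) + p), e1.comp (by fun_prop), fun p hp => e2 _ ?_,
    fun p => asm_CB_shift (e3 _), fun φ u hu hφ h => ?_⟩
  · rwa [neg_add_eq_sub]
  · refine e4 (fun p => φ ((0, y) + p)) (fun p => u ((0, y) + p)) (hu.comp (by fun_prop))
      (fun p hp => ?_) (fun p hp => ?_)
    · rw [hφ _ (by simpa using hp)]
      simp only [neg_add_cancel_left, Prod.fst_add, zero_add]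
    · obtain ⟨t1, t2, t3, t4⟩ := h ((0, y) + p) (by simpa using hp)
      refine ⟨asm_CB_shift t1, ?_, ?_, asm_darb_shift t4⟩
      · simpa only [asm_dx_shift, asm_dy_shift] using t2
      · simpa only [mu, asm_dx_shift, asm_dy_shift] using t3

theorem asm_factor (ML : MLStatement) : ∃ φ : P → ℝ, ContDiff ℝ ∞ φ ∧
    (∀ p : P, p.2 ≤ 0 → φ p = -p.1 ^ 4 / 12) ∧
    ∀ (b : Bool) (u : P → ℝ), ContDiff ℝ ∞ u → 0 < (if b then dx (dx u) 0 else dy (dy u) 0) →
      0 < mu φ u 0 → (∀ᶠ p in 𝓝 (0 : P), Darboux φ u p) → False := by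
  choose f f1 f2 f3 f4 using fun j : ℕ => asm_step ML (decide (j % 2 = 1)) (j + 1)
    (by have : (0 : ℝ) ≤ j := Nat.cast_nonneg j; linarith) j ((1 / 4) ^ j)
    (r := (1 / 4) ^ j / 4) (δ := (1 / 2) ^ j) (by positivity) (by positivity)
  have hs : ContDiff ℝ ∞ fun p => ∑' j, f j p := by
    refine contDiff_tsum_of_eventually (N := ⊤) (v := fun _ j => (1 / 2) ^ j) f1
      (fun _ _ => summable_geometric_two) fun k _ => ?_
    rw [Nat.cofinite_eq_atTop]
    filter_upwards [eventually_ge_atTop k] with j hj p using f3 j p k hj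
  have hz : ∀ (j : ℕ) (p : P), (1 / 4) ^ j / 4 ≤ |p.2 - (1 / 4) ^ j| → f j p = 0 := by
    intro j p hp
    exact f2 j p (hp.trans (abs_snd_le (p - (0, (1 / 4) ^ j))))
  set φ : P → ℝ := fun p => -p.1 ^ 4 / 12 + ∑' j, f j p with hφ
  have hφs : ContDiff ℝ ∞ φ := ContDiff.add (by fun_prop) hs
  refine ⟨φ, hφs, fun p hp => ?_, fun b u hu h1 h2 h3 => ?_⟩
  · have : ∀ j, f j p = 0 := fun j => hz j p (by
      have : (0 : ℝ) < (1 / 4) ^ j := by positivity
      rw [abs_of_nonpos (by linarith)]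
      linarith)
    simp [hφ, this]
  have x1 := sm_dx hu
  have y1 := sm_dy hu
  have c1 : Continuous fun p => if b then dx (dx u) p else dy (dy u) p := by
    cases b
    · simpa using (sm_dy y1).continuous
    · simpa using (sm_dx x1).continuous
  have c2 : Continuous (mu φ u) := by
    have : ContDiff ℝ ∞ (mu φ u) := by unfold mu; fun_prop
    exact this.continuous
  obtain ⟨m, hm0, hm1, hm2⟩ : ∃ m : ℝ, 0 < m ∧ m < (if b then dx (dx u) 0 else dy (dy u) 0) ∧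
      m < mu φ u 0 := by
    obtain ⟨m, h4, h5⟩ := exists_between (lt_min h1 h2)
    exact ⟨m, h4, h5.trans_le (min_le_left _ _), h5.trans_le (min_le_right _ _)⟩
  let χ : ContDiffBump (0 : P) := ⟨1, 2, by norm_num, by norm_num⟩
  obtain ⟨A, -, hA⟩ := asm_bound (f := fun p => χ p * u p) (χ.contDiff.mul hu)
    χ.hasCompactSupport.mul_right 4
  have e0 : ∀ᶠ p in 𝓝 (0 : P), CB 4 A u p := by
    filter_upwards [ball_mem_nhds (0 : P) one_pos] with p hp i hi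
    have : (fun q => χ q * u q) =ᶠ[𝓝 p] u := by
      filter_upwards [χ.eventuallyEq_one_of_mem_ball (x := p) hp] with q hq
      simp [hq]
    rw [← (this.iteratedFDeriv ℝ i).eq_of_nhds]
    exact hA p i hi
  have e1 := (c1.tendsto 0).eventually (lt_mem_nhds hm1)
  have e2 := (c2.tendsto 0).eventually (lt_mem_nhds hm2)
  obtain ⟨ε, hε, hball⟩ := Metric.mem_nhds_iff.1 (((e0.and e1).and e2).and h3)
  have t1 : ∀ᶠ j : ℕ in atTop, ((1 : ℝ) / 4) ^ j < ε / 2 :=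
    (tendsto_pow_atTop_nhds_zero_of_lt_one (by norm_num) (by norm_num)).eventually
      (gt_mem_nhds (by positivity))
  have t2 : ∀ᶠ j : ℕ in atTop, max A m⁻¹ ≤ (j : ℝ) :=
    tendsto_natCast_atTop_atTop.eventually (eventually_ge_atTop _)
  obtain ⟨N, hN⟩ := eventually_atTop.1 (t1.and t2)
  obtain ⟨j, hj, hjb⟩ : ∃ j : ℕ, N ≤ j ∧ decide (j % 2 = 1) = b := by
    cases b
    · exact ⟨2 * N, by omega, by simp⟩
    · exact ⟨2 * N + 1, by omega, by simp⟩
  obtain ⟨u1, u2⟩ := hN j hj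
  have hy : (0 : ℝ) < (1 / 4) ^ j := by positivity
  refine f4 j φ u hu (fun p hp => ?_) (fun p hp => ?_)
  · have hp2 : |p.2 - (1 / 4) ^ j| < (1 / 4) ^ j / 4 :=
      lt_of_le_of_lt (abs_snd_le (p - (0, (1 / 4) ^ j))) hp
    rw [hφ]
    simp only
    rw [tsum_eq_single j]
    intro i hi
    apply hz
    have hp3 := abs_lt.1 hp2
    have hy' : (0 : ℝ) < (1 / 4) ^ i := by positivity
    rcases lt_or_gt_of_ne hi with h | h
    · have : ((1 : ℝ) / 4) ^ j ≤ (1 / 4) ^ (i + 1) :=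
        pow_le_pow_of_le_one (by norm_num) (by norm_num) h
      rw [pow_succ] at this
      rw [abs_of_nonpos (by linarith [hp3.2])]
      linarith [hp3.2]
    · have : ((1 : ℝ) / 4) ^ i ≤ (1 / 4) ^ (j + 1) :=
        pow_le_pow_of_le_one (by norm_num) (by norm_num) h
      rw [pow_succ] at this
      rw [abs_of_nonneg (by linarith [hp3.1])]
      linarith [hp3.1]
  · have hn : ‖(((0 : ℝ), ((1 : ℝ) / 4) ^ j) : P)‖ = (1 / 4) ^ j := by
      simp [Prod.norm_def]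
    have hpb : p ∈ ball (0 : P) ε := by
      have := norm_sub_norm_le p ((0 : ℝ), ((1 : ℝ) / 4) ^ j)
      rw [mem_ball_zero_iff]
      linarith
    obtain ⟨⟨⟨v1, v2⟩, v3⟩, v4⟩ := hball hpb
    have hA' : A ≤ (j : ℝ) + 1 := by linarith [le_max_left A m⁻¹]
    have hm' : ((j : ℝ) + 1)⁻¹ ≤ m := by
      rw [inv_le_comm₀ (by positivity) hm0]
      linarith [le_max_right A m⁻¹]
    exact ⟨v1.mono le_rfl hA', by rw [hjb]; exact hm'.trans v2.le, hm'.trans v3.le, v4⟩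

/-- The statement of S0341 follows from the main local lemma. -/
theorem assembly (ML : MLStatement) :
    ∃ g : EuclideanSpace ℝ (Fin 2) →
        (EuclideanSpace ℝ (Fin 2) →L[ℝ] EuclideanSpace ℝ (Fin 2) →L[ℝ] ℝ),
      ContDiffOn ℝ ∞ g {x : EuclideanSpace ℝ (Fin 2) | ∀ i, x i ∈ Set.Ioo (-1 : ℝ) 1} ∧
      (∀ x ∈ {x : EuclideanSpace ℝ (Fin 2) | ∀ i, x i ∈ Set.Ioo (-1 : ℝ) 1}, ∀ v w, g x v w = g x w v) ∧
      (∀ x ∈ {x : EuclideanSpace ℝ (Fin 2) | ∀ i, x i ∈ Set.Ioo (-1 : ℝ) 1}, ∀ v, v ≠ 0 → 0 < g x v v) ∧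
      ∀ U : Set (EuclideanSpace ℝ (Fin 2)), IsOpen U → (0 : EuclideanSpace ℝ (Fin 2)) ∈ U →
        U ⊆ {x : EuclideanSpace ℝ (Fin 2) | ∀ i, x i ∈ Set.Ioo (-1 : ℝ) 1} →
        ¬ ∃ F : EuclideanSpace ℝ (Fin 2) → EuclideanSpace ℝ (Fin 3), ContDiffOn ℝ ∞ F U ∧
          ∀ x ∈ U, ∀ v w, @inner ℝ (EuclideanSpace ℝ (Fin 3)) _ (fderiv ℝ F x v) (fderiv ℝ F x w)
            = g x v w := by
  obtain ⟨φ, hφ, hφ0, hφ1⟩ := asm_factor ML
  let B : EuclideanSpace ℝ (Fin 2) →L[ℝ] EuclideanSpace ℝ (Fin 2) →L[ℝ] ℝ := innerSL ℝ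
  have hB : ∀ v w, B v w = inner ℝ v w := fun v w => rfl
  refine ⟨fun x => Real.exp (2 * φ (x 0, x 1)) • B, ?_, fun x _ v w => ?_, fun x _ v hv => ?_, ?_⟩
  · apply ContDiff.contDiffOn
    have : ContDiff ℝ ∞ fun x : EuclideanSpace ℝ (Fin 2) => φ (x 0, x 1) := hφ.comp (by fun_prop)
    have key : ∀ {F : Type} [NormedAddCommGroup F] [NormedSpace ℝ F] (B : F),
        ContDiff ℝ ∞ (fun x : EuclideanSpace ℝ (Fin 2) => Real.exp (2 * φ (x 0, x 1)) • B) :=
      fun B => (contDiff_const.mul this).exp.smul contDiff_const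
    exact key B
  · simp only [smul_apply, hB, real_inner_comm]
  · simp only [smul_apply, hB, smul_eq_mul]
    exact mul_pos (Real.exp_pos _) (real_inner_self_pos.2 hv)
  rintro U hU h0 - ⟨F, hF, hiso⟩
  let ι : P →L[ℝ] EuclideanSpace ℝ (Fin 2) :=
    (ContinuousLinearMap.fst ℝ ℝ ℝ).smulRight (EuclideanSpace.single 0 1) +
      (ContinuousLinearMap.snd ℝ ℝ ℝ).smulRight (EuclideanSpace.single 1 1)
  have hι0 : ∀ p, ι p 0 = p.1 := fun p => by simp [ι]
  have hι1 : ∀ p, ι p 1 = p.2 := fun p => by simp [ι]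
  obtain ⟨ε, hε, hball⟩ := Metric.mem_nhds_iff.1
    (ι.continuous.continuousAt.preimage_mem_nhds (x := 0) (by simpa using hU.mem_nhds h0))
  let β : ContDiffBump (0 : P) := ⟨ε / 4, ε / 2, by positivity, by linarith⟩
  have hFa : ∀ p ∈ ball (0 : P) ε, ContDiffAt ℝ ∞ F (ι p) := fun p hp =>
    hF.contDiffAt (hU.mem_nhds (hball hp))
  let G : Fin 3 → P → ℝ := fun k p => β p * F (ι p) k
  have hG : ∀ k, ContDiff ℝ ∞ (G k) := by
    intro k
    rw [contDiff_iff_contDiffAt]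
    intro p
    by_cases hp : p ∈ tsupport (G k)
    swap
    · exact contDiffAt_const.congr_of_eventuallyEq (notMem_tsupport_iff_eventuallyEq.1 hp)
    have h1 : p ∈ tsupport β := tsupport_mul_subset_left hp
    rw [β.tsupport_eq] at h1
    have h2 : p ∈ ball (0 : P) ε := closedBall_subset_ball (by change ε / 2 < ε; linarith) h1
    have h3 : ContDiffAt ℝ ∞ (fun q => F (ι q)) p := (hFa p h2).comp p ι.contDiff.contDiffAt
    exact β.contDiff.contDiffAt.mul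
      ((EuclideanSpace.proj k : EuclideanSpace ℝ (Fin 3) →L[ℝ] ℝ).contDiff.contDiffAt.comp p h3)
  have hD : ∀ k, ∀ p ∈ ball (0 : P) (ε / 4), ∀ v, fderiv ℝ (G k) p v = fderiv ℝ F (ι p) (ι v) k := by
    intro k p hp v
    have h1 : G k =ᶠ[𝓝 p] fun q => F (ι q) k := by
      filter_upwards [β.eventuallyEq_one_of_mem_ball (x := p) hp] with q hq
      simp [G, hq]
    have h2 := ((hFa p (ball_subset_ball (by linarith) hp)).differentiableAt (by simp)).hasFDerivAt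
    have h3 := (EuclideanSpace.proj k : EuclideanSpace ℝ (Fin 3) →L[ℝ] ℝ).hasFDerivAt.comp p
      (h2.comp p ι.hasFDerivAt)
    rw [h1.fderiv_eq]
    exact congrArg (fun L => L v) h3.fderiv
  have hrel : ∀ p ∈ ball (0 : P) (ε / 4), ∀ v w : P,
      fderiv ℝ (G 0) p v * fderiv ℝ (G 0) p w + fderiv ℝ (G 1) p v * fderiv ℝ (G 1) p w +
        fderiv ℝ (G 2) p v * fderiv ℝ (G 2) p w =
        Real.exp (2 * φ p) * (v.1 * w.1 + v.2 * w.2) := by
    intro p hp v w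
    have := hiso (ι p) (hball (ball_subset_ball (by linarith) hp)) (ι v) (ι w)
    simp only [smul_apply, hB, smul_eq_mul, PiLp.inner_apply,
      Fin.sum_univ_three, Fin.sum_univ_two, hι0, hι1, RCLike.inner_apply, conj_trivial] at this
    simp only [hD _ p hp]
    linear_combination this
  have hxx : ∀ p ∈ ball (0 : P) (ε / 4),
      dx (G 0) p ^ 2 + dx (G 1) p ^ 2 + dx (G 2) p ^ 2 = Real.exp (2 * φ p) := fun p hp => by
    have := hrel p hp (1, 0) (1, 0)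
    simp only [dx]
    linear_combination this
  have hyy : ∀ p ∈ ball (0 : P) (ε / 4),
      dy (G 0) p ^ 2 + dy (G 1) p ^ 2 + dy (G 2) p ^ 2 = Real.exp (2 * φ p) := fun p hp => by
    have := hrel p hp (0, 1) (0, 1)
    simp only [dy]
    linear_combination this
  have hxy : ∀ p ∈ ball (0 : P) (ε / 4),
      dx (G 0) p * dy (G 0) p + dx (G 1) p * dy (G 1) p + dx (G 2) p * dy (G 2) p = 0 :=
    fun p hp => by
    have := hrel p hp (1, 0) (0, 1)
    simp only [dx, dy]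
    linear_combination this
  have hφ00 : φ 0 = 0 := by simpa using hφ0 0 le_rfl
  have hε4 : 0 < ε / 4 := by positivity
  obtain ⟨u, hu, hμ, hd⟩ : ∃ u : P → ℝ, ContDiff ℝ ∞ u ∧ 0 < 1 - dx u 0 ^ 2 - dy u 0 ^ 2 ∧
      ∀ p ∈ ball (0 : P) (ε / 4), Darboux φ u p := by
    have a1 := hxx 0 (mem_ball_self hε4)
    have a2 := hyy 0 (mem_ball_self hε4)
    rw [hφ00, mul_zero, Real.exp_zero] at a1 a2
    by_cases k0 : 0 < 1 - dx (G 0) 0 ^ 2 - dy (G 0) 0 ^ 2
    · exact ⟨G 0, hG 0, k0, darb _ isOpen_ball φ _ _ _ hφ (hG 0) (hG 1) (hG 2) hxx hyy hxy⟩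
    by_cases k1 : 0 < 1 - dx (G 1) 0 ^ 2 - dy (G 1) 0 ^ 2
    · exact ⟨G 1, hG 1, k1, darb _ isOpen_ball φ _ _ _ hφ (hG 1) (hG 0) (hG 2)
        (fun p hp => by linarith [hxx p hp]) (fun p hp => by linarith [hyy p hp])
        (fun p hp => by linarith [hxy p hp])⟩
    · exact ⟨G 2, hG 2, by linarith, darb _ isOpen_ball φ _ _ _ hφ (hG 2) (hG 0) (hG 1)
        (fun p hp => by linarith [hxx p hp]) (fun p hp => by linarith [hyy p hp])
        (fun p hp => by linarith [hxy p hp])⟩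
  have ho := orig u hu (ε / 4) hε4 (fun p hp hp2 => asm_darb_congr (Filter.eventually_of_mem
    ((isOpen_lt continuous_snd continuous_const).mem_nhds hp2) fun q hq => hφ0 q (le_of_lt hq))
    (hd p (mem_ball_zero_iff.2 hp))) hμ
  obtain ⟨b, hb⟩ : ∃ b : Bool, (if b then dx (dx u) 0 else dy (dy u) 0) ≠ 0 := by
    rcases ho with h | h
    · exact ⟨true, by simpa using h⟩
    · exact ⟨false, by simpa using h⟩
  have hdn : ∀ᶠ p in 𝓝 (0 : P), Darboux φ u p :=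
    Filter.eventually_of_mem (ball_mem_nhds 0 hε4) hd
  have h1 : dx (fun q => -u q) = fun q => -dx u q := funext (dx_neg u)
  have h2 : dy (fun q => -u q) = fun q => -dy u q := funext (dy_neg u)
  rcases lt_or_gt_of_ne hb with h | h
  · refine hφ1 b (fun q => -u q) hu.neg ?_ ?_ (hdn.mono fun p hp => asm_darb_neg hp)
    · rw [h1, h2, dx_neg, dy_neg]
      cases b <;> simpa using h
    · simpa [mu, h1, h2, hφ00] using hμ
  · exact hφ1 b u hu h (by simpa [mu, hφ00] using hμ) hdn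

end Crest.Agent.R220
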