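import Mathlib

/-!
Row 220 (S0341): basic definitions and planar calculus toolkit.
-/

open scoped ContDiff Topology
open MeasureTheory Set Metric Filter

noncomputable section
namespace Crest.Agent.R220

/-- The plane, with the sup norm. -/
abbrev P := ℝ × ℝ

/-- Partial derivative in the first variable. -/
def dx (f : P → ℝ) (p : P) : ℝ := fderiv ℝ f p (1, 0)
/-- Partial derivative in the second variable. -/
def dy (f : P → ℝ) (p : P) : ℝ := fderiv ℝ f p (0, 1)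

/-! ### Smoothness -/

theorem contDiff_dx {m n : WithTop ℕ∞} {f : P → ℝ} (hf : ContDiff ℝ n f) (h : m + 1 ≤ n) :
    ContDiff ℝ m (dx f) :=
  (hf.fderiv_right h).clm_apply contDiff_const

theorem contDiff_dy {m n : WithTop ℕ∞} {f : P → ℝ} (hf : ContDiff ℝ n f) (h : m + 1 ≤ n) :
    ContDiff ℝ m (dy f) :=
  (hf.fderiv_right h).clm_apply contDiff_const

@[fun_prop]
theorem sm_dx {f : P → ℝ} (hf : ContDiff ℝ ∞ f) : ContDiff ℝ ∞ (dx f) :=
  contDiff_dx hf (by simp)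

@[fun_prop]
theorem sm_dy {f : P → ℝ} (hf : ContDiff ℝ ∞ f) : ContDiff ℝ ∞ (dy f) :=
  contDiff_dy hf (by simp)

theorem sm_diff {f : P → ℝ} (hf : ContDiff ℝ ∞ f) : Differentiable ℝ f :=
  hf.differentiable (by simp)

theorem sm_one {f : P → ℝ} (hf : ContDiff ℝ ∞ f) : ContDiff ℝ 1 f := hf.of_le (by simp)

theorem sm_two {f : P → ℝ} (hf : ContDiff ℝ ∞ f) : ContDiff ℝ 2 f :=
  hf.of_le (WithTop.coe_le_coe.2 (le_top : ((2 : ℕ) : ℕ∞) ≤ ⊤))

theorem c1_diff {f : P → ℝ} (hf : ContDiff ℝ 1 f) : Differentiable ℝ f :=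
  hf.differentiable (by simp)

theorem c1_cont_dx {f : P → ℝ} (hf : ContDiff ℝ 1 f) : Continuous (dx f) :=
  (contDiff_dx (m := 0) hf (by simp)).continuous

theorem c1_cont_dy {f : P → ℝ} (hf : ContDiff ℝ 1 f) : Continuous (dy f) :=
  (contDiff_dy (m := 0) hf (by simp)).continuous

theorem c2_dx {f : P → ℝ} (hf : ContDiff ℝ 2 f) : ContDiff ℝ 1 (dx f) :=
  contDiff_dx hf (by norm_num)

theorem c2_dy {f : P → ℝ} (hf : ContDiff ℝ 2 f) : ContDiff ℝ 1 (dy f) :=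
  contDiff_dy hf (by norm_num)

/-! ### Rules for partial derivatives -/

section rules
variable {f g : P → ℝ} {p : P}

theorem fderiv_eq_dx_dy (f : P → ℝ) (p v : P) :
    fderiv ℝ f p v = v.1 * dx f p + v.2 * dy f p := by
  have : v = v.1 • ((1, 0) : P) + v.2 • ((0, 1) : P) := by ext <;> simp
  conv_lhs => rw [this]
  simp only [map_add, map_smul, smul_eq_mul, dx, dy]

@[simp] theorem dx_const (c : ℝ) (p : P) : dx (fun _ => c) p = 0 := by simp [dx]
@[simp] theorem dy_const (c : ℝ) (p : P) : dy (fun _ => c) p = 0 := by simp [dy]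
@[simp] theorem dx_fst (p : P) : dx (fun q => q.1) p = 1 := by
  simp only [dx]; rw [fderiv_fst]; rfl
@[simp] theorem dy_fst (p : P) : dy (fun q => q.1) p = 0 := by
  simp only [dy]; rw [fderiv_fst]; rfl
@[simp] theorem dx_snd (p : P) : dx (fun q => q.2) p = 0 := by
  simp only [dx]; rw [fderiv_snd]; rfl
@[simp] theorem dy_snd (p : P) : dy (fun q => q.2) p = 1 := by
  simp only [dy]; rw [fderiv_snd]; rfl

theorem dx_add (hf : DifferentiableAt ℝ f p) (hg : DifferentiableAt ℝ g p) :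
    dx (fun q => f q + g q) p = dx f p + dx g p := by
  simp only [dx]; rw [fderiv_fun_add hf hg]; rfl
theorem dy_add (hf : DifferentiableAt ℝ f p) (hg : DifferentiableAt ℝ g p) :
    dy (fun q => f q + g q) p = dy f p + dy g p := by
  simp only [dy]; rw [fderiv_fun_add hf hg]; rfl
theorem dx_sub (hf : DifferentiableAt ℝ f p) (hg : DifferentiableAt ℝ g p) :
    dx (fun q => f q - g q) p = dx f p - dx g p := by
  simp only [dx]; rw [fderiv_fun_sub hf hg]; rfl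
theorem dy_sub (hf : DifferentiableAt ℝ f p) (hg : DifferentiableAt ℝ g p) :
    dy (fun q => f q - g q) p = dy f p - dy g p := by
  simp only [dy]; rw [fderiv_fun_sub hf hg]; rfl
theorem dx_neg (f : P → ℝ) (p : P) : dx (fun q => -f q) p = -dx f p := by
  simp only [dx]; rw [fderiv_fun_neg]; rfl
theorem dy_neg (f : P → ℝ) (p : P) : dy (fun q => -f q) p = -dy f p := by
  simp only [dy]; rw [fderiv_fun_neg]; rfl
theorem dx_mul (hf : DifferentiableAt ℝ f p) (hg : DifferentiableAt ℝ g p) :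
    dx (fun q => f q * g q) p = dx f p * g p + f p * dx g p := by
  simp only [dx]; rw [fderiv_fun_mul hf hg]; simp; ring
theorem dy_mul (hf : DifferentiableAt ℝ f p) (hg : DifferentiableAt ℝ g p) :
    dy (fun q => f q * g q) p = dy f p * g p + f p * dy g p := by
  simp only [dy]; rw [fderiv_fun_mul hf hg]; simp; ring
theorem dx_comp {h : ℝ → ℝ} {h' : ℝ} (hh : HasDerivAt h h' (f p)) (hf : DifferentiableAt ℝ f p) :
    dx (fun q => h (f q)) p = h' * dx f p := by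
  simp only [dx]
  have := (hh.comp_hasFDerivAt p hf.hasFDerivAt).fderiv
  rw [show (fun q => h (f q)) = h ∘ f from rfl, this]; simp
theorem dy_comp {h : ℝ → ℝ} {h' : ℝ} (hh : HasDerivAt h h' (f p)) (hf : DifferentiableAt ℝ f p) :
    dy (fun q => h (f q)) p = h' * dy f p := by
  simp only [dy]
  have := (hh.comp_hasFDerivAt p hf.hasFDerivAt).fderiv
  rw [show (fun q => h (f q)) = h ∘ f from rfl, this]; simp
theorem dx_pow (n : ℕ) (hf : DifferentiableAt ℝ f p) :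
    dx (fun q => f q ^ n) p = n * f p ^ (n - 1) * dx f p :=
  dx_comp (hasDerivAt_pow n (f p)) hf
theorem dy_pow (n : ℕ) (hf : DifferentiableAt ℝ f p) :
    dy (fun q => f q ^ n) p = n * f p ^ (n - 1) * dy f p :=
  dy_comp (hasDerivAt_pow n (f p)) hf
theorem dx_exp (hf : DifferentiableAt ℝ f p) :
    dx (fun q => Real.exp (f q)) p = Real.exp (f p) * dx f p :=
  dx_comp (Real.hasDerivAt_exp (f p)) hf
theorem dy_exp (hf : DifferentiableAt ℝ f p) :
    dy (fun q => Real.exp (f q)) p = Real.exp (f p) * dy f p :=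
  dy_comp (Real.hasDerivAt_exp (f p)) hf
theorem dx_const_mul (c : ℝ) (hf : DifferentiableAt ℝ f p) :
    dx (fun q => c * f q) p = c * dx f p := by
  rw [dx_mul (differentiableAt_const c) hf]; simp
theorem dy_const_mul (c : ℝ) (hf : DifferentiableAt ℝ f p) :
    dy (fun q => c * f q) p = c * dy f p := by
  rw [dy_mul (differentiableAt_const c) hf]; simp
theorem dx_div_const (c : ℝ) (hf : DifferentiableAt ℝ f p) :
    dx (fun q => f q / c) p = dx f p / c := by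
  simp only [div_eq_mul_inv]; rw [dx_mul hf (differentiableAt_const _)]; simp
theorem dy_div_const (c : ℝ) (hf : DifferentiableAt ℝ f p) :
    dy (fun q => f q / c) p = dy f p / c := by
  simp only [div_eq_mul_inv]; rw [dy_mul hf (differentiableAt_const _)]; simp
theorem dx_inv (hf : DifferentiableAt ℝ f p) (h0 : f p ≠ 0) :
    dx (fun q => (f q)⁻¹) p = -(f p ^ 2)⁻¹ * dx f p :=
  dx_comp (hasDerivAt_inv h0) hf
theorem dy_inv (hf : DifferentiableAt ℝ f p) (h0 : f p ≠ 0) :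
    dy (fun q => (f q)⁻¹) p = -(f p ^ 2)⁻¹ * dy f p :=
  dy_comp (hasDerivAt_inv h0) hf

theorem dx_congr (h : f =ᶠ[𝓝 p] g) : dx f p = dx g p := by simp only [dx, h.fderiv_eq]
theorem dy_congr (h : f =ᶠ[𝓝 p] g) : dy f p = dy g p := by simp only [dy, h.fderiv_eq]
theorem dx_congr' (h : f =ᶠ[𝓝 p] g) : dx f =ᶠ[𝓝 p] dx g :=
  h.eventuallyEq_nhds.mono fun _ hq => dx_congr hq
theorem dy_congr' (h : f =ᶠ[𝓝 p] g) : dy f =ᶠ[𝓝 p] dy g :=
  h.eventuallyEq_nhds.mono fun _ hq => dy_congr hq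

/-- Functions equal on an open set have equal partial derivatives there. -/
theorem dx_congr_on {U : Set P} (hU : IsOpen U) (h : ∀ q ∈ U, f q = g q) :
    ∀ q ∈ U, dx f q = dx g q := fun _ hq =>
  dx_congr (Filter.eventually_of_mem (hU.mem_nhds hq) h)
theorem dy_congr_on {U : Set P} (hU : IsOpen U) (h : ∀ q ∈ U, f q = g q) :
    ∀ q ∈ U, dy f q = dy g q := fun _ hq =>
  dy_congr (Filter.eventually_of_mem (hU.mem_nhds hq) h)

/-- Symmetry of mixed partial derivatives. -/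
theorem dy_dx_comm (hf : ContDiff ℝ 2 f) (p : P) : dy (dx f) p = dx (dy f) p := by
  have hs : IsSymmSndFDerivAt ℝ f p := hf.contDiffAt.isSymmSndFDerivAt (by simp)
  have hd : DifferentiableAt ℝ (fderiv ℝ f) p :=
    ((hf.fderiv_right (m := 1) (by norm_num)).differentiable (by simp)) p
  have h1 : ∀ v w : P, fderiv ℝ (fun q => fderiv ℝ f q v) p w = fderiv ℝ (fderiv ℝ f) p w v := by
    intro v w
    rw [fderiv_clm_apply hd (differentiableAt_const v)]; simp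
  change fderiv ℝ (fun q => fderiv ℝ f q (1, 0)) p (0, 1)
    = fderiv ℝ (fun q => fderiv ℝ f q (0, 1)) p (1, 0)
  rw [h1, h1]; exact hs _ _

theorem dy_dx_comm' (hf : ContDiff ℝ ∞ f) : dy (dx f) = dx (dy f) :=
  funext fun p => dy_dx_comm (sm_two hf) p

theorem hasCompactSupport_dx (hf : HasCompactSupport f) : HasCompactSupport (dx f) :=
  hf.fderiv_apply ℝ _
theorem hasCompactSupport_dy (hf : HasCompactSupport f) : HasCompactSupport (dy f) :=
  hf.fderiv_apply ℝ _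

/-- Mean value inequality in terms of partial derivatives (sup norm). -/
theorem abs_sub_le_of_dx_dy {s : Set P} (hs : Convex ℝ s) {L : ℝ}
    (hf : ∀ q ∈ s, DifferentiableAt ℝ f q) (hx : ∀ q ∈ s, |dx f q| ≤ L) (hy : ∀ q ∈ s, |dy f q| ≤ L)
    {p q : P} (hp : p ∈ s) (hq : q ∈ s) : |f p - f q| ≤ 2 * L * ‖p - q‖ := by
  have hL : 0 ≤ L := (abs_nonneg _).trans (hx p hp)
  have := hs.norm_image_sub_le_of_norm_fderiv_le (𝕜 := ℝ) (C := 2 * L) hf (fun z hz => ?_) hq hp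
  · simpa [Real.norm_eq_abs] using this
  · refine ContinuousLinearMap.opNorm_le_bound _ (by positivity) fun v => ?_
    rw [fderiv_eq_dx_dy, Real.norm_eq_abs]
    have h1 : |v.1| ≤ ‖v‖ := by simpa [Real.norm_eq_abs] using norm_fst_le v
    have h2 : |v.2| ≤ ‖v‖ := by simpa [Real.norm_eq_abs] using norm_snd_le v
    calc |v.1 * dx f z + v.2 * dy f z| ≤ |v.1| * |dx f z| + |v.2| * |dy f z| := by
          rw [← abs_mul, ← abs_mul]; exact abs_add_le _ _
      _ ≤ ‖v‖ * L + ‖v‖ * L := by gcongr; exacts [hx z hz, hy z hz]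
      _ = 2 * L * ‖v‖ := by ring

end rules

/-! ### Divergence theorem for compactly supported functions -/

theorem integral_fderiv_apply_eq_zero {f : P → ℝ} (hf : ContDiff ℝ 1 f) (hc : HasCompactSupport f)
    (v : P) : ∫ p, fderiv ℝ f p v = 0 := by
  have hd := c1_diff hf
  have hcont : Continuous fun p => fderiv ℝ f p v :=
    (hf.continuous_fderiv (by simp)).clm_apply continuous_const
  have h := integral_mul_fderiv_eq_neg_fderiv_mul_of_integrable (μ := (volume : Measure P))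
    (f := fun _ : P => (1 : ℝ)) (g := f) (v := v) (by simp)
    (by simpa using hcont.integrable_of_hasCompactSupport (hc.fderiv_apply ℝ v))
    (by simpa using hf.continuous.integrable_of_hasCompactSupport hc)
    (fun _ _ => differentiableAt_const _) (fun x _ => hd x)
  simpa using h

theorem integral_dx {f : P → ℝ} (hf : ContDiff ℝ 1 f) (hc : HasCompactSupport f) :
    ∫ p, dx f p = 0 := integral_fderiv_apply_eq_zero hf hc _

theorem integral_dy {f : P → ℝ} (hf : ContDiff ℝ 1 f) (hc : HasCompactSupport f) :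
    ∫ p, dy f p = 0 := integral_fderiv_apply_eq_zero hf hc _

/-! ### Bounds on derivatives up to order `k` -/

/-- All Fréchet derivatives of `f` of order at most `k` at `p` have norm at most `M`. -/
def CB (k : ℕ) (M : ℝ) (f : P → ℝ) (p : P) : Prop := ∀ i ≤ k, ‖iteratedFDeriv ℝ i f p‖ ≤ M

theorem CB.abs_le {k : ℕ} {M : ℝ} {f : P → ℝ} {p : P} (h : CB k M f p) : |f p| ≤ M := by
  simpa [Real.norm_eq_abs] using h 0 (Nat.zero_le _)

theorem CB.mono {k l : ℕ} {M M' : ℝ} {f : P → ℝ} {p : P} (h : CB k M f p) (hl : l ≤ k)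
    (hM : M ≤ M') : CB l M' f p := fun i hi => (h i (hi.trans hl)).trans hM

theorem CB.fderiv_apply {k : ℕ} {M : ℝ} {f : P → ℝ} {p : P} (h : CB (k + 1) M f p)
    (hf : ContDiff ℝ ∞ f) (v : P) (hv : ‖v‖ ≤ 1) : CB k M (fun q => fderiv ℝ f q v) p := by
  intro i hi
  have h1 : ContDiffAt ℝ ∞ (fderiv ℝ f) p := (hf.fderiv_right (m := ∞) (by simp)).contDiffAt
  have h2 := norm_iteratedFDeriv_clm_apply_const (c := v) (n := i) h1 (by exact_mod_cast le_top)
  rw [norm_iteratedFDeriv_fderiv] at h2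
  have h3 := h (i + 1) (by omega)
  calc _ ≤ ‖v‖ * ‖iteratedFDeriv ℝ (i + 1) f p‖ := h2
    _ ≤ 1 * M := by gcongr
    _ = M := one_mul M

theorem CB.dx {k : ℕ} {M : ℝ} {f : P → ℝ} {p : P} (h : CB (k + 1) M f p)
    (hf : ContDiff ℝ ∞ f) : CB k M (dx f) p := h.fderiv_apply hf _ (by simp [Prod.norm_def])

theorem CB.dy {k : ℕ} {M : ℝ} {f : P → ℝ} {p : P} (h : CB (k + 1) M f p)
    (hf : ContDiff ℝ ∞ f) : CB k M (dy f) p := h.fderiv_apply hf _ (by simp [Prod.norm_def])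

theorem abs_fst_le (p : P) : |p.1| ≤ ‖p‖ := by simpa [Real.norm_eq_abs] using norm_fst_le p
theorem abs_snd_le (p : P) : |p.2| ≤ ‖p‖ := by simpa [Real.norm_eq_abs] using norm_snd_le p

/-! ### The Darboux equation for a conformal metric `exp (2 φ) (dx² + dy²)` -/

/-- Covariant Hessian of `u`, component 11. -/
def S11 (φ u : P → ℝ) (p : P) : ℝ := dx (dx u) p - dx φ p * dx u p + dy φ p * dy u p
/-- Covariant Hessian of `u`, component 12. -/
def S12 (φ u : P → ℝ) (p : P) : ℝ := dx (dy u) p - dy φ p * dx u p - dx φ p * dy u p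
/-- Covariant Hessian of `u`, component 22. -/
def S22 (φ u : P → ℝ) (p : P) : ℝ := dy (dy u) p + dx φ p * dx u p - dy φ p * dy u p
/-- Minus the flat Laplacian of `φ` (Gauss curvature times the conformal factor). -/
def kap (φ : P → ℝ) (p : P) : ℝ := -(dx (dx φ) p + dy (dy φ) p)
/-- The factor `exp (2 φ) - |∇ u|²`. -/
def mu (φ u : P → ℝ) (p : P) : ℝ := Real.exp (2 * φ p) - dx u p ^ 2 - dy u p ^ 2
/-- The Darboux equation at `p`, satisfied by each coordinate of an isometric immersion. -/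
def Darboux (φ u : P → ℝ) (p : P) : Prop :=
  S11 φ u p * S22 φ u p - S12 φ u p ^ 2 = kap φ p * mu φ u p

/-- The model conformal factor: `kap (phi0 ..) = q1 x² + q2 y² - ρ²`. -/
def phi0 (q1 q2 lam ρ : ℝ) (p : P) : ℝ :=
  -q1 * p.1 ^ 4 / 12 - q2 * p.2 ^ 4 / 12 + ρ ^ 2 * (lam * p.1 ^ 2 + (1 - lam) * p.2 ^ 2) / 2

/-- The main local non-solvability lemma. -/
def MLStatement : Prop :=
  ∀ (M q1 q2 lam r0 δ : ℝ) (N : ℕ), 1 ≤ M → 0 < q1 → q1 ≤ 1 → 0 < q2 → q2 ≤ 1 → 0 ≤ lam →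
    lam ≤ 1 → 0 < r0 → 0 < δ →
    ∃ ρ : ℝ, 0 < ρ ∧ ρ ≤ δ ∧ ∃ ψ : P → ℝ, ContDiff ℝ ∞ ψ ∧ (∀ p, r0 ≤ ‖p‖ → ψ p = 0) ∧
      (∀ p, CB N δ ψ p) ∧
      ∀ u : P → ℝ, ContDiff ℝ ∞ u →
        (∀ p, ‖p‖ < r0 → CB 4 M u p ∧ M⁻¹ ≤ dy (dy u) p ∧
          M⁻¹ ≤ mu (fun q => phi0 q1 q2 lam ρ q + ψ q) u p ∧
          Darboux (fun q => phi0 q1 q2 lam ρ q + ψ q) u p) → False

/-! ### The abstract linear equation -/

/-- The quadratic form with coefficients `a11, a12, a22` at `p`. -/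
def pform (a11 a12 a22 : P → ℝ) (p : P) (ξ1 ξ2 : ℝ) : ℝ :=
  a11 p * ξ1 ^ 2 + 2 * a12 p * ξ1 * ξ2 + a22 p * ξ2 ^ 2

/-- The Friedrichs multiplier form of the vector field `(Z1, Z2)` for the operator
`a11 ∂xx + 2 a12 ∂xy + a22 ∂yy + b1 ∂x + b2 ∂y`. -/
def Tform (a11 a12 a22 b1 b2 Z1 Z2 : P → ℝ) (p : P) (ξ1 ξ2 : ℝ) : ℝ :=
  -((a11 p * ξ1 + a12 p * ξ2) * (dx Z1 p * ξ1 + dx Z2 p * ξ2)
      + (a12 p * ξ1 + a22 p * ξ2) * (dy Z1 p * ξ1 + dy Z2 p * ξ2))
    + (1 / 2) * (dx Z1 p + dy Z2 p) * pform a11 a12 a22 p ξ1 ξ2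
    + (1 / 2) * (Z1 p * pform (dx a11) (dx a12) (dx a22) p ξ1 ξ2
        + Z2 p * pform (dy a11) (dy a12) (dy a22) p ξ1 ξ2)
    + ((b1 p - dx a11 p - dy a12 p) * ξ1 + (b2 p - dx a12 p - dy a22 p) * ξ2)
        * (Z1 p * ξ1 + Z2 p * ξ2)

/-- Square annulus. -/
def ann (r1 r : ℝ) : Set P := {p | r1 ≤ ‖p‖ ∧ ‖p‖ ≤ r}

/-- Squared gradient. -/
def gsq (w : P → ℝ) (p : P) : ℝ := dx w p ^ 2 + dy w p ^ 2

/-- A linear mixed-type equation on the ball of radius `R`, with uniform bounds by `K`;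
`κ` plays the role of the determinant of the principal part. -/
structure Lin (K r1 rmin R : ℝ) where
  a11 : P → ℝ
  a12 : P → ℝ
  a22 : P → ℝ
  b1 : P → ℝ
  b2 : P → ℝ
  κ : P → ℝ
  w : P → ℝ
  f : P → ℝ
  h11 : ContDiff ℝ ∞ a11
  h12 : ContDiff ℝ ∞ a12
  h22 : ContDiff ℝ ∞ a22
  hb1 : ContDiff ℝ ∞ b1
  hb2 : ContDiff ℝ ∞ b2
  hκ : ContDiff ℝ ∞ κ
  hw : ContDiff ℝ ∞ w
  hf : ContDiff ℝ ∞ f
  eqn : ∀ p, ‖p‖ < R → a11 p * dx (dx w) p + 2 * a12 p * dx (dy w) p + a22 p * dy (dy w) p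
    + b1 p * dx w p + b2 p * dy w p = f p
  bd0 : ∀ p, ‖p‖ < R → |a11 p| ≤ K ∧ |a12 p| ≤ K ∧ |a22 p| ≤ K ∧ |b1 p| ≤ K ∧ |b2 p| ≤ K ∧
    |κ p| ≤ K ∧ |w p| ≤ K
  bdx : ∀ p, ‖p‖ < R → |dx a11 p| ≤ K ∧ |dx a12 p| ≤ K ∧ |dx a22 p| ≤ K ∧ |dx κ p| ≤ K
  bdy : ∀ p, ‖p‖ < R → |dy a11 p| ≤ K ∧ |dy a12 p| ≤ K ∧ |dy a22 p| ≤ K ∧ |dy κ p| ≤ K
  ell : ∀ p, ‖p‖ < R → 0 < κ p → ∀ ξ1 ξ2 : ℝ,
    K⁻¹ * κ p * (ξ1 ^ 2 + ξ2 ^ 2) ≤ pform a11 a12 a22 p ξ1 ξ2
  outer : ∀ p, ‖p‖ < R → rmin ≤ ‖p‖ → K⁻¹ ≤ κ p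
  inner : ∀ p, ‖p‖ ≤ r1 → κ p ≤ 0
  fsupp : ∀ p, ‖p‖ < R → r1 ≤ ‖p‖ → f p = 0

/-- Average of `w` over the left edge of the grid square `(i, j)` of side `σ`. -/
def edgeAvg (σ : ℝ) (w : P → ℝ) (i j : ℤ) : ℝ :=
  σ⁻¹ * ∫ y in ((j : ℝ) * σ)..(((j : ℝ) + 1) * σ), w ((i : ℝ) * σ, y)

/-- A fixed bump: equal to `1` on the closed ball of radius `1/2`, supported in the unit ball. -/
def bump : ContDiffBump (0 : P) := ⟨1 / 2, 1, by norm_num, by norm_num⟩

/-- A row of `d` bumps of size `h`, spacing `H`, along the vertical axis, with weights `τ * e j`. -/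
def Psi (d : ℕ) (τ h H : ℝ) (e : Fin d → ℝ) (p : P) : ℝ :=
  τ * ∑ j : Fin d, e j * bump (h⁻¹ • (p - ((0 : ℝ), (j : ℝ) * H)))

end Crest.Agent.R220
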