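import Crest.Agent.R220.Basic

open scoped ContDiff Topology
open MeasureTheory Set Metric Filter

noncomputable section
namespace Crest.Agent.R220

theorem bump_shift_smooth (c : ℝ) (a : P) : ContDiff ℝ ∞ (fun p : P => bump (c • (p - a))) :=
  bump.contDiff.comp ((contDiff_id.sub contDiff_const).const_smul c)

theorem Psi_smooth (d : ℕ) (τ h H : ℝ) (e : Fin d → ℝ) : ContDiff ℝ ∞ (Psi d τ h H e) := by
  unfold Psi
  exact contDiff_const.mul (ContDiff.sum fun j _ => contDiff_const.mul (bump_shift_smooth _ _))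

theorem Psi_sub (d : ℕ) (τ h H : ℝ) (e e' : Fin d → ℝ) (p : P) :
    Psi d τ h H e p - Psi d τ h H e' p = Psi d τ h H (e - e') p := by
  simp only [Psi, ← mul_sub, ← Finset.sum_sub_distrib, Pi.sub_apply, sub_mul]

theorem Psi_eq_zero (d : ℕ) (τ h H : ℝ) (e : Fin d → ℝ) (hh : 0 < h) (hH : h ≤ H) (p : P)
    (hp : (d : ℝ) * H ≤ ‖p‖) : Psi d τ h H e p = 0 := by
  unfold Psi
  rw [Finset.sum_eq_zero, mul_zero]
  intro j _
  rw [bump.zero_of_le_dist, mul_zero]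
  have hH0 : 0 < H := hh.trans_le hH
  have h1 : ‖(((0 : ℝ), (j : ℝ) * H) : P)‖ = j * H := by
    simp [Prod.norm_def, abs_of_pos hH0, hH0.le, mul_nonneg]
  have h2 : ((j : ℕ) : ℝ) + 1 ≤ d := by exact_mod_cast j.2
  have h3 := norm_sub_norm_le p (((0 : ℝ), (j : ℝ) * H) : P)
  rw [dist_zero_right, norm_smul, Real.norm_eq_abs, abs_of_pos (inv_pos.2 hh)]
  change (1 : ℝ) ≤ _
  rw [le_inv_mul_iff₀ hh]
  nlinarith

theorem bump_bound (N : ℕ) : ∃ C : ℝ, 0 ≤ C ∧ ∀ i ≤ N, ∀ p : P, ‖iteratedFDeriv ℝ i bump p‖ ≤ C := by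
  have h : ∀ i : ℕ, ∃ C : ℝ, ∀ p : P, ‖iteratedFDeriv ℝ i bump p‖ ≤ C := by
    intro i
    have hc : Continuous (iteratedFDeriv ℝ i bump) :=
      (bump.contDiff (n := ⊤)).continuous_iteratedFDeriv (by exact_mod_cast le_top)
    exact hc.bounded_above_of_compact_support (bump.hasCompactSupport.iteratedFDeriv i)
  choose C hC using h
  have h0 : ∀ i, 0 ≤ C i := fun i => (norm_nonneg _).trans (hC i 0)
  refine ⟨∑ i ∈ Finset.range (N + 1), C i, Finset.sum_nonneg fun i _ => h0 i, fun i hi p => ?_⟩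
  exact (hC i p).trans (Finset.single_le_sum (fun j _ => h0 j) (Finset.mem_range.2 (by omega)))

theorem Psi_CB (N : ℕ) : ∃ C : ℝ, 0 ≤ C ∧ ∀ (d : ℕ) (τ h H : ℝ) (e : Fin d → ℝ) (p : P),
    0 < h → h ≤ 1 → 0 ≤ τ → (∀ j, |e j| ≤ 1) → CB N (C * τ * d / h ^ N) (Psi d τ h H e) p := by
  obtain ⟨C, hC0, hC⟩ := bump_bound N
  refine ⟨C, hC0, fun d τ h H e p hh hh1 hτ he i hi => ?_⟩
  have hi' : ((i : ℕ∞) : WithTop ℕ∞) ≤ ∞ := by exact_mod_cast le_top
  have hterm : ∀ a : P, ‖iteratedFDeriv ℝ i (fun p : P => bump (h⁻¹ • (p - a))) p‖ ≤ C / h ^ N := by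
    intro a
    have h1 := iteratedFDeriv_comp_sub (𝕜 := ℝ) (f := fun q : P => bump (h⁻¹ • q)) i a p
    rw [h1, iteratedFDeriv_comp_const_smul h⁻¹ ((bump.contDiff (n := ⊤)).of_le hi'), norm_smul,
      Real.norm_eq_abs, abs_of_nonneg (by positivity), inv_pow, div_eq_inv_mul]
    apply mul_le_mul _ (hC i hi _) (norm_nonneg _) (by positivity)
    exact inv_anti₀ (by positivity) (pow_le_pow_of_le_one hh.le hh1 hi)
  have hP : Psi d τ h H e = ∑ j : Fin d,
      (τ * e j) • fun p : P => bump (h⁻¹ • (p - ((0 : ℝ), (j : ℝ) * H))) := by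
    funext q
    simp only [Psi, Finset.sum_apply, Pi.smul_apply, smul_eq_mul, Finset.mul_sum, mul_assoc]
  rw [hP, iteratedFDeriv_sum_apply
    (f := fun j : Fin d => (τ * e j) • fun p : P => bump (h⁻¹ • (p - ((0 : ℝ), (j : ℝ) * H))))
    (fun j _ => (((bump_shift_smooth h⁻¹ ((0 : ℝ), (j : ℝ) * H)).of_le hi').const_smul
      (τ * e j)).contDiffAt)]
  refine (norm_sum_le _ _).trans ?_
  have hj : ∀ j : Fin d, ‖iteratedFDeriv ℝ i
      ((τ * e j) • fun p : P => bump (h⁻¹ • (p - ((0 : ℝ), (j : ℝ) * H)))) p‖ ≤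
      τ * (C / h ^ N) := by
    intro j
    rw [iteratedFDeriv_const_smul_apply ((bump_shift_smooth _ _).of_le hi').contDiffAt, norm_smul,
      Real.norm_eq_abs, abs_mul, abs_of_nonneg hτ]
    calc τ * |e j| * _ ≤ τ * 1 * (C / h ^ N) := by gcongr; exacts [he j, hterm _]
      _ = _ := by ring
  refine (Finset.sum_le_sum fun j _ => hj j).trans (le_of_eq ?_)
  simp only [Finset.sum_const, Finset.card_univ, Fintype.card_fin, nsmul_eq_mul]
  ring

end Crest.Agent.R220
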