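import Crest.Agent.R220.Pair

/-!
The linear equation satisfied by the difference of two solutions, and the orders of magnitude of
its coefficients.
-/

open scoped ContDiff Topology
open MeasureTheory Set Metric Filter Asymptotics

noncomputable section
namespace Crest.Agent.R220

section S
variable {φ u : P → ℝ}

@[fun_prop] theorem sm_S11 (hφ : ContDiff ℝ ∞ φ) (hu : ContDiff ℝ ∞ u) :
    ContDiff ℝ ∞ (S11 φ u) := by unfold S11; fun_prop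
@[fun_prop] theorem sm_S12 (hφ : ContDiff ℝ ∞ φ) (hu : ContDiff ℝ ∞ u) :
    ContDiff ℝ ∞ (S12 φ u) := by unfold S12; fun_prop
@[fun_prop] theorem sm_S22 (hφ : ContDiff ℝ ∞ φ) (hu : ContDiff ℝ ∞ u) :
    ContDiff ℝ ∞ (S22 φ u) := by unfold S22; fun_prop
@[fun_prop] theorem sm_kap (hφ : ContDiff ℝ ∞ φ) : ContDiff ℝ ∞ (kap φ) := by
  unfold kap; fun_prop
@[fun_prop] theorem sm_mu (hφ : ContDiff ℝ ∞ φ) (hu : ContDiff ℝ ∞ u) :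
    ContDiff ℝ ∞ (mu φ u) := by unfold mu; fun_prop

/-- Put mixed derivatives in the normal form `dx (dx (.. dy ..))`. -/
macro "dcomm" : tactic => `(tactic| simp (disch := fun_prop) only [dy_dx_comm'])

theorem dx_S11 (hφ : ContDiff ℝ ∞ φ) (hu : ContDiff ℝ ∞ u) (p : P) : dx (S11 φ u) p =
    dx (dx (dx u)) p - dx (dx φ) p * dx u p - dx φ p * dx (dx u) p + dx (dy φ) p * dy u p
      + dy φ p * dx (dy u) p := by
  unfold S11; dsimp_d; ring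
theorem dy_S11 (hφ : ContDiff ℝ ∞ φ) (hu : ContDiff ℝ ∞ u) (p : P) : dy (S11 φ u) p =
    dx (dx (dy u)) p - dx (dy φ) p * dx u p - dx φ p * dx (dy u) p + dy (dy φ) p * dy u p
      + dy φ p * dy (dy u) p := by
  unfold S11; dsimp_d; dcomm; ring
theorem dx_S12 (hφ : ContDiff ℝ ∞ φ) (hu : ContDiff ℝ ∞ u) (p : P) : dx (S12 φ u) p =
    dx (dx (dy u)) p - dx (dy φ) p * dx u p - dy φ p * dx (dx u) p - dx (dx φ) p * dy u p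
      - dx φ p * dx (dy u) p := by
  unfold S12; dsimp_d; ring
theorem dy_S12 (hφ : ContDiff ℝ ∞ φ) (hu : ContDiff ℝ ∞ u) (p : P) : dy (S12 φ u) p =
    dx (dy (dy u)) p - dy (dy φ) p * dx u p - dy φ p * dx (dy u) p - dx (dy φ) p * dy u p
      - dx φ p * dy (dy u) p := by
  unfold S12; dsimp_d; dcomm; ring
theorem dx_S22 (hφ : ContDiff ℝ ∞ φ) (hu : ContDiff ℝ ∞ u) (p : P) : dx (S22 φ u) p =
    dx (dy (dy u)) p + dx (dx φ) p * dx u p + dx φ p * dx (dx u) p - dx (dy φ) p * dy u p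
      - dy φ p * dx (dy u) p := by
  unfold S22; dsimp_d; ring
theorem dy_S22 (hφ : ContDiff ℝ ∞ φ) (hu : ContDiff ℝ ∞ u) (p : P) : dy (S22 φ u) p =
    dy (dy (dy u)) p + dx (dy φ) p * dx u p + dx φ p * dx (dy u) p - dy (dy φ) p * dy u p
      - dy φ p * dy (dy u) p := by
  unfold S22; dsimp_d; dcomm; ring
theorem dx_mu (hφ : ContDiff ℝ ∞ φ) (hu : ContDiff ℝ ∞ u) (p : P) : dx (mu φ u) p =
    2 * dx φ p * Real.exp (2 * φ p) - 2 * dx u p * dx (dx u) p - 2 * dy u p * dx (dy u) p := by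
  unfold mu; dsimp_d; norm_num; ring
theorem dy_mu (hφ : ContDiff ℝ ∞ φ) (hu : ContDiff ℝ ∞ u) (p : P) : dy (mu φ u) p =
    2 * dy φ p * Real.exp (2 * φ p) - 2 * dx u p * dx (dy u) p - 2 * dy u p * dy (dy u) p := by
  unfold mu; dsimp_d; dcomm; norm_num; ring

end S

namespace Pair
variable {π : Par} (Q : Pair π)

def w : P → ℝ := fun p => Q.s.u p - Q.s'.u p
def ψd : P → ℝ := fun p => Q.s.ψ p - Q.s'.ψ p
def a11 : P → ℝ := fun p => (S22 Q.s.φ Q.s.u p + S22 Q.s'.φ Q.s'.u p) / 2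
def a12 : P → ℝ := fun p => -(S12 Q.s.φ Q.s.u p + S12 Q.s'.φ Q.s'.u p) / 2
def a22 : P → ℝ := fun p => (S11 Q.s.φ Q.s.u p + S11 Q.s'.φ Q.s'.u p) / 2
def κ : P → ℝ := fun p => Q.a11 p * Q.a22 p - Q.a12 p ^ 2
def b1 : P → ℝ := fun p => -Q.a11 p * dx Q.s'.φ p - 2 * Q.a12 p * dy Q.s'.φ p
  + Q.a22 p * dx Q.s'.φ p + kap Q.s'.φ p * (dx Q.s.u p + dx Q.s'.u p)
def b2 : P → ℝ := fun p => Q.a11 p * dy Q.s'.φ p - 2 * Q.a12 p * dx Q.s'.φ p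
  - Q.a22 p * dy Q.s'.φ p + kap Q.s'.φ p * (dy Q.s.u p + dy Q.s'.u p)
def f : P → ℝ := fun p => kap Q.ψd p * mu Q.s.φ Q.s.u p
  + kap Q.s'.φ p * (Real.exp (2 * Q.s.φ p) - Real.exp (2 * Q.s'.φ p))
  + dx Q.ψd p * (Q.a11 p * dx Q.s.u p + 2 * Q.a12 p * dy Q.s.u p - Q.a22 p * dx Q.s.u p)
  + dy Q.ψd p * (-Q.a11 p * dy Q.s.u p + 2 * Q.a12 p * dx Q.s.u p + Q.a22 p * dy Q.s.u p)
def η : P → ℝ := fun p => (dy Q.s.u p + dy Q.s'.u p) / 2 - (dy Q.s.u 0 + dy Q.s'.u 0) / 2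
def μb : P → ℝ := fun p => (mu Q.s.φ Q.s.u p + mu Q.s'.φ Q.s'.u p) / 2
def δ11 : P → ℝ := fun p => S11 Q.s.φ Q.s.u p - S11 Q.s'.φ Q.s'.u p
def δ12 : P → ℝ := fun p => S12 Q.s.φ Q.s.u p - S12 Q.s'.φ Q.s'.u p
def δ22 : P → ℝ := fun p => S22 Q.s.φ Q.s.u p - S22 Q.s'.φ Q.s'.u p

theorem sm_w : ContDiff ℝ ∞ Q.w := Q.s.hu.sub Q.s'.hu
theorem sm_ψd : ContDiff ℝ ∞ Q.ψd := Q.s.hψ.sub Q.s'.hψ
theorem sm_a11 : ContDiff ℝ ∞ Q.a11 := by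
  have := Q.s.hu; have := Q.s'.hu; have := Q.s.hφ; have := Q.s'.hφ
  unfold a11; fun_prop
theorem sm_a12 : ContDiff ℝ ∞ Q.a12 := by
  have := Q.s.hu; have := Q.s'.hu; have := Q.s.hφ; have := Q.s'.hφ
  unfold a12; fun_prop
theorem sm_a22 : ContDiff ℝ ∞ Q.a22 := by
  have := Q.s.hu; have := Q.s'.hu; have := Q.s.hφ; have := Q.s'.hφ
  unfold a22; fun_prop
theorem sm_κ : ContDiff ℝ ∞ Q.κ := by
  have := Q.sm_a11; have := Q.sm_a12; have := Q.sm_a22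
  unfold κ; fun_prop
theorem sm_b1 : ContDiff ℝ ∞ Q.b1 := by
  have := Q.s.hu; have := Q.s'.hu; have := Q.s.hφ; have := Q.s'.hφ
  have := Q.sm_a11; have := Q.sm_a12; have := Q.sm_a22
  unfold b1; fun_prop
theorem sm_b2 : ContDiff ℝ ∞ Q.b2 := by
  have := Q.s.hu; have := Q.s'.hu; have := Q.s.hφ; have := Q.s'.hφ
  have := Q.sm_a11; have := Q.sm_a12; have := Q.sm_a22
  unfold b2; fun_prop
theorem sm_f : ContDiff ℝ ∞ Q.f := by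
  have := Q.s.hu; have := Q.s'.hu; have := Q.s.hφ; have := Q.s'.hφ
  have := Q.sm_a11; have := Q.sm_a12; have := Q.sm_a22; have := Q.sm_ψd
  unfold f; fun_prop
theorem sm_η : ContDiff ℝ ∞ Q.η := by
  have := Q.s.hu; have := Q.s'.hu
  unfold η; fun_prop
theorem sm_δ11 : ContDiff ℝ ∞ Q.δ11 := by
  have := Q.s.hu; have := Q.s'.hu; have := Q.s.hφ; have := Q.s'.hφ
  unfold δ11; fun_prop
theorem sm_δ12 : ContDiff ℝ ∞ Q.δ12 := by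
  have := Q.s.hu; have := Q.s'.hu; have := Q.s.hφ; have := Q.s'.hφ
  unfold δ12; fun_prop
theorem sm_δ22 : ContDiff ℝ ∞ Q.δ22 := by
  have := Q.s.hu; have := Q.s'.hu; have := Q.s.hφ; have := Q.s'.hφ
  unfold δ22; fun_prop

theorem ψd_eq : Q.ψd = fun p => Q.s.φ p - Q.s'.φ p := by
  funext p; unfold ψd Sol.φ; ring

theorem dx_ψd : dx Q.ψd = fun p => dx Q.s.φ p - dx Q.s'.φ p := by
  have := Q.s.hφ; have := Q.s'.hφ
  funext p; rw [ψd_eq]; dsimp_d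
theorem dy_ψd : dy Q.ψd = fun p => dy Q.s.φ p - dy Q.s'.φ p := by
  have := Q.s.hφ; have := Q.s'.hφ
  funext p; rw [ψd_eq]; dsimp_d
theorem kap_ψd (p : P) : kap Q.ψd p = kap Q.s.φ p - kap Q.s'.φ p := by
  have := Q.s.hφ; have := Q.s'.hφ
  unfold kap; rw [dx_ψd, dy_ψd]; dsimp_d; ring
theorem dx_w : dx Q.w = fun p => dx Q.s.u p - dx Q.s'.u p := by
  have := Q.s.hu; have := Q.s'.hu
  funext p; unfold w; dsimp_d
theorem dy_w : dy Q.w = fun p => dy Q.s.u p - dy Q.s'.u p := by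
  have := Q.s.hu; have := Q.s'.hu
  funext p; unfold w; dsimp_d

theorem eqn (p : P) (hp : ‖p‖ < π.R * Q.ρ) :
    Q.a11 p * dx (dx Q.w) p + 2 * Q.a12 p * dx (dy Q.w) p + Q.a22 p * dy (dy Q.w) p
      + Q.b1 p * dx Q.w p + Q.b2 p * dy Q.w p = Q.f p := by
  have := Q.s.hu; have := Q.s'.hu
  have h1 : Darboux Q.s.φ Q.s.u p := Q.s.dar p hp
  have h2 : Darboux Q.s'.φ Q.s'.u p := Q.s'.dar p hp
  unfold f b1 b2
  rw [kap_ψd, dx_ψd, dy_ψd, dx_w, dy_w]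
  dsimp_d
  unfold a11 a12 a22
  unfold Darboux at h1 h2
  unfold mu S11 S12 S22 at *
  linear_combination h1 - h2

theorem κ_eq (p : P) (hp : ‖p‖ < π.R * Q.ρ) :
    Q.κ p = (kap Q.s.φ p * mu Q.s.φ Q.s.u p + kap Q.s'.φ p * mu Q.s'.φ Q.s'.u p) / 2
      - (Q.δ11 p * Q.δ22 p - Q.δ12 p ^ 2) / 4 := by
  have h1 : Darboux Q.s.φ Q.s.u p := Q.s.dar p hp
  have h2 : Darboux Q.s'.φ Q.s'.u p := Q.s'.dar p hp
  unfold Darboux at h1 h2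
  unfold κ a11 a12 a22 δ11 δ12 δ22
  linear_combination (h1 + h2) / 2

theorem isOpen_ball' (r : ℝ) : IsOpen {p : P | ‖p‖ < r} :=
  isOpen_lt continuous_norm continuous_const

theorem dx_κ_eq (p : P) (hp : ‖p‖ < π.R * Q.ρ) :
    dx Q.κ p = (dx (kap Q.s.φ) p * mu Q.s.φ Q.s.u p + kap Q.s.φ p * dx (mu Q.s.φ Q.s.u) p
      + dx (kap Q.s'.φ) p * mu Q.s'.φ Q.s'.u p + kap Q.s'.φ p * dx (mu Q.s'.φ Q.s'.u) p) / 2
      - (dx Q.δ11 p * Q.δ22 p + Q.δ11 p * dx Q.δ22 p - 2 * Q.δ12 p * dx Q.δ12 p) / 4 := by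
  have := Q.s.hu; have := Q.s'.hu; have := Q.s.hφ; have := Q.s'.hφ
  have := Q.sm_δ11; have := Q.sm_δ12; have := Q.sm_δ22
  have := sm_kap Q.s.hφ; have := sm_kap Q.s'.hφ
  have := sm_mu Q.s.hφ Q.s.hu; have := sm_mu Q.s'.hφ Q.s'.hu
  rw [dx_congr_on (isOpen_ball' _) (fun q hq => Q.κ_eq q hq) p hp]
  dsimp_d; norm_num; ring

theorem dy_κ_eq (p : P) (hp : ‖p‖ < π.R * Q.ρ) :
    dy Q.κ p = (dy (kap Q.s.φ) p * mu Q.s.φ Q.s.u p + kap Q.s.φ p * dy (mu Q.s.φ Q.s.u) p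
      + dy (kap Q.s'.φ) p * mu Q.s'.φ Q.s'.u p + kap Q.s'.φ p * dy (mu Q.s'.φ Q.s'.u) p) / 2
      - (dy Q.δ11 p * Q.δ22 p + Q.δ11 p * dy Q.δ22 p - 2 * Q.δ12 p * dy Q.δ12 p) / 4 := by
  have := Q.s.hu; have := Q.s'.hu; have := Q.s.hφ; have := Q.s'.hφ
  have := Q.sm_δ11; have := Q.sm_δ12; have := Q.sm_δ22
  have := sm_kap Q.s.hφ; have := sm_kap Q.s'.hφ
  have := sm_mu Q.s.hφ Q.s.hu; have := sm_mu Q.s'.hφ Q.s'.hu
  rw [dy_congr_on (isOpen_ball' _) (fun q hq => Q.κ_eq q hq) p hp]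
  dsimp_d; norm_num; ring

theorem dx_κ (p : P) : dx Q.κ p =
    dx Q.a11 p * Q.a22 p + Q.a11 p * dx Q.a22 p - 2 * Q.a12 p * dx Q.a12 p := by
  have := Q.sm_a11; have := Q.sm_a12; have := Q.sm_a22
  unfold κ; dsimp_d; norm_num
theorem dy_κ (p : P) : dy Q.κ p =
    dy Q.a11 p * Q.a22 p + Q.a11 p * dy Q.a22 p - 2 * Q.a12 p * dy Q.a12 p := by
  have := Q.sm_a11; have := Q.sm_a12; have := Q.sm_a22
  unfold κ; dsimp_d; norm_num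

theorem dx_η : dx Q.η = fun p => (dx (dy Q.s.u) p + dx (dy Q.s'.u) p) / 2 := by
  have := Q.s.hu; have := Q.s'.hu
  funext p; unfold η; dsimp_d; ring
theorem dy_η : dy Q.η = fun p => (dy (dy Q.s.u) p + dy (dy Q.s'.u) p) / 2 := by
  have := Q.s.hu; have := Q.s'.hu
  funext p; unfold η; dsimp_d; ring

theorem dx_a11 (p : P) :
    dx Q.a11 p = (dx (S22 Q.s.φ Q.s.u) p + dx (S22 Q.s'.φ Q.s'.u) p) / 2 := by
  have := sm_S22 Q.s.hφ Q.s.hu; have := sm_S22 Q.s'.hφ Q.s'.hu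
  unfold a11; dsimp_d
theorem dy_a11 (p : P) :
    dy Q.a11 p = (dy (S22 Q.s.φ Q.s.u) p + dy (S22 Q.s'.φ Q.s'.u) p) / 2 := by
  have := sm_S22 Q.s.hφ Q.s.hu; have := sm_S22 Q.s'.hφ Q.s'.hu
  unfold a11; dsimp_d
theorem dx_a12 (p : P) :
    dx Q.a12 p = -(dx (S12 Q.s.φ Q.s.u) p + dx (S12 Q.s'.φ Q.s'.u) p) / 2 := by
  have := sm_S12 Q.s.hφ Q.s.hu; have := sm_S12 Q.s'.hφ Q.s'.hu
  unfold a12; dsimp_d
theorem dy_a12 (p : P) :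
    dy Q.a12 p = -(dy (S12 Q.s.φ Q.s.u) p + dy (S12 Q.s'.φ Q.s'.u) p) / 2 := by
  have := sm_S12 Q.s.hφ Q.s.hu; have := sm_S12 Q.s'.hφ Q.s'.hu
  unfold a12; dsimp_d
theorem dx_a22 (p : P) :
    dx Q.a22 p = (dx (S11 Q.s.φ Q.s.u) p + dx (S11 Q.s'.φ Q.s'.u) p) / 2 := by
  have := sm_S11 Q.s.hφ Q.s.hu; have := sm_S11 Q.s'.hφ Q.s'.hu
  unfold a22; dsimp_d
theorem dy_a22 (p : P) :
    dy Q.a22 p = (dy (S11 Q.s.φ Q.s.u) p + dy (S11 Q.s'.φ Q.s'.u) p) / 2 := by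
  have := sm_S11 Q.s.hφ Q.s.hu; have := sm_S11 Q.s'.hφ Q.s'.hu
  unfold a22; dsimp_d
theorem dx_δ11 (p : P) : dx Q.δ11 p = dx (S11 Q.s.φ Q.s.u) p - dx (S11 Q.s'.φ Q.s'.u) p := by
  have := sm_S11 Q.s.hφ Q.s.hu; have := sm_S11 Q.s'.hφ Q.s'.hu
  unfold δ11; dsimp_d
theorem dy_δ11 (p : P) : dy Q.δ11 p = dy (S11 Q.s.φ Q.s.u) p - dy (S11 Q.s'.φ Q.s'.u) p := by
  have := sm_S11 Q.s.hφ Q.s.hu; have := sm_S11 Q.s'.hφ Q.s'.hu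
  unfold δ11; dsimp_d
theorem dx_δ12 (p : P) : dx Q.δ12 p = dx (S12 Q.s.φ Q.s.u) p - dx (S12 Q.s'.φ Q.s'.u) p := by
  have := sm_S12 Q.s.hφ Q.s.hu; have := sm_S12 Q.s'.hφ Q.s'.hu
  unfold δ12; dsimp_d
theorem dy_δ12 (p : P) : dy Q.δ12 p = dy (S12 Q.s.φ Q.s.u) p - dy (S12 Q.s'.φ Q.s'.u) p := by
  have := sm_S12 Q.s.hφ Q.s.hu; have := sm_S12 Q.s'.hφ Q.s'.hu
  unfold δ12; dsimp_d
theorem dx_δ22 (p : P) : dx Q.δ22 p = dx (S22 Q.s.φ Q.s.u) p - dx (S22 Q.s'.φ Q.s'.u) p := by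
  have := sm_S22 Q.s.hφ Q.s.hu; have := sm_S22 Q.s'.hφ Q.s'.hu
  unfold δ22; dsimp_d
theorem dy_δ22 (p : P) : dy Q.δ22 p = dy (S22 Q.s.φ Q.s.u) p - dy (S22 Q.s'.φ Q.s'.u) p := by
  have := sm_S22 Q.s.hφ Q.s.hu; have := sm_S22 Q.s'.hφ Q.s'.hu
  unfold δ22; dsimp_d

end Pair

end Crest.Agent.R220
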