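import Crest.Agent.R220.Bump

open scoped ContDiff Topology
open MeasureTheory Set Metric Filter

noncomputable section
namespace Crest.Agent.R220

theorem det_cut : ∃ (c c' : ℝ → ℝ) (c1 : ℝ), 0 ≤ c1 ∧ ContDiff ℝ ∞ c ∧ (∀ t, HasDerivAt c (c' t) t) ∧
    (∀ t, |c t| ≤ 1) ∧ (∀ t, |c' t| ≤ c1) ∧ (∀ t, |t| ≤ 1 → c t = 1) ∧ (∀ t, 2 ≤ |t| → c t = 0) ∧
    (∀ t, |t| < 1 → c' t = 0) ∧ (∀ t, 2 < |t| → c' t = 0) := by
  let c : ContDiffBump (0 : ℝ) := ⟨1, 2, by norm_num, by norm_num⟩
  have hc : ContDiff ℝ ∞ c := c.contDiff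
  have hd : Continuous (deriv c) := hc.continuous_deriv (by simp)
  obtain ⟨c1, hc1⟩ := hd.bounded_above_of_compact_support c.hasCompactSupport.deriv
  refine ⟨c, deriv c, c1, (norm_nonneg _).trans (hc1 0), hc,
    fun t => (hc.differentiable (by simp) t).hasDerivAt, fun t => ?_, hc1, fun t ht => ?_,
    fun t ht => ?_, fun t ht => ?_, fun t ht => ?_⟩
  · rw [abs_of_nonneg c.nonneg]; exact c.le_one
  · exact c.one_of_mem_closedBall (by simpa using ht)
  · exact c.zero_of_le_dist (by simpa using ht)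
  · rw [(c.eventuallyEq_one_of_mem_ball (x := t) (by simpa using ht)).deriv_eq]
    simp
  · have : t ∉ tsupport c := by
      rw [c.tsupport_eq]
      simpa using ht
    rw [(notMem_tsupport_iff_eventuallyEq.1 this).deriv_eq]
    simp

theorem det_bump_int (h : ℝ) (hh : 0 < h) (a : P) :
    h ^ 2 ≤ ∫ p : P, bump (h⁻¹ • (p - a)) := by
  have hc : Continuous fun p : P => bump (h⁻¹ • (p - a)) := (bump_shift_smooth _ _).continuous
  have hs : HasCompactSupport fun p : P => bump (h⁻¹ • (p - a)) := by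
    apply HasCompactSupport.intro (isCompact_closedBall a h)
    intro p hp
    apply bump.zero_of_le_dist
    rw [mem_closedBall, dist_eq_norm, not_le] at hp
    rw [dist_zero_right, norm_smul, Real.norm_eq_abs, abs_of_pos (inv_pos.2 hh)]
    change (1 : ℝ) ≤ _
    rw [le_inv_mul_iff₀ hh]
    linarith
  have hi := hc.integrable_of_hasCompactSupport (μ := volume) hs
  have h1 : ∫ p in closedBall a (h / 2), bump (h⁻¹ • (p - a)) ≤ ∫ p : P, bump (h⁻¹ • (p - a)) :=
    setIntegral_le_integral hi (Eventually.of_forall fun _ => bump.nonneg)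
  refine le_trans (le_of_eq ?_) h1
  rw [setIntegral_congr_fun (g := fun _ => (1 : ℝ)) measurableSet_closedBall]
  · rw [setIntegral_const, smul_eq_mul, mul_one, measureReal_def, ← closedBall_prod_same,
      Measure.volume_eq_prod, Measure.prod_prod, Real.volume_closedBall, Real.volume_closedBall,
      ENNReal.toReal_mul, ENNReal.toReal_ofReal (by positivity)]
    ring
  · intro p hp
    apply bump.one_of_mem_closedBall
    rw [mem_closedBall, dist_eq_norm] at hp
    rw [mem_closedBall, dist_zero_right, norm_smul, Real.norm_eq_abs, abs_of_pos (inv_pos.2 hh)]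
    change _ ≤ (1 / 2 : ℝ)
    rw [inv_mul_le_iff₀ hh]
    linarith

theorem det_vol {D : ℝ} (hD : 0 ≤ D) : volume.real (closedBall (0 : P) D) = 4 * D ^ 2 := by
  rw [measureReal_def, ← closedBall_prod_same, Measure.volume_eq_prod, Measure.prod_prod,
    Real.volume_closedBall, Real.volume_closedBall, ENNReal.toReal_mul,
    ENNReal.toReal_ofReal (by positivity)]
  ring

theorem det_green {f g : P → ℝ} (hf : ContDiff ℝ ∞ f) (hg : ContDiff ℝ ∞ g)
    (hc : HasCompactSupport g) : ∫ p, kap f p * g p = ∫ p, f p * kap g p := by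
  have D : ∀ {f : P → ℝ}, ContDiff ℝ ∞ f → ∀ p, DifferentiableAt ℝ f p :=
    fun hf p => sm_diff hf p
  have s1 : ContDiff ℝ ∞ fun p => f p * dx g p - dx f p * g p := by fun_prop
  have s2 : ContDiff ℝ ∞ fun p => f p * dy g p - dy f p * g p := by fun_prop
  have c1 : HasCompactSupport fun p => f p * dx g p - dx f p * g p :=
    (hasCompactSupport_dx hc).mul_left.sub hc.mul_left
  have c2 : HasCompactSupport fun p => f p * dy g p - dy f p * g p :=
    (hasCompactSupport_dy hc).mul_left.sub hc.mul_left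
  have i1 := (sm_dx s1).continuous.integrable_of_hasCompactSupport (μ := volume)
    (hasCompactSupport_dx c1)
  have i2 := (sm_dy s2).continuous.integrable_of_hasCompactSupport (μ := volume)
    (hasCompactSupport_dy c2)
  have s3 : ContDiff ℝ ∞ fun p => kap f p * g p := by unfold kap; fun_prop
  have i3 := s3.continuous.integrable_of_hasCompactSupport (μ := volume) hc.mul_left
  have e : ∀ p, f p * kap g p = kap f p * g p - (dx (fun p => f p * dx g p - dx f p * g p) p +
      dy (fun p => f p * dy g p - dy f p * g p) p) := by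
    intro p
    rw [dx_sub (D (by fun_prop) p) (D (by fun_prop) p), dy_sub (D (by fun_prop) p) (D (by fun_prop) p),
      dx_mul (D hf p) (D (by fun_prop) p), dx_mul (D (by fun_prop) p) (D hg p),
      dy_mul (D hf p) (D (by fun_prop) p), dy_mul (D (by fun_prop) p) (D hg p)]
    unfold kap
    ring
  simp only [e]
  rw [integral_sub i3 (i1.fun_add i2), integral_add i1 i2, integral_dx (sm_one s1) c1,
    integral_dy (sm_one s2) c2]
  ring

/-- Testing the equation against a cut-off plane wave of the frozen operator detects one bump. -/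
theorem detect (K r1 rmin R : ℝ) (hK : 1 ≤ K) :
    ∃ C : ℝ, 0 ≤ C ∧ ∀ (L : Lin K r1 rmin R) (d : ℕ) (τ h H X D s ν μ0 E : ℝ) (e : Fin d → ℝ)
      (i : Fin d), 0 < h → 0 ≤ τ → 4 * (1 + |s|) * h ≤ H → H ≤ X →
      2 * (1 + |s|) * X + ((d : ℝ) + 1) * H ≤ D → D ≤ 1 → D < R → |s| ≤ K → |ν| ≤ K →
      L.a12 0 - s * L.a11 0 = ν → L.a22 0 - s * L.a12 0 = ν * s →
      |e i| = 1 → K⁻¹ ≤ μ0 → 0 ≤ E →
      (∀ p, ‖p‖ ≤ D → |L.f p - μ0 * kap (Psi d τ h H e) p| ≤ E) →
      τ * h ^ 2 ≤ C * (E * D ^ 4
        + D ^ 2 * (∫ p in closedBall (0 : P) D, (|dx L.w p| + |dy L.w p|))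
        + D * ∫ p in {p : P | X ≤ |p.1| ∧ |p.1| ≤ 2 * X ∧ |p.2 - (i : ℝ) * H - s * p.1| ≤ H},
            (|dx L.w p| + |dy L.w p|)) := by
  obtain ⟨c, c', c1, hc1, hcs, hcd, hcb, hcb', hc_one, hc_zero, hc'_in, hc'_out⟩ := det_cut
  have hK0 : 0 < K := by linarith
  set C₁ := (1 + c1) * (2 * K * (K + 1)) + 3 * K with hC₁
  set C₂ := c1 * (2 * K) with hC₂
  have hC₁0 : 0 ≤ C₁ := by positivity
  have hC₂0 : 0 ≤ C₂ := by positivity
  refine ⟨K * (4 + C₁ + C₂), by positivity, ?_⟩
  intro L d τ h H X D s ν μ0 E e i hh hτ hH hX hD hD1 hDR hs hν ha1 ha2 he hμ hE hf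
  have Df : ∀ {f : P → ℝ}, ContDiff ℝ ∞ f → ∀ p, DifferentiableAt ℝ f p :=
    fun hf p => sm_diff hf p
  have hs0 : 0 ≤ |s| := abs_nonneg s
  have hH0 : 0 < H := by nlinarith
  have hhH : 4 * h ≤ H := by nlinarith
  have hX0 : 0 < X := by linarith
  have hd0 : (0 : ℝ) ≤ d := Nat.cast_nonneg _
  have hXD : 2 * X ≤ D := by nlinarith
  have hD0 : 0 < D := by linarith
  have hHD : H ≤ D := by linarith
  have hi0 : (0 : ℝ) ≤ i := Nat.cast_nonneg _
  have hid : ((i : ℕ) : ℝ) + 1 ≤ d := by exact_mod_cast i.2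
  set T : P → ℝ := fun p => p.2 - (i : ℝ) * H - s * p.1 with hT
  have hTs : ContDiff ℝ ∞ T := by fun_prop
  have hTx : ∀ p, dx T p = -s := fun p => by
    rw [hT, dx_sub (by fun_prop) (by fun_prop), dx_sub (by fun_prop) (by fun_prop),
      dx_const_mul s (by fun_prop)]
    simp
  have hTy : ∀ p, dy T p = 1 := fun p => by
    rw [hT, dy_sub (by fun_prop) (by fun_prop), dy_sub (by fun_prop) (by fun_prop),
      dy_const_mul s (by fun_prop)]
    simp
  have hball : ∀ p : P, |p.1| ≤ 2 * X → |T p| ≤ H → ‖p‖ ≤ D := by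
    intro p h1 h2
    rw [Prod.norm_def, max_le_iff, Real.norm_eq_abs, Real.norm_eq_abs]
    refine ⟨h1.trans hXD, ?_⟩
    have e1 : p.2 = T p + i * H + s * p.1 := by simp only [hT]; ring
    have e2 : |s * p.1| ≤ |s| * (2 * X) := by rw [abs_mul]; gcongr
    have e3 := abs_le.1 h2
    have e4 := abs_le.1 e2
    rw [e1, abs_le]
    constructor <;> nlinarith [e3.1, e3.2, e4.1, e4.2]
  set Θ : ℝ → ℝ := fun t => t ^ 2 / 2 * c (4 * t / H) with hΘ
  set Θ' : ℝ → ℝ := fun t => t * c (4 * t / H) + t ^ 2 / 2 * (c' (4 * t / H) * (4 / H)) with hΘ'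
  have hΘs : ContDiff ℝ ∞ Θ := by
    have : ContDiff ℝ ∞ fun t : ℝ => c (4 * t / H) := hcs.comp (by fun_prop)
    exact ContDiff.mul (by fun_prop) this
  have hΘd : ∀ t, HasDerivAt Θ (Θ' t) t := by
    intro t
    have h1 : HasDerivAt (fun t : ℝ => 4 * t / H) (4 / H) t := by
      simpa using ((hasDerivAt_id t).const_mul 4).div_const H
    have h2 : HasDerivAt (fun t : ℝ => t ^ 2 / 2) t t := by
      simpa using (hasDerivAt_pow 2 t).div_const 2
    exact h2.mul ((hcd _).comp t h1)
  have habs4 : ∀ t, |4 * t / H| = 4 * |t| / H := fun t => by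
    rw [abs_div, abs_mul, abs_of_pos hH0]; norm_num
  have hΘ0 : ∀ t, H / 2 < |t| → Θ t = 0 ∧ Θ' t = 0 := by
    intro t ht
    have : 2 < |4 * t / H| := by rw [habs4, lt_div_iff₀ hH0]; linarith
    simp [hΘ, hΘ', hc_zero _ this.le, hc'_out _ this]
  have hΘb : ∀ t, |Θ t| ≤ H ^ 2 ∧ |Θ' t| ≤ (1 + c1) * H := by
    intro t
    by_cases ht : H / 2 < |t|
    · rw [(hΘ0 t ht).1, (hΘ0 t ht).2, abs_zero]
      constructor <;> positivity
    · push Not at ht
      have h1 : t ^ 2 ≤ (H / 2) ^ 2 := by rw [← sq_abs]; gcongr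
      constructor
      · rw [hΘ, abs_mul, abs_of_nonneg (by positivity : 0 ≤ t ^ 2 / 2)]
        calc t ^ 2 / 2 * |c (4 * t / H)| ≤ (H / 2) ^ 2 / 2 * 1 := by gcongr; exact hcb _
          _ ≤ H ^ 2 := by nlinarith
      · calc |Θ' t| ≤ |t * c (4 * t / H)| + |t ^ 2 / 2 * (c' (4 * t / H) * (4 / H))| :=
              abs_add_le _ _
          _ = |t| * |c (4 * t / H)| + t ^ 2 / 2 * (|c' (4 * t / H)| * (4 / H)) := by
              rw [abs_mul, abs_mul, abs_mul, abs_of_nonneg (by positivity : 0 ≤ t ^ 2 / 2),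
                abs_of_pos (by positivity : 0 < 4 / H)]
          _ ≤ H / 2 * 1 + (H / 2) ^ 2 / 2 * (c1 * (4 / H)) := by
              gcongr
              exacts [hcb _, hcb' _]
          _ = (1 + c1) * H / 2 := by field_simp; ring
          _ ≤ (1 + c1) * H := by
              have : 0 ≤ (1 + c1) * H := by positivity
              linarith
  set χ : P → ℝ := fun p => c (p.1 / X) with hχ
  set χ' : P → ℝ := fun p => c' (p.1 / X) * (1 / X) with hχ'
  have hχs : ContDiff ℝ ∞ χ := hcs.comp (by fun_prop)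
  have hχx : ∀ p, dx χ p = χ' p := fun p => by
    rw [hχ, dx_comp (hcd _) (by fun_prop), dx_div_const _ (by fun_prop), dx_fst]
  have hχy : ∀ p, dy χ p = 0 := fun p => by
    rw [hχ, dy_comp (hcd _) (by fun_prop), dy_div_const _ (by fun_prop), dy_fst]
    simp
  have habsX : ∀ x : ℝ, |x / X| = |x| / X := fun x => by rw [abs_div, abs_of_pos hX0]
  have hχ0 : ∀ p : P, 2 * X < |p.1| → χ p = 0 ∧ χ' p = 0 := by
    intro p hp
    have : 2 < |p.1 / X| := by rw [habsX, lt_div_iff₀ hX0]; exact hp
    simp [hχ, hχ', hc_zero _ this.le, hc'_out _ this]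
  have hχ1 : ∀ p : P, |p.1| < X → χ p = 1 ∧ χ' p = 0 := by
    intro p hp
    have : |p.1 / X| < 1 := by rw [habsX, div_lt_one hX0]; exact hp
    simp [hχ, hχ', hc_one _ this.le, hc'_in _ this]
  set v : P → ℝ := fun p => χ p * Θ (T p) with hv
  have hθs : ContDiff ℝ ∞ fun p => Θ (T p) := hΘs.comp hTs
  have hvs : ContDiff ℝ ∞ v := hχs.mul hθs
  have hvx : ∀ p, dx v p = χ' p * Θ (T p) - s * (χ p * Θ' (T p)) := fun p => by
    rw [hv, dx_mul (Df hχs p) (Df hθs p), hχx, dx_comp (hΘd _) (Df hTs p), hTx]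
    ring
  have hvy : ∀ p, dy v p = χ p * Θ' (T p) := fun p => by
    rw [hv, dy_mul (Df hχs p) (Df hθs p), hχy, dy_comp (hΘd _) (Df hTs p), hTy]
    ring
  have hout : ∀ p : P, ¬ ‖p‖ ≤ D → v p = 0 ∧ χ p * Θ' (T p) = 0 := by
    intro p hp
    by_cases h1 : 2 * X < |p.1|
    · simp [hv, (hχ0 p h1).1]
    · by_cases h2 : H / 2 < |T p|
      · simp [hv, hΘ0 _ h2]
      · exact absurd (hball p (not_lt.1 h1) (by linarith [not_lt.1 h2])) hp
  have hvc : HasCompactSupport v := HasCompactSupport.intro (isCompact_closedBall 0 D)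
    fun p hp => (hout p (by simpa using hp)).1
  have hχb : ∀ p, |χ p| ≤ 1 := fun p => hcb _
  have hvb : ∀ p, |v p| ≤ D ^ 2 := fun p => by
    rw [hv, abs_mul]
    calc |χ p| * |Θ (T p)| ≤ 1 * H ^ 2 := by gcongr; exacts [hχb p, (hΘb _).1]
      _ ≤ D ^ 2 := by rw [one_mul]; gcongr
  -- the signal
  have hΨs := Psi_smooth d τ h H e
  have hsig : τ * h ^ 2 ≤ |∫ p, kap (Psi d τ h H e) p * v p| := by
    rw [det_green hΨs hvs hvc]
    have hpt : ∀ p, Psi d τ h H e p * kap v p =
        -(τ * e i * (1 + s ^ 2)) * bump (h⁻¹ • (p - ((0 : ℝ), (i : ℝ) * H))) := by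
      intro p
      have hsupp : ∀ j : Fin d, bump (h⁻¹ • (p - ((0 : ℝ), (j : ℝ) * H))) ≠ 0 →
          |p.1| < h ∧ |T p - ((j : ℝ) - i) * H| < H / 4 := by
        intro j hj
        have h1 : ‖p - ((0 : ℝ), (j : ℝ) * H)‖ < h := by
          by_contra hcon
          apply hj
          apply bump.zero_of_le_dist
          rw [dist_zero_right, norm_smul, Real.norm_eq_abs, abs_of_pos (inv_pos.2 hh)]
          change (1 : ℝ) ≤ _
          rw [le_inv_mul_iff₀ hh]
          linarith [not_lt.1 hcon]
        have h2 : |p.1| < h := by simpa using (abs_fst_le _).trans_lt h1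
        have h3 : |p.2 - j * H| < h := by simpa using (abs_snd_le _).trans_lt h1
        refine ⟨h2, ?_⟩
        have e1 : T p - ((j : ℝ) - i) * H = (p.2 - j * H) - s * p.1 := by simp only [hT]; ring
        have e2 : |s * p.1| ≤ |s| * h := by rw [abs_mul]; gcongr
        rw [e1]
        linarith [abs_sub (p.2 - j * H) (s * p.1)]
      rw [Psi, mul_assoc, Finset.sum_mul, Finset.sum_eq_single i]
      · by_cases hb : bump (h⁻¹ • (p - ((0 : ℝ), (i : ℝ) * H))) = 0
        · rw [hb]; ring
        · obtain ⟨h1, h2⟩ := hsupp i hb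
          rw [sub_self, zero_mul, sub_zero] at h2
          let U : Set P := {q | |q.1| < X ∧ |T q| < H / 4}
          have hU : IsOpen U := by
            have := hTs.continuous
            exact (isOpen_lt continuous_fst.abs continuous_const).inter
              (isOpen_lt this.abs continuous_const)
          have hpU : p ∈ U := ⟨by linarith, h2⟩
          have hΘ1 : ∀ q ∈ U, Θ' (T q) = T q := by
            intro q hq
            have : |4 * T q / H| < 1 := by rw [habs4, div_lt_one hH0]; linarith [hq.2]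
            simp [hΘ', hc_one _ this.le, hc'_in _ this]
          have e1 : ∀ q ∈ U, dx v q = -s * T q := fun q hq => by
            rw [hvx, (hχ1 q hq.1).1, (hχ1 q hq.1).2, hΘ1 q hq]; ring
          have e2 : ∀ q ∈ U, dy v q = T q := fun q hq => by
            rw [hvy, (hχ1 q hq.1).1, hΘ1 q hq]; ring
          rw [kap, dx_congr_on hU e1 p hpU, dy_congr_on hU e2 p hpU, dx_const_mul _ (Df hTs p),
            hTx, hTy]
          ring
      · intro j _ hji
        by_cases hb : bump (h⁻¹ • (p - ((0 : ℝ), (j : ℝ) * H))) = 0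
        · rw [hb]; ring
        · obtain ⟨-, h2⟩ := hsupp j hb
          have h3 : (1 : ℝ) ≤ |(j : ℝ) - i| := by
            have : (j : ℤ) - i ≠ 0 := by
              intro h0
              exact hji (Fin.ext (by omega))
            exact_mod_cast Int.one_le_abs this
          have h4 : H ≤ |((j : ℝ) - i) * H| := by
            rw [abs_mul, abs_of_pos hH0]; nlinarith
          have h5 := abs_sub_abs_le_abs_sub (((j : ℝ) - i) * H) (T p)
          rw [abs_sub_comm _ (T p)] at h5
          let U : Set P := {q | H / 2 < |T q|}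
          have hU : IsOpen U := by
            have := hTs.continuous
            exact isOpen_lt continuous_const (by fun_prop)
          have hpU : p ∈ U := by
            change H / 2 < |T p|
            linarith
          have e1 : ∀ q ∈ U, dx v q = 0 := fun q hq => by
            rw [hvx, (hΘ0 _ hq).1, (hΘ0 _ hq).2]; ring
          have e2 : ∀ q ∈ U, dy v q = 0 := fun q hq => by
            rw [hvy, (hΘ0 _ hq).2]; ring
          rw [kap, dx_congr_on hU e1 p hpU, dy_congr_on hU e2 p hpU]
          simp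
      · simp
    simp only [hpt]
    have hb := det_bump_int h hh ((0 : ℝ), (i : ℝ) * H)
    rw [integral_const_mul, abs_mul, abs_neg, abs_mul, abs_mul, he, abs_of_nonneg hτ,
      abs_of_pos (by positivity : 0 < 1 + s ^ 2), abs_of_nonneg (le_trans (sq_nonneg h) hb)]
    calc τ * h ^ 2 = τ * 1 * 1 * h ^ 2 := by ring
      _ ≤ _ := by gcongr; nlinarith [sq_nonneg s]
  -- the error in the right-hand side
  have hkc : Continuous (kap (Psi d τ h H e)) := by
    have : ContDiff ℝ ∞ (kap (Psi d τ h H e)) := by unfold kap; fun_prop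
    exact this.continuous
  have if1 : Integrable fun p => L.f p * v p :=
    (L.hf.continuous.mul hvs.continuous).integrable_of_hasCompactSupport hvc.mul_left
  have if2 : Integrable fun p => kap (Psi d τ h H e) p * v p :=
    (hkc.mul hvs.continuous).integrable_of_hasCompactSupport hvc.mul_left
  have herr : |(∫ p, L.f p * v p) - μ0 * ∫ p, kap (Psi d τ h H e) p * v p| ≤ 4 * (E * D ^ 4) := by
    rw [← integral_const_mul, ← integral_sub if1 (if2.const_mul _)]
    have := norm_integral_le_of_norm_le (μ := volume)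
      (f := fun p => L.f p * v p - μ0 * (kap (Psi d τ h H e) p * v p))
      (g := (closedBall (0 : P) D).indicator fun _ => E * D ^ 2)
      ((integrable_indicator_iff measurableSet_closedBall).2
        (integrableOn_const (isCompact_closedBall _ _).measure_lt_top.ne))
      (Eventually.of_forall fun p => by
        by_cases hp : ‖p‖ ≤ D
        · rw [indicator_of_mem (by simpa using hp), Real.norm_eq_abs, ← mul_assoc μ0, ← sub_mul,
            abs_mul]
          exact mul_le_mul (hf p hp) (hvb p) (abs_nonneg _) hE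
        · rw [indicator_of_notMem (by simpa using hp), (hout p hp).1]
          simp)
    rw [integral_indicator measurableSet_closedBall, setIntegral_const, det_vol hD0.le,
      smul_eq_mul, Real.norm_eq_abs] at this
    linarith
  -- the equation tested against `v`
  set Cut : Set P := {p : P | X ≤ |p.1| ∧ |p.1| ≤ 2 * X ∧ |p.2 - (i : ℝ) * H - s * p.1| ≤ H}
    with hCut
  have hCutm : MeasurableSet Cut := by
    apply IsClosed.measurableSet
    exact (isClosed_le continuous_const continuous_fst.abs).inter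
      ((isClosed_le continuous_fst.abs continuous_const).inter
        (isClosed_le hTs.continuous.abs continuous_const))
  have hCutb : Cut ⊆ closedBall 0 D := fun p hp => by simpa using hball p hp.2.1 hp.2.2
  set g : P → ℝ := fun p => |dx L.w p| + |dy L.w p| with hg
  have wx := sm_dx L.hw
  have wy := sm_dy L.hw
  have hgc : Continuous g := wx.continuous.abs.add wy.continuous.abs
  have hgi : IntegrableOn g (closedBall 0 D) :=
    hgc.continuousOn.integrableOn_compact (isCompact_closedBall _ _)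
  have h11 := L.h11
  have h12 := L.h12
  have h22 := L.h22
  set P1 : P → ℝ := fun p => v p * (L.a11 p * dx L.w p + (L.a12 p + ν) * dy L.w p) with hP1
  set P2 : P → ℝ := fun p => v p * ((L.a12 p - ν) * dx L.w p + L.a22 p * dy L.w p) with hP2
  have s1 : ContDiff ℝ ∞ P1 := by fun_prop
  have s2 : ContDiff ℝ ∞ P2 := by fun_prop
  have k1 : HasCompactSupport P1 := hvc.mul_right
  have k2 : HasCompactSupport P2 := hvc.mul_right
  have i1 := (sm_dx s1).continuous.integrable_of_hasCompactSupport (μ := volume)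
    (hasCompactSupport_dx k1)
  have i2 := (sm_dy s2).continuous.integrable_of_hasCompactSupport (μ := volume)
    (hasCompactSupport_dy k2)
  have hid2 : ∀ p, L.f p * v p - (dx P1 p + dy P2 p) =
      -(χ' p * Θ (T p)) * (L.a11 p * dx L.w p + (L.a12 p + ν) * dy L.w p)
      - χ p * Θ' (T p) * ((-s * (L.a11 p - L.a11 0) + (L.a12 p - L.a12 0)) * dx L.w p
          + (-s * (L.a12 p - L.a12 0) + (L.a22 p - L.a22 0)) * dy L.w p)
      + v p * ((L.b1 p - dx L.a11 p - dy L.a12 p) * dx L.w p
          + (L.b2 p - dx L.a12 p - dy L.a22 p) * dy L.w p) := by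
    intro p
    have hfv : L.f p * v p = (L.a11 p * dx (dx L.w) p + 2 * L.a12 p * dx (dy L.w) p +
        L.a22 p * dy (dy L.w) p + L.b1 p * dx L.w p + L.b2 p * dy L.w p) * v p := by
      by_cases hp : ‖p‖ ≤ D
      · rw [L.eqn p (hp.trans_lt hDR)]
      · rw [(hout p hp).1]; ring
    rw [hfv, hP1, hP2, dx_mul (Df hvs p) (Df (by fun_prop) p), dy_mul (Df hvs p) (Df (by fun_prop) p),
      dx_add (Df (by fun_prop) p) (Df (by fun_prop) p),
      dy_add (Df (by fun_prop) p) (Df (by fun_prop) p),
      dx_mul (Df h11 p) (Df wx p), dx_mul (Df (by fun_prop) p) (Df wy p),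
      dy_mul (Df (by fun_prop) p) (Df wx p), dy_mul (Df h22 p) (Df wy p),
      dx_add (Df h12 p) (differentiableAt_const _), dy_sub (Df h12 p) (differentiableAt_const _),
      dx_const, dy_const, dy_dx_comm' L.hw, hvx, hvy]
    linear_combination (-(χ p * Θ' (T p) * dx L.w p)) * ha1 - χ p * Θ' (T p) * dy L.w p * ha2
  have lin : ∀ (α β B : ℝ) (p : P), |α| ≤ B → |β| ≤ B →
      |α * dx L.w p + β * dy L.w p| ≤ B * g p := by
    intro α β B p h1 h2
    calc |α * dx L.w p + β * dy L.w p| ≤ |α| * |dx L.w p| + |β| * |dy L.w p| := by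
          rw [← abs_mul, ← abs_mul]; exact abs_add_le _ _
      _ ≤ B * |dx L.w p| + B * |dy L.w p| := by gcongr
      _ = B * g p := by rw [hg]; ring
  have hosc : ∀ {a : P → ℝ}, ContDiff ℝ ∞ a → (∀ q, ‖q‖ < R → |dx a q| ≤ K) →
      (∀ q, ‖q‖ < R → |dy a q| ≤ K) → ∀ p : P, ‖p‖ ≤ D → |a p - a 0| ≤ 2 * K * D := by
    intro a ha hx hy p hp
    have := abs_sub_le_of_dx_dy (s := ball (0 : P) R) (convex_ball _ _) (L := K)
      (fun q _ => Df ha q) (fun q hq => hx q (by simpa using hq))
      (fun q hq => hy q (by simpa using hq)) (p := p) (q := 0)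
      (by simpa using hp.trans_lt hDR) (by simpa using hD0.trans hDR)
    rw [sub_zero] at this
    exact this.trans (by gcongr)
  have hmain : |∫ p, L.f p * v p| ≤
      C₁ * (D ^ 2 * ∫ p in closedBall (0 : P) D, g p) + C₂ * (D * ∫ p in Cut, g p) := by
    have e0 : ∫ p, L.f p * v p = ∫ p, (L.f p * v p - (dx P1 p + dy P2 p)) := by
      rw [integral_sub if1 (i1.fun_add i2), integral_add i1 i2, integral_dx (sm_one s1) k1,
        integral_dy (sm_one s2) k2]
      ring
    have j1 : Integrable ((closedBall (0 : P) D).indicator fun p => C₁ * D ^ 2 * g p) :=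
      (integrable_indicator_iff measurableSet_closedBall).2 (hgi.const_mul _)
    have j2 : Integrable (Cut.indicator fun p => C₂ * D * g p) :=
      (integrable_indicator_iff hCutm).2 ((hgi.mono_set hCutb).const_mul _)
    have := norm_integral_le_of_norm_le (μ := volume)
      (f := fun p => L.f p * v p - (dx P1 p + dy P2 p)) (j1.add j2)
      (Eventually.of_forall fun p => ?_)
    · rw [integral_add' j1 j2, integral_indicator measurableSet_closedBall,
        integral_indicator hCutm, integral_const_mul, integral_const_mul, Real.norm_eq_abs,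
        ← e0] at this
      linarith
    have hg0 : 0 ≤ g p := by rw [hg]; positivity
    rw [Real.norm_eq_abs, hid2, Pi.add_apply]
    have t1 : |-(χ' p * Θ (T p)) * (L.a11 p * dx L.w p + (L.a12 p + ν) * dy L.w p)| ≤
        Cut.indicator (fun p => C₂ * D * g p) p := by
      by_cases hp : p ∈ Cut
      · rw [indicator_of_mem hp, abs_mul, abs_neg, abs_mul]
        have hpR : ‖p‖ < R := (hball p hp.2.1 hp.2.2).trans_lt hDR
        obtain ⟨b1, b2, -⟩ := L.bd0 p hpR
        have u1 := lin (L.a11 p) (L.a12 p + ν) (2 * K) p (by linarith)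
          ((abs_add_le _ _).trans (by linarith))
        have u2 : |χ' p| ≤ c1 * (1 / X) := by
          rw [hχ', abs_mul, abs_of_pos (by positivity : 0 < 1 / X)]
          gcongr
          exact hcb' _
        have u3 : |χ' p| * |Θ (T p)| ≤ c1 * D := by
          calc |χ' p| * |Θ (T p)| ≤ c1 * (1 / X) * H ^ 2 := by gcongr; exact (hΘb _).1
            _ = c1 * (H * (H / X)) := by ring
            _ ≤ c1 * (D * 1) := by gcongr; exact (div_le_one hX0).2 hX
            _ = c1 * D := by ring
        calc _ ≤ c1 * D * (2 * K * g p) := by gcongr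
          _ = _ := by rw [hC₂]; ring
      · rw [indicator_of_notMem hp]
        have : χ' p * Θ (T p) = 0 := by
          by_cases h1 : |p.1| < X
          · rw [(hχ1 p h1).2, zero_mul]
          · by_cases h2 : 2 * X < |p.1|
            · rw [(hχ0 p h2).2, zero_mul]
            · by_cases h3 : H / 2 < |T p|
              · rw [(hΘ0 _ h3).1, mul_zero]
              · exact absurd ⟨not_lt.1 h1, not_lt.1 h2, (not_lt.1 h3).trans (by linarith)⟩ hp
        rw [this]
        simp
    have t2 : |χ p * Θ' (T p) * ((-s * (L.a11 p - L.a11 0) + (L.a12 p - L.a12 0)) * dx L.w p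
          + (-s * (L.a12 p - L.a12 0) + (L.a22 p - L.a22 0)) * dy L.w p)| +
        |v p * ((L.b1 p - dx L.a11 p - dy L.a12 p) * dx L.w p
          + (L.b2 p - dx L.a12 p - dy L.a22 p) * dy L.w p)| ≤
        (closedBall (0 : P) D).indicator (fun p => C₁ * D ^ 2 * g p) p := by
      by_cases hp : ‖p‖ ≤ D
      · rw [indicator_of_mem (by simpa using hp)]
        have hpR : ‖p‖ < R := hp.trans_lt hDR
        obtain ⟨-, -, -, b1, b2, -⟩ := L.bd0 p hpR
        obtain ⟨x1, x2, -⟩ := L.bdx p hpR
        obtain ⟨-, y2, y3, -⟩ := L.bdy p hpR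
        have o1 := hosc h11 (fun q hq => (L.bdx q hq).1) (fun q hq => (L.bdy q hq).1) p hp
        have o2 := hosc h12 (fun q hq => (L.bdx q hq).2.1) (fun q hq => (L.bdy q hq).2.1) p hp
        have o3 := hosc h22 (fun q hq => (L.bdx q hq).2.2.1) (fun q hq => (L.bdy q hq).2.2.1) p hp
        have comb : ∀ α β : ℝ, |α| ≤ 2 * K * D → |β| ≤ 2 * K * D →
            |-s * α + β| ≤ 2 * K * (K + 1) * D := by
          intro α β h1 h2
          calc |-s * α + β| ≤ |s| * |α| + |β| := by
                rw [← abs_neg s, ← abs_mul]; exact abs_add_le _ _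
            _ ≤ K * (2 * K * D) + 2 * K * D := by gcongr
            _ = _ := by ring
        have three : ∀ α β γ : ℝ, |α| ≤ K → |β| ≤ K → |γ| ≤ K → |α - β - γ| ≤ 3 * K := by
          intro α β γ h1 h2 h3
          linarith [abs_sub (α - β) γ, abs_sub α β]
        have u1 := lin _ _ _ p (comb _ _ o1 o2) (comb _ _ o2 o3)
        have u2 := lin _ _ _ p (three _ _ _ b1 x1 y2) (three _ _ _ b2 x2 y3)
        have u3 : |χ p * Θ' (T p)| ≤ (1 + c1) * D := by
          rw [abs_mul]
          calc |χ p| * |Θ' (T p)| ≤ 1 * ((1 + c1) * H) := by gcongr; exacts [hχb p, (hΘb _).2]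
            _ ≤ (1 + c1) * D := by rw [one_mul]; gcongr
        rw [abs_mul, abs_mul (v p)]
        calc _ ≤ (1 + c1) * D * (2 * K * (K + 1) * D * g p) + D ^ 2 * (3 * K * g p) := by
              gcongr; exact hvb p
          _ = _ := by rw [hC₁]; ring
      · rw [indicator_of_notMem (by simpa using hp), (hout p hp).1, (hout p hp).2]
        simp
    refine (abs_add_le _ _).trans ?_
    refine (add_le_add (abs_sub _ _) le_rfl).trans ?_
    linarith
  have hμ0 : 0 < μ0 := (inv_pos.2 hK0).trans_le hμ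
  have I1 : 0 ≤ D ^ 2 * ∫ p in closedBall (0 : P) D, g p :=
    mul_nonneg (sq_nonneg _) (integral_nonneg fun p => by rw [hg]; positivity)
  have I2 : 0 ≤ D * ∫ p in Cut, g p :=
    mul_nonneg hD0.le (integral_nonneg fun p => by rw [hg]; positivity)
  have I3 : 0 ≤ E * D ^ 4 := by positivity
  have f1 : μ0 * (τ * h ^ 2) ≤ |∫ p, L.f p * v p| + 4 * (E * D ^ 4) := by
    have a1 := mul_le_mul_of_nonneg_left hsig hμ0.le
    have a2 := abs_sub_abs_le_abs_sub (μ0 * ∫ p, kap (Psi d τ h H e) p * v p) (∫ p, L.f p * v p)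
    rw [abs_sub_comm, abs_mul, abs_of_pos hμ0] at a2
    linarith
  have f2 : τ * h ^ 2 ≤ K * (μ0 * (τ * h ^ 2)) := by
    have : 1 ≤ K * μ0 := by
      rw [inv_le_iff_one_le_mul₀' hK0] at hμ
      exact hμ
    have h0 : 0 ≤ τ * h ^ 2 := by positivity
    nlinarith
  refine f2.trans ?_
  rw [mul_assoc K]
  apply mul_le_mul_of_nonneg_left _ hK0.le
  nlinarith [mul_nonneg hC₁0 I2, mul_nonneg hC₁0 I3, mul_nonneg hC₂0 I1, mul_nonneg hC₂0 I3]

end Crest.Agent.R220
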