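import Crest.Agent.R220.Basic

open scoped ContDiff Topology
open MeasureTheory Set Metric Filter

noncomputable section
namespace Crest.Agent.R220

theorem poinc_cs {g : ℝ → ℝ} (hg : Continuous g) {a b : ℝ} (hab : a ≤ b) :
    (∫ t in a..b, g t) ^ 2 ≤ (b - a) * ∫ t in a..b, g t ^ 2 := by
  rcases hab.eq_or_lt with rfl | hlt
  · simp
  have hl : 0 < b - a := sub_pos.2 hlt
  set I := ∫ t in a..b, g t with hI
  have h0 : 0 ≤ ∫ t in a..b, ((b - a) * g t - I) ^ 2 :=
    intervalIntegral.integral_nonneg hab fun _ _ => sq_nonneg _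
  have h1 : ∫ t in a..b, ((b - a) * g t - I) ^ 2 =
      (b - a) ^ 2 * (∫ t in a..b, g t ^ 2) - 2 * (b - a) * I * I + (b - a) * I ^ 2 := by
    have : (fun t => ((b - a) * g t - I) ^ 2) =
        fun t => ((b - a) ^ 2 * g t ^ 2 - 2 * (b - a) * I * g t) + I ^ 2 := by
      funext t; ring
    rw [this, intervalIntegral.integral_add, intervalIntegral.integral_sub,
      intervalIntegral.integral_const_mul, intervalIntegral.integral_const_mul,
      intervalIntegral.integral_const, smul_eq_mul]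
    all_goals exact Continuous.intervalIntegrable (by fun_prop) _ _
  rw [h1] at h0
  have h2 : 0 ≤ (b - a) * ((b - a) * (∫ t in a..b, g t ^ 2) - I ^ 2) := by linarith
  have := nonneg_of_mul_nonneg_right h2 hl
  linarith [(mul_nonneg_iff_of_pos_left hl).1 h2]

theorem poinc_ftc {g g' : ℝ → ℝ} (hg : ∀ t, HasDerivAt g (g' t) t) (hg' : Continuous g')
    {a σ y y' : ℝ} (hy : y ∈ Icc a (a + σ)) (hy' : y' ∈ Icc a (a + σ)) :
    (g y - g y') ^ 2 ≤ σ * ∫ t in a..(a + σ), g' t ^ 2 := by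
  wlog h : y' ≤ y generalizing y y'
  · have := this hy' hy (le_of_not_ge h)
    calc (g y - g y') ^ 2 = (g y' - g y) ^ 2 := by ring
      _ ≤ _ := this
  rw [← intervalIntegral.integral_eq_sub_of_hasDerivAt (fun t _ => hg t)
    (hg'.intervalIntegrable _ _)]
  refine (poinc_cs hg' h).trans ?_
  apply mul_le_mul (by linarith [hy.2, hy'.1]) _
    (intervalIntegral.integral_nonneg h fun _ _ => sq_nonneg _) (by linarith [hy.1, hy.2])
  exact intervalIntegral.integral_mono_interval hy'.1 h hy.2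
    (Eventually.of_forall fun _ => sq_nonneg _) ((hg'.pow 2).intervalIntegrable _ _)

theorem poinc_hx {w : P → ℝ} (hw : ContDiff ℝ ∞ w) (y t : ℝ) :
    HasDerivAt (fun s => w (s, y)) (dx w (t, y)) t := by
  have h1 : HasDerivAt (fun s : ℝ => ((s, y) : P)) (1, 0) t :=
    (hasDerivAt_id t).prodMk (hasDerivAt_const t y)
  exact (sm_diff hw (t, y)).hasFDerivAt.comp_hasDerivAt t h1

theorem poinc_hy {w : P → ℝ} (hw : ContDiff ℝ ∞ w) (x t : ℝ) :
    HasDerivAt (fun s => w (x, s)) (dy w (x, t)) t := by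
  have h1 : HasDerivAt (fun s : ℝ => ((x, s) : P)) (0, 1) t :=
    (hasDerivAt_const t x).prodMk (hasDerivAt_id t)
  exact (sm_diff hw (x, t)).hasFDerivAt.comp_hasDerivAt t h1

theorem poinc_iter {f : P → ℝ} (hf : Continuous f) {a b σ : ℝ} (hσ : 0 ≤ σ) :
    ∫ p in Ioc a (a + σ) ×ˢ Ioc b (b + σ), f p =
      ∫ x in a..(a + σ), ∫ y in b..(b + σ), f (x, y) := by
  have hi : IntegrableOn f (Ioc a (a + σ) ×ˢ Ioc b (b + σ)) (volume.prod volume) :=
    (hf.continuousOn.integrableOn_compact (isCompact_Icc.prod isCompact_Icc)).mono_set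
      (prod_mono Ioc_subset_Icc_self Ioc_subset_Icc_self)
  rw [Measure.volume_eq_prod, setIntegral_prod _ hi,
    intervalIntegral.integral_of_le (by linarith : a ≤ a + σ)]
  simp only [intervalIntegral.integral_of_le (by linarith : b ≤ b + σ)]

theorem poinc_iter' {f : P → ℝ} (hf : Continuous f) {a b σ : ℝ} (hσ : 0 ≤ σ) :
    ∫ p in Ioc a (a + σ) ×ˢ Ioc b (b + σ), f p =
      ∫ y in b..(b + σ), ∫ x in a..(a + σ), f (x, y) := by
  have h := poinc_iter (f := fun p => f p.swap) (a := b) (b := a) (hf.comp continuous_swap) hσ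
  simp only [Prod.swap_prod_mk] at h
  rw [← h, Measure.volume_eq_prod, ← setIntegral_prod_swap]

theorem poinc_square {w : P → ℝ} (hw : ContDiff ℝ ∞ w) {a b σ δ : ℝ} (hσ : 0 < σ)
    (hm : |σ⁻¹ * ∫ y in b..(b + σ), w (a, y)| ≤ δ) :
    ∫ p in Ioc a (a + σ) ×ˢ Ioc b (b + σ), w p ^ 2 ≤
      3 * σ ^ 2 * (∫ p in Ioc a (a + σ) ×ˢ Ioc b (b + σ), gsq w p) + 3 * δ ^ 2 * σ ^ 2 := by
  have hc := hw.continuous
  have hcx := (sm_dx hw).continuous
  have hcy := (sm_dy hw).continuous
  set m := σ⁻¹ * ∫ y in b..(b + σ), w (a, y) with hm_def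
  set A := ∫ p in Ioc a (a + σ) ×ˢ Ioc b (b + σ), dx w p ^ 2 with hA
  let B : ℝ → ℝ := fun x => ∫ t in b..(b + σ), dy w (x, t) ^ 2
  have hBc : Continuous B :=
    intervalIntegral.continuous_parametric_intervalIntegral_of_continuous' (f := fun x t =>
      dy w (x, t) ^ 2) (by unfold Function.uncurry; fun_prop) _ _
  let Ax : ℝ → ℝ := fun y => ∫ t in a..(a + σ), dx w (t, y) ^ 2
  have hAc : Continuous Ax :=
    intervalIntegral.continuous_parametric_intervalIntegral_of_continuous' (f := fun y t =>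
      dx w (t, y) ^ 2) (by unfold Function.uncurry; fun_prop) _ _
  have hA' : A = ∫ y in b..(b + σ), Ax y := poinc_iter' (hcx.pow 2) hσ.le
  have hm2 : m ^ 2 ≤ δ ^ 2 := by rw [← sq_abs]; exact pow_le_pow_left₀ (abs_nonneg _) hm 2
  have pt : ∀ x ∈ Icc a (a + σ), ∀ y ∈ Icc b (b + σ),
      w (x, y) ^ 2 ≤ 3 * δ ^ 2 + 3 * A + 3 * σ * B x := by
    intro x hx y hy
    have h1 : ∫ y' in b..(b + σ), (w (x, y) - w (a, y')) = σ * (w (x, y) - m) := by
      rw [intervalIntegral.integral_sub (by simp) (Continuous.intervalIntegrable (by fun_prop) _ _),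
        intervalIntegral.integral_const, hm_def, smul_eq_mul]
      field_simp
      ring
    have h2 := poinc_cs (g := fun y' => w (x, y) - w (a, y')) (by fun_prop)
      (by linarith : b ≤ b + σ)
    rw [h1] at h2
    have h3 : ∫ y' in b..(b + σ), (w (x, y) - w (a, y')) ^ 2 ≤
        ∫ y' in b..(b + σ), (2 * σ * Ax y' + 2 * σ * B x) := by
      apply intervalIntegral.integral_mono_on (by linarith)
        (Continuous.intervalIntegrable (by fun_prop) _ _)
        (Continuous.intervalIntegrable (by fun_prop) _ _)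
      intro y' hy'
      have e1 := poinc_ftc (poinc_hx hw y') (by fun_prop) hx (left_mem_Icc.2 (by linarith))
      have e2 := poinc_ftc (poinc_hy hw x) (by fun_prop) hy hy'
      simp only [Ax, B]
      nlinarith [sq_nonneg ((w (x, y') - w (a, y')) - (w (x, y) - w (x, y')))]
    rw [intervalIntegral.integral_add (Continuous.intervalIntegrable (by fun_prop) _ _) (by simp),
      intervalIntegral.integral_const_mul, ← hA', intervalIntegral.integral_const,
      smul_eq_mul] at h3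
    have h4 : σ ^ 2 * (w (x, y) - m) ^ 2 ≤ σ ^ 2 * (2 * A + 2 * σ * B x) := by
      have := mul_le_mul_of_nonneg_left h3 hσ.le
      simp only [add_sub_cancel_left] at h2 this
      nlinarith
    have h5 := le_of_mul_le_mul_left h4 (by positivity)
    nlinarith [sq_nonneg (w (x, y) - 3 * m)]
  have hG : ∫ p in Ioc a (a + σ) ×ˢ Ioc b (b + σ), gsq w p = A + ∫ x in a..(a + σ), B x := by
    have hi : ∀ {f : P → ℝ}, Continuous f → IntegrableOn f (Ioc a (a + σ) ×ˢ Ioc b (b + σ)) :=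
      fun hf => (hf.continuousOn.integrableOn_compact (isCompact_Icc.prod isCompact_Icc)).mono_set
        (prod_mono Ioc_subset_Icc_self Ioc_subset_Icc_self)
    unfold gsq
    rw [integral_add (hi (hcx.fun_pow 2)) (hi (hcy.fun_pow 2)), poinc_iter (hcy.fun_pow 2) hσ.le]
  rw [hG, poinc_iter (hc.fun_pow 2) hσ.le]
  have h6 : ∫ x in a..(a + σ), ∫ y in b..(b + σ), w (x, y) ^ 2 ≤
      ∫ x in a..(a + σ), σ * (3 * δ ^ 2 + 3 * A + 3 * σ * B x) := by
    apply intervalIntegral.integral_mono_on (by linarith)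
      (Continuous.intervalIntegrable ?_ _ _) (Continuous.intervalIntegrable (by fun_prop) _ _)
    · intro x hx
      have := intervalIntegral.integral_mono_on (μ := volume) (f := fun y => w (x, y) ^ 2)
        (g := fun _ => 3 * δ ^ 2 + 3 * A + 3 * σ * B x) (by linarith : b ≤ b + σ)
        (Continuous.intervalIntegrable (by fun_prop) _ _) (by simp) (fun y hy => pt x hx y hy)
      rwa [intervalIntegral.integral_const, add_sub_cancel_left, smul_eq_mul] at this
    · exact intervalIntegral.continuous_parametric_intervalIntegral_of_continuous' (f := fun x t =>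
        w (x, t) ^ 2) (by unfold Function.uncurry; fun_prop) _ _
  rw [intervalIntegral.integral_const_mul,
    intervalIntegral.integral_add (by simp) (Continuous.intervalIntegrable (by fun_prop) _ _),
    intervalIntegral.integral_const_mul, intervalIntegral.integral_const, smul_eq_mul,
    add_sub_cancel_left] at h6
  refine h6.trans (le_of_eq ?_)
  ring

theorem poinc_int_eq {σ x : ℝ} (hσ : 0 < σ) {i j : ℤ} (hi : x ∈ Ioc (i * σ) (i * σ + σ))
    (hj : x ∈ Ioc (j * σ) (j * σ + σ)) : i = j := by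
  have h1 : (i : ℝ) < j + 1 := lt_of_mul_lt_mul_right (by linarith [hi.1, hj.2]) hσ.le
  have h2 : (j : ℝ) < i + 1 := lt_of_mul_lt_mul_right (by linarith [hj.1, hi.2]) hσ.le
  have h3 : i < j + 1 := by exact_mod_cast h1
  have h4 : j < i + 1 := by exact_mod_cast h2
  omega

theorem poinc_exists_int {σ : ℝ} (hσ : 0 < σ) (x : ℝ) : ∃ i : ℤ, x ∈ Ioc (i * σ) (i * σ + σ) := by
  refine ⟨⌈x / σ⌉ - 1, ?_, ?_⟩
  · have := Int.ceil_lt_add_one (x / σ)
    rw [← sub_lt_iff_lt_add, lt_div_iff₀ hσ] at this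
    push_cast
    exact this
  · have := Int.le_ceil (x / σ)
    rw [div_le_iff₀ hσ] at this
    push_cast
    linarith

/-- Poincaré inequality on a grid of squares of side `σ` covering a square annulus. -/
theorem poinc (σ δ r1 r : ℝ) (w : P → ℝ) (hw : ContDiff ℝ ∞ w) (hσ : 0 < σ) (hδ : 0 ≤ δ)
    (hr : 0 ≤ r)
    (h : ∀ i j : ℤ, |(i : ℝ) * σ| ≤ r + σ → |(j : ℝ) * σ| ≤ r + σ → |edgeAvg σ w i j| ≤ δ) :
    ∫ p in ann r1 r, w p ^ 2 ≤
      3 * σ ^ 2 * (∫ p in ann (r1 - σ) (r + σ), gsq w p) + 12 * (r + σ) ^ 2 * δ ^ 2 := by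
  classical
  let S : ℤ × ℤ → Set P := fun z => Ioc (z.1 * σ) (z.1 * σ + σ) ×ˢ Ioc (z.2 * σ) (z.2 * σ + σ)
  let I : Set (ℤ × ℤ) := {z | ∃ p ∈ ann r1 r, p ∈ S z}
  have hb : ∀ z ∈ I, |(z.1 : ℝ) * σ| ≤ r + σ ∧ |(z.2 : ℝ) * σ| ≤ r + σ := by
    rintro z ⟨p, hp, h1, h2⟩
    have h3 := abs_le.1 ((abs_fst_le p).trans hp.2)
    have h4 := abs_le.1 ((abs_snd_le p).trans hp.2)
    constructor <;> rw [abs_le] <;> constructor <;> linarith [h1.1, h1.2, h2.1, h2.2, h3.1, h3.2,
      h4.1, h4.2]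
  have hfin : I.Finite := by
    obtain ⟨N, hN⟩ := exists_nat_ge ((r + σ) / σ)
    rw [div_le_iff₀ hσ] at hN
    have key : ∀ i : ℤ, |(i : ℝ) * σ| ≤ r + σ → i ∈ Icc (-(N : ℤ)) N := by
      intro i hi
      rw [abs_mul, abs_of_pos hσ] at hi
      have h1 : |(i : ℝ)| ≤ N := le_of_mul_le_mul_right (hi.trans hN) hσ
      have h2 : |i| ≤ (N : ℤ) := by exact_mod_cast h1
      exact abs_le.1 h2
    exact ((finite_Icc (-(N : ℤ)) N).prod (finite_Icc (-(N : ℤ)) N)).subset
      fun z hz => ⟨key _ (hb z hz).1, key _ (hb z hz).2⟩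
  set T := hfin.toFinset with hT
  have hTI : ∀ z, z ∈ T ↔ z ∈ I := fun z => by simp [hT]
  set W : Set P := ⋃ z ∈ T, S z with hW
  have hSm : ∀ z, MeasurableSet (S z) := fun z => measurableSet_Ioc.prod measurableSet_Ioc
  have hdisj : Set.Pairwise (T : Set (ℤ × ℤ)) (Function.onFun Disjoint S) := by
    intro z _ z' _ hne
    rw [Function.onFun, Set.disjoint_left]
    intro x hx hx'
    exact hne (Prod.ext (poinc_int_eq hσ hx.1 hx'.1) (poinc_int_eq hσ hx.2 hx'.2))
  have h1 : ann r1 r ⊆ W := by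
    intro p hp
    obtain ⟨i, hi⟩ := poinc_exists_int hσ p.1
    obtain ⟨j, hj⟩ := poinc_exists_int hσ p.2
    exact mem_iUnion₂.2 ⟨(i, j), (hTI _).2 ⟨p, hp, hi, hj⟩, hi, hj⟩
  have h2 : W ⊆ ann (r1 - σ) (r + σ) := by
    intro q hq
    obtain ⟨z, hz, q1, q2⟩ := mem_iUnion₂.1 hq
    obtain ⟨p, hp, p1, p2⟩ := (hTI _).1 hz
    have hd : ‖q - p‖ ≤ σ := by
      rw [Prod.norm_def, max_le_iff, Real.norm_eq_abs, Real.norm_eq_abs, abs_le, abs_le]
      simp only [Prod.fst_sub, Prod.snd_sub]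
      refine ⟨⟨?_, ?_⟩, ?_, ?_⟩ <;> linarith [q1.1, q1.2, q2.1, q2.2, p1.1, p1.2, p2.1, p2.2]
    have h3 := abs_le.1 ((abs_norm_sub_norm_le q p).trans hd)
    exact ⟨by linarith [hp.1, h3.1], by linarith [hp.2, h3.2]⟩
  have h3 : ann (r1 - σ) (r + σ) ⊆ closedBall 0 (r + σ) := fun p hp => by
    simpa using hp.2
  have hi : ∀ {f : P → ℝ}, Continuous f → IntegrableOn f (ann (r1 - σ) (r + σ)) := fun hf =>
    (hf.continuousOn.integrableOn_compact (isCompact_closedBall _ _)).mono_set h3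
  have hsum : ∀ {f : P → ℝ}, Continuous f → ∫ p in W, f p = ∑ z ∈ T, ∫ p in S z, f p :=
    fun hf => integral_biUnion_finset T (fun z _ => hSm z) hdisj fun z hz =>
      (hi hf).mono_set ((subset_biUnion_of_mem (u := S) hz).trans h2)
  have hg : Continuous (gsq w) := by
    have hcx := (sm_dx hw).continuous
    have hcy := (sm_dy hw).continuous
    unfold gsq
    fun_prop
  have hcard : (T.card : ℝ) * σ ^ 2 ≤ 4 * (r + σ) ^ 2 := by
    have e1 := hsum (f := fun _ => (1 : ℝ)) continuous_const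
    have e2 : ∀ z, ∫ _p in S z, (1 : ℝ) = σ ^ 2 := fun z => by
      simp only [S]
      rw [poinc_iter continuous_const hσ.le]
      simp [sq]
    simp only [e2, Finset.sum_const, nsmul_eq_mul] at e1
    rw [← e1, setIntegral_const, smul_eq_mul, mul_one]
    refine (measureReal_mono (h2.trans h3) (isCompact_closedBall _ _).measure_lt_top.ne).trans ?_
    rw [measureReal_def, ← closedBall_prod_same, Measure.volume_eq_prod, Measure.prod_prod]
    simp only [Prod.fst_zero, Prod.snd_zero, Real.volume_closedBall]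
    rw [ENNReal.toReal_mul, ENNReal.toReal_ofReal (by positivity)]
    apply le_of_eq
    ring
  calc ∫ p in ann r1 r, w p ^ 2 ≤ ∫ p in W, w p ^ 2 :=
        setIntegral_mono_set ((hi (hw.continuous.pow 2)).mono_set h2)
          (Eventually.of_forall fun _ => sq_nonneg _) h1.eventuallyLE
    _ = ∑ z ∈ T, ∫ p in S z, w p ^ 2 := hsum (hw.continuous.pow 2)
    _ ≤ ∑ z ∈ T, (3 * σ ^ 2 * (∫ p in S z, gsq w p) + 3 * δ ^ 2 * σ ^ 2) := by
        refine Finset.sum_le_sum fun z hz => poinc_square hw hσ ?_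
        have := h z.1 z.2 (hb z ((hTI z).1 hz)).1 (hb z ((hTI z).1 hz)).2
        rwa [edgeAvg, add_mul, one_mul] at this
    _ = 3 * σ ^ 2 * (∫ p in W, gsq w p) + 3 * δ ^ 2 * (T.card * σ ^ 2) := by
        rw [Finset.sum_add_distrib, ← Finset.mul_sum, hsum hg, Finset.sum_const, nsmul_eq_mul]
        ring
    _ ≤ _ := by
        have e3 : ∫ p in W, gsq w p ≤ ∫ p in ann (r1 - σ) (r + σ), gsq w p :=
          setIntegral_mono_set (hi hg)
            (Eventually.of_forall fun p => by unfold gsq; positivity) h2.eventuallyLE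
        have e4 := mul_le_mul_of_nonneg_left e3 (by positivity : 0 ≤ 3 * σ ^ 2)
        have e5 := mul_le_mul_of_nonneg_left hcard (by positivity : 0 ≤ 3 * δ ^ 2)
        linarith

end Crest.Agent.R220
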