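import Crest.Agent.R220.Mult
import Crest.Agent.R220.Poinc

/-!
Iterated smoothing: closeness of grid averages forces `L²` smallness on the annulus.
-/

open scoped ContDiff Topology
open MeasureTheory Set Metric Filter

noncomputable section
namespace Crest.Agent.R220

theorem vol_cball {r : ℝ} (hr : 0 ≤ r) : volume.real (closedBall (0 : P) r) = 4 * r ^ 2 := by
  have : closedBall (0 : P) r = closedBall (0 : ℝ) r ×ˢ closedBall (0 : ℝ) r := by
    rw [closedBall_prod_same]; rfl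
  rw [this, Measure.real, Measure.volume_eq_prod, Measure.prod_prod, Real.volume_closedBall,
    ENNReal.toReal_mul, ENNReal.toReal_ofReal (by positivity)]
  ring

theorem ann_subset (r1 r : ℝ) : ann r1 r ⊆ closedBall 0 r := fun p hp => by simpa using hp.2

theorem isClosed_ann (r1 r : ℝ) : IsClosed (ann r1 r) :=
  (isClosed_le continuous_const continuous_norm).inter (isClosed_le continuous_norm continuous_const)

theorem measurableSet_ann (r1 r : ℝ) : MeasurableSet (ann r1 r) := (isClosed_ann r1 r).measurableSet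

theorem intOn_cball {g : P → ℝ} (hg : Continuous g) (r : ℝ) :
    IntegrableOn g (closedBall (0 : P) r) :=
  hg.continuousOn.integrableOn_compact (isCompact_closedBall _ _)

theorem intOn_sub {g : P → ℝ} (hg : Continuous g) {A : Set P} {r : ℝ}
    (hA : A ⊆ closedBall 0 r) : IntegrableOn g A := (intOn_cball hg r).mono_set hA

theorem cont_gsq {w : P → ℝ} (hw : ContDiff ℝ ∞ w) : Continuous (gsq w) := by
  have h1 := (sm_dx hw).continuous
  have h2 := (sm_dy hw).continuous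
  unfold gsq; fun_prop

theorem gsq_nonneg (w : P → ℝ) (p : P) : 0 ≤ gsq w p := by unfold gsq; positivity

/-- Comparison of integrals over `A ⊆ closedBall 0 r`. -/
theorem int_le_int {g g' : P → ℝ} (hg : Continuous g) (hg' : Continuous g') {A : Set P} {r : ℝ}
    (hAm : MeasurableSet A) (hA : A ⊆ closedBall 0 r) (h : ∀ p ∈ A, g p ≤ g' p)
    (h0 : ∀ p ∈ closedBall (0 : P) r, 0 ≤ g' p) :
    ∫ p in A, g p ≤ ∫ p in closedBall (0 : P) r, g' p := by
  refine (setIntegral_mono_on (intOn_sub hg hA) (intOn_sub hg' hA) hAm h).trans ?_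
  refine setIntegral_mono_set (intOn_cball hg' r) ?_ hA.eventuallyLE
  exact (ae_restrict_iff' measurableSet_closedBall).2 (Eventually.of_forall h0)

theorem int_le_const {g : P → ℝ} (hg : Continuous g) {A : Set P} {r c : ℝ} (hr : 0 ≤ r)
    (hc : 0 ≤ c) (hAm : MeasurableSet A) (hA : A ⊆ closedBall 0 r) (h : ∀ p ∈ A, g p ≤ c) :
    ∫ p in A, g p ≤ c * (4 * r ^ 2) := by
  refine (int_le_int hg continuous_const hAm hA h fun _ _ => hc).trans (le_of_eq ?_)
  rw [setIntegral_const, vol_cball hr, smul_eq_mul, mul_comm]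

/-- Young's inequality under the integral. -/
theorem int_abs_grad_le {w : P → ℝ} (hw : ContDiff ℝ ∞ w) {A : Set P} {r lam : ℝ} (hr : 0 ≤ r)
    (hl : 0 < lam) (hAm : MeasurableSet A) (hA : A ⊆ closedBall 0 r) :
    ∫ p in A, (|dx w p| + |dy w p|) ≤ lam * (∫ p in A, gsq w p) + 2 * r ^ 2 / lam := by
  have h1 := (sm_dx hw).continuous
  have h2 := (sm_dy hw).continuous
  have h3 := cont_gsq hw
  have h4 : ∫ p in A, (|dx w p| + |dy w p| - lam * gsq w p) ≤ (2 * lam)⁻¹ * (4 * r ^ 2) := by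
    refine int_le_const (by fun_prop) hr (by positivity) hAm hA fun p _ => ?_
    unfold gsq
    rw [← sq_abs (dx w p), ← sq_abs (dy w p)]
    set a := |dx w p|
    set b := |dy w p|
    have : (2 * lam)⁻¹ - (a + b - lam * (a ^ 2 + b ^ 2))
        = lam * ((a - (2 * lam)⁻¹) ^ 2 + (b - (2 * lam)⁻¹) ^ 2) := by field_simp; ring
    have h5 : 0 ≤ lam * ((a - (2 * lam)⁻¹) ^ 2 + (b - (2 * lam)⁻¹) ^ 2) := by positivity
    linarith
  rw [integral_sub (intOn_sub (by fun_prop) hA) (intOn_sub (by fun_prop) hA),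
    integral_const_mul] at h4
  have : (2 * lam)⁻¹ * (4 * r ^ 2) = 2 * r ^ 2 / lam := by field_simp; norm_num
  linarith

theorem iter (K r1 rmin R : ℝ) (hK : 1 ≤ K) (h1 : 0 < r1) (h2 : r1 ≤ rmin) (hR1 : R ≤ 1) (k : ℕ) :
    ∀ r, rmin ≤ r → r < R → ∃ C σ0 : ℝ, 0 ≤ C ∧ 0 < σ0 ∧
      ∀ (L : Lin K r1 rmin R) (Z1 Z2 W : P → ℝ), ContDiff ℝ 1 Z1 → ContDiff ℝ 1 Z2 →
      Continuous W →
      (∀ p, ‖p‖ < R → 0 ≤ W p ∧ |Z1 p| ≤ K ∧ |Z2 p| ≤ K ∧ ∀ ξ1 ξ2 : ℝ,
        (W p - K * (max (L.κ p) 0) ^ 5) * (ξ1 ^ 2 + ξ2 ^ 2)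
          ≤ Tform L.a11 L.a12 L.a22 L.b1 L.b2 Z1 Z2 p ξ1 ξ2) →
      (∀ p, ‖p‖ < R → L.f p * (Z1 p * dx L.w p + Z2 p * dy L.w p) = 0) →
      (∀ p, ‖p‖ < R → r1 / 2 ≤ ‖p‖ → K⁻¹ ≤ W p) →
      ∀ σ δ : ℝ, 0 < σ → σ ≤ σ0 → 0 ≤ δ →
      (∀ i j : ℤ, |(i : ℝ) * σ| + σ < R → |(j : ℝ) * σ| + σ < R → |edgeAvg σ L.w i j| ≤ δ) →
      ∫ p in ann r1 r, L.w p ^ 2 ≤ C * (σ ^ (2 * k) + δ ^ 2) := by
  induction k with
  | zero =>
    intro r hr hrR
    refine ⟨4 * K ^ 2, 1, by positivity, one_pos, ?_⟩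
    intro L Z1 Z2 W _ _ _ _ _ _ σ δ _ _ _ _
    have hw := L.hw.continuous
    have h3 : ∫ p in ann r1 r, L.w p ^ 2 ≤ K ^ 2 * (4 * r ^ 2) := by
      refine int_le_const (by fun_prop) (by linarith) (by positivity) (measurableSet_ann _ _)
        (ann_subset _ _) fun p hp => ?_
      rw [← sq_abs]
      gcongr
      exact (L.bd0 p (lt_of_le_of_lt hp.2 hrR)).2.2.2.2.2.2
    have h4 : r ^ 2 ≤ 1 := by nlinarith
    have h5 : K ^ 2 * (4 * r ^ 2) ≤ K ^ 2 * (4 * 1) := by gcongr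
    have h6 : 0 ≤ 4 * K ^ 2 * δ ^ 2 := by positivity
    simp only [mul_zero, pow_zero]
    nlinarith
  | succ k ih =>
    intro r hr hrR
    obtain ⟨C', σ0, hC', hσ0, ih⟩ := ih ((r + 2 * R) / 3) (by linarith) (by linarith)
    obtain ⟨Cm, hCm, hm⟩ := mult K r1 rmin R ((2 * r + R) / 3) ((r + 2 * R) / 3) hK h1 h2
      (by linarith) (by linarith) (by linarith)
    refine ⟨3 * K * Cm * C' + 12, min σ0 (min (r1 / 2) ((R - r) / 6)), by positivity,
      lt_min hσ0 (lt_min (by linarith) (by linarith)), ?_⟩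
    intro L Z1 Z2 W hZ1 hZ2 hW hT hf hWge σ δ hσ hσle hδ havg
    have hσ1 : σ ≤ σ0 := hσle.trans (min_le_left _ _)
    have hσ2 : σ ≤ r1 / 2 := hσle.trans ((min_le_right _ _).trans (min_le_left _ _))
    have hσ3 : σ ≤ (R - r) / 6 := hσle.trans ((min_le_right _ _).trans (min_le_right _ _))
    have hI := ih L Z1 Z2 W hZ1 hZ2 hW hT hf hWge σ δ hσ hσ1 hδ havg
    have hM := hm L Z1 Z2 W hZ1 hZ2 hW hT
    have hP := poinc σ δ r1 r L.w L.hw hσ hδ (by linarith)
      fun i j hi hj => havg i j (by linarith) (by linarith)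
    have hz : ∫ p in closedBall (0 : P) ((2 * r + R) / 3),
        |L.f p * (Z1 p * dx L.w p + Z2 p * dy L.w p)| = 0 := by
      refine setIntegral_eq_zero_of_forall_eq_zero fun p hp => ?_
      rw [hf p (by simp at hp; linarith), abs_zero]
    rw [hz, zero_add] at hM
    have hg := cont_gsq L.hw
    have hK0 : 0 < K := by linarith
    have h3 : ∫ p in ann (r1 - σ) (r + σ), gsq L.w p
        ≤ ∫ p in closedBall (0 : P) ((2 * r + R) / 3), K * (W p * gsq L.w p) := by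
      refine int_le_int hg (by fun_prop) (measurableSet_ann _ _)
        ((ann_subset _ _).trans (closedBall_subset_closedBall (by linarith))) (fun p hp => ?_)
        (fun p hp => ?_)
      · have h4 := hWge p (by linarith [hp.2]) (by linarith [hp.1])
        have h5 := gsq_nonneg L.w p
        calc gsq L.w p = K * (K⁻¹ * gsq L.w p) := by field_simp
          _ ≤ _ := by gcongr
      · have h4 := (hT p (by simp at hp; linarith)).1
        have h5 := gsq_nonneg L.w p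
        positivity
    rw [integral_const_mul] at h3
    have h6 : ∫ p in ann (r1 - σ) (r + σ), gsq L.w p ≤ K * (Cm * (C' * (σ ^ (2 * k) + δ ^ 2))) :=
      h3.trans (by gcongr; exact hM.trans (by gcongr))
    have h7 : σ ^ 2 ≤ 1 := by nlinarith
    have h8 : (r + σ) ^ 2 ≤ 1 := by nlinarith
    have h9 : 3 * σ ^ 2 * (∫ p in ann (r1 - σ) (r + σ), gsq L.w p)
        ≤ 3 * σ ^ 2 * (K * (Cm * (C' * (σ ^ (2 * k) + δ ^ 2)))) := by gcongr
    have h10 : 3 * K * Cm * C' * (σ ^ 2 * δ ^ 2) ≤ 3 * K * Cm * C' * (1 * δ ^ 2) := by gcongr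
    have h11 : 12 * (r + σ) ^ 2 * δ ^ 2 ≤ 12 * 1 * δ ^ 2 := by gcongr
    have h12 : 0 ≤ 12 * σ ^ (2 * (k + 1)) := by positivity
    have h13 : σ ^ (2 * (k + 1)) = σ ^ 2 * σ ^ (2 * k) := by ring
    rw [h13] at h12 ⊢
    nlinarith

end Crest.Agent.R220
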