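import Crest.Agent.R220.Good
import Crest.Agent.R220.Iter
import Crest.Agent.R220.Detect

/-!
The core contradiction for a good pair whose difference is small on the annulus.
-/

open scoped ContDiff Topology
open MeasureTheory Set Metric Filter

noncomputable section
namespace Crest.Agent.R220

namespace Pair
variable {π : Par} {Q : Pair π}

theorem max_sg (Q : Pair π) (D1 : ℝ) (p : P) :
    max (Q.sg 1 D1 p) (Q.sg (-1) D1 p) = |Q.η p| + Q.ρ ^ 2 * p.1 ^ 2 - D1 := by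
  unfold Pair.sg
  rcases le_total 0 (Q.η p) with h | h
  · rw [abs_of_nonneg h, max_eq_left (by linarith)]; ring
  · rw [abs_of_nonpos h, max_eq_right (by linarith)]; ring

/-- The localised multiplier vanishes near the bumps. -/
theorem Good.fZ_zero (hG : Q.Good) {σ : ℝ} (hσ : 0 < σ) (hσρ : σ ≤ Q.ρ ^ 2 / 8)
    (hψ : ∀ p, σ ^ 36 ≤ ‖p‖ → Q.ψd p = 0) (p : P) (hp : ‖p‖ < π.R * Q.ρ) (a b : ℝ) :
    Q.f p * (Q.Z1 (σ ^ 35) p * a + Q.Z2 (σ ^ 35) p * b) = 0 := by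
  rcases lt_or_ge (σ ^ 36) ‖p‖ with h | h
  · rw [Q.f_eq_zero hψ h, zero_mul]
  · have hρ := Q.hρ
    have hρ1 := hG.rho1
    have hM := hG.rhoM
    have hM1 := π.hM
    have hσ1 : σ ≤ Q.ρ := by nlinarith
    have h1 := Q.η_le hp
    have h2 : 8 * π.M * σ ≤ 1 := by
      calc 8 * π.M * σ ≤ Q.ρ⁻¹ * Q.ρ := by gcongr
        _ = 1 := by field_simp
    have h3 : p.1 ^ 2 ≤ σ ^ 36 := by
      have h4 : |p.1| ≤ σ ^ 36 := (abs_fst_le p).trans h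
      have h5 : σ ^ 36 ≤ 1 := pow_le_one₀ hσ.le (by linarith)
      rw [← sq_abs]; nlinarith [abs_nonneg p.1]
    have h6 : Q.ρ ^ 2 * p.1 ^ 2 ≤ 1 * σ ^ 36 := by gcongr; nlinarith
    have h7 : 2 * π.M * ‖p‖ ≤ 2 * π.M * σ ^ 36 := by gcongr
    have h8 : (2 * π.M + 1) * σ * σ ^ 35 ≤ 1 * σ ^ 35 := by gcongr; nlinarith
    have h9 : max (Q.sg 1 (σ ^ 35) p) (Q.sg (-1) (σ ^ 35) p) ≤ 0 := by
      rw [max_sg]; nlinarith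
    have e1 : Q.wt 1 (σ ^ 35) p = 0 := pp_of_nonpos ((le_max_left _ _).trans h9)
    have e2 : Q.wt (-1) (σ ^ 35) p = 0 := pp_of_nonpos ((le_max_right _ _).trans h9)
    unfold Z1 Z2; rw [e1, e2]; ring

/-- Lower bound for the weight on the cut region. -/
theorem Good.W_cut (hG : Q.Good) {σ s y0 : ℝ} (hσ : 0 < σ) (hσρ : σ ≤ Q.ρ ^ 2 / 8)
    (hs : Q.ρ ^ 2 ≤ dx Q.η 0 + s * dy Q.η 0) (hy0 : |y0| + σ ^ 39 ≤ σ ^ 36) {p : P}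
    (hp : ‖p‖ ≤ σ ^ 33) (h1 : σ ^ 34 ≤ |p.1|) (h2 : |p.2 - y0 - s * p.1| ≤ σ ^ 39) :
    Q.ρ ^ 3 * (σ ^ 40) ^ 2 ≤ Q.W (σ ^ 35) p := by
  have hρ := Q.hρ
  have hρ1 := hG.rho1
  have hM := hG.rhoM
  have hM1 := π.hM
  have hσ1 : σ ≤ Q.ρ := by nlinarith
  have hσ2 : σ ≤ 1 := hσ1.trans hρ1
  have h8 : 8 * π.M * σ ≤ 1 := by
    calc 8 * π.M * σ ≤ Q.ρ⁻¹ * Q.ρ := by gcongr
      _ = 1 := by field_simp
  have hD : σ ^ 33 ≤ σ := by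
    calc σ ^ 33 ≤ σ ^ 1 := pow_le_pow_of_le_one hσ.le hσ2 (by norm_num)
      _ = σ := pow_one _
  have hp' : ‖p‖ < π.R * Q.ρ := by nlinarith [π.three_le_R]
  have ht := Q.η_taylor (p0 := 0) hp' (by simp)
  have hηy : |dy Q.η 0| ≤ π.M := ηy_le ⟨Q, 0, Q.zero_mem, 0, le_rfl, pow_nonneg hρ.le 6⟩
  have e1 : p.1 * (dx Q.η 0 + s * dy Q.η 0) = Q.η p
      - (Q.η p - (p.1 * dx Q.η 0 + p.2 * dy Q.η 0)) - (p.2 - s * p.1) * dy Q.η 0 := by ring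
  have e2 : σ ^ 34 * Q.ρ ^ 2 ≤ |p.1 * (dx Q.η 0 + s * dy Q.η 0)| := by
    rw [abs_mul]; gcongr; exact hs.trans (le_abs_self _)
  have e3 : |p.2 - s * p.1| ≤ σ ^ 36 := by
    have : p.2 - s * p.1 = y0 + (p.2 - y0 - s * p.1) := by ring
    rw [this]; exact (abs_add_le _ _).trans (by linarith)
  have e4 : |(p.2 - s * p.1) * dy Q.η 0| ≤ σ ^ 36 * π.M := by rw [abs_mul]; gcongr
  have e5 : 8 * π.M * ‖p‖ ^ 2 ≤ 8 * π.M * (σ ^ 33) ^ 2 := by gcongr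
  have e6 : |p.1 * (dx Q.η 0 + s * dy Q.η 0)| ≤ |Q.η p|
      + |Q.η p - (p.1 * dx Q.η 0 + p.2 * dy Q.η 0)| + |(p.2 - s * p.1) * dy Q.η 0| := by
    rw [e1]; exact (abs_sub _ _).trans (by gcongr; exact abs_sub _ _)
  have e7 : σ ^ 36 * π.M ≤ σ ^ 35 := by
    have : σ ^ 35 * (π.M * σ) ≤ σ ^ 35 * 1 := by gcongr; nlinarith
    nlinarith
  have e8 : 8 * π.M * (σ ^ 33) ^ 2 ≤ σ ^ 35 := by
    have h3 : σ ^ 65 ≤ σ ^ 35 := pow_le_pow_of_le_one hσ.le hσ2 (by norm_num)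
    have : (8 * π.M * σ) * σ ^ 65 ≤ 1 * σ ^ 35 := by gcongr
    nlinarith
  have e9 : σ ^ 40 ≤ σ ^ 35 := pow_le_pow_of_le_one hσ.le hσ2 (by norm_num)
  have e10 : σ ^ 34 * (8 * σ) ≤ σ ^ 34 * Q.ρ ^ 2 := by gcongr; linarith
  have e11 : σ ^ 40 ≤ max (Q.sg 1 (σ ^ 35) p) (Q.sg (-1) (σ ^ 35) p) := by
    rw [max_sg]
    have : 0 ≤ Q.ρ ^ 2 * p.1 ^ 2 := by positivity
    have : 0 ≤ σ ^ 35 := by positivity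
    nlinarith
  have e12 := max_sq_le_wt Q (σ ^ 35) p (by positivity) e11
  unfold W
  gcongr
  exact le_trans (by gcongr) e12

theorem Good.hypZ (hG : Q.Good) {D1 : ℝ} (hD0 : 0 ≤ D1) (hD : D1 ≤ Q.ρ ^ 6) (p : P)
    (hp : ‖p‖ < π.R * Q.ρ) : 0 ≤ Q.W D1 p ∧ |Q.Z1 D1 p| ≤ (Q.ρ ^ 40)⁻¹ ∧
      |Q.Z2 D1 p| ≤ (Q.ρ ^ 40)⁻¹ ∧ ∀ ξ1 ξ2 : ℝ,
        (Q.W D1 p - (Q.ρ ^ 40)⁻¹ * (max (Q.κ p) 0) ^ 5) * (ξ1 ^ 2 + ξ2 ^ 2)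
          ≤ Tform Q.a11 Q.a12 Q.a22 Q.b1 Q.b2 (Q.Z1 D1) (Q.Z2 D1) p ξ1 ξ2 := by
  have h := hG p hp D1 hD0 hD
  have hρ := Q.hρ
  refine ⟨?_, h.bdZ.1.trans hG.inv_le_K, h.bdZ.2.trans hG.inv_le_K, h.TZ⟩
  unfold W wt
  exact mul_nonneg (by positivity) (add_nonneg (pp_nonneg _) (pp_nonneg _))

theorem Good.hypV (hG : Q.Good) (p : P) (hp : ‖p‖ < π.R * Q.ρ) :
    0 ≤ Q.ρ ^ 3 ∧ |Q.V1 p| ≤ (Q.ρ ^ 40)⁻¹ ∧ |Q.V2 0 p| ≤ (Q.ρ ^ 40)⁻¹ ∧ ∀ ξ1 ξ2 : ℝ,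
        (Q.ρ ^ 3 - (Q.ρ ^ 40)⁻¹ * (max (Q.κ p) 0) ^ 5) * (ξ1 ^ 2 + ξ2 ^ 2)
          ≤ Tform Q.a11 Q.a12 Q.a22 Q.b1 Q.b2 Q.V1 (Q.V2 0) p ξ1 ξ2 := by
  have h := hG.at0 hp
  have hρ := Q.hρ
  have h1 : Q.ρ⁻¹ * ‖p‖ ≤ (Q.ρ ^ 40)⁻¹ := by
    have : Q.ρ⁻¹ * ‖p‖ ≤ Q.ρ⁻¹ * 1 := by gcongr; linarith [hG.rhoR]
    linarith [hG.inv_le_K]
  refine ⟨by positivity, h.V0.1.trans h1, h.V0.2.trans h1, fun ξ1 ξ2 => le_trans ?_ (h.T0 ξ1 ξ2)⟩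
  have : 0 ≤ (Q.ρ ^ 40)⁻¹ * (max (Q.κ p) 0) ^ 5 :=
    mul_nonneg (by positivity) (pow_nonneg (le_max_right _ _) 5)
  change _ ≤ Q.ρ ^ 3 * _
  gcongr; linarith

end Pair

theorem young_fV {f v1 v2 a b ρ F D : ℝ} (hρ : 0 < ρ) (hf : |f| ≤ F) (h1 : |v1| ≤ ρ⁻¹ * D)
    (h2 : |v2| ≤ ρ⁻¹ * D) :
    |f * (v1 * a + v2 * b)| - ρ ^ 3 / 2 * (a ^ 2 + b ^ 2) ≤ (ρ ^ 5)⁻¹ * F ^ 2 * D ^ 2 := by
  have hF : 0 ≤ F := (abs_nonneg _).trans hf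
  have hc : 0 ≤ ρ⁻¹ * D := (abs_nonneg _).trans h1
  set c := F * (ρ⁻¹ * D) with hcdef
  have h3 : |f * (v1 * a + v2 * b)| ≤ c * (|a| + |b|) := by
    rw [abs_mul]
    have : |v1 * a + v2 * b| ≤ ρ⁻¹ * D * (|a| + |b|) := by
      refine (abs_add_le _ _).trans ?_
      rw [abs_mul, abs_mul, mul_add]; gcongr
    calc _ ≤ F * (ρ⁻¹ * D * (|a| + |b|)) := by gcongr
      _ = _ := by ring
  have h4 : (ρ ^ 5)⁻¹ * F ^ 2 * D ^ 2 + ρ ^ 3 / 2 * (|a| ^ 2 + |b| ^ 2) - c * (|a| + |b|)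
      = ρ ^ 3 / 2 * ((|a| - c / ρ ^ 3) ^ 2 + (|b| - c / ρ ^ 3) ^ 2) := by
    rw [hcdef]; field_simp; ring
  have h5 : 0 ≤ ρ ^ 3 / 2 * ((|a| - c / ρ ^ 3) ^ 2 + (|b| - c / ρ ^ 3) ^ 2) := by positivity
  rw [sq_abs, sq_abs] at h4
  linarith

theorem final_arith {ρ σ τ CE CF Cm CI Cd G Gc T2 T3 : ℝ} (hρ : 0 < ρ) (hσ : 0 < σ) (hσ1 : σ ≤ 1)
    (hτ : 0 < τ) (hCE : 0 ≤ CE) (hCm : 0 ≤ Cm) (hCI : 0 ≤ CI) (hCd : 0 ≤ Cd)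
    (hG : ρ ^ 3 / 2 * G ≤ (ρ ^ 5)⁻¹ * (CF * τ / σ ^ 83) ^ 2 * (σ ^ 33) ^ 2 * (4 * (σ ^ 33) ^ 2)
      + Cm * (CI * (τ * σ ^ 80) ^ 2))
    (hGc : ρ ^ 3 * (σ ^ 40) ^ 2 * Gc ≤ Cm * (CI * (τ * σ ^ 80) ^ 2))
    (h2 : T2 ≤ σ ^ 50 / τ * G + 2 * (σ ^ 33) ^ 2 / (σ ^ 50 / τ))
    (h3 : T3 ≤ τ⁻¹ * Gc + 2 * (σ ^ 33) ^ 2 / τ⁻¹)
    (h : τ * (σ ^ 40) ^ 2 ≤ Cd * (CE * τ / σ ^ 50 * (σ ^ 33) ^ 4 + (σ ^ 33) ^ 2 * T2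
      + σ ^ 33 * T3)) :
    1 ≤ Cd * (CE + 8 * (ρ ^ 8)⁻¹ * CF ^ 2 + 3 * (ρ ^ 3)⁻¹ * Cm * CI + 4) * σ := by
  have p82 : σ ^ 82 ≤ σ ^ 81 := pow_le_pow_of_le_one hσ.le hσ1 (by norm_num)
  have p276 : σ ^ 276 ≤ σ ^ 81 := pow_le_pow_of_le_one hσ.le hσ1 (by norm_num)
  have p113 : σ ^ 113 ≤ σ ^ 81 := pow_le_pow_of_le_one hσ.le hσ1 (by norm_num)
  have p99 : σ ^ 99 ≤ σ ^ 81 := pow_le_pow_of_le_one hσ.le hσ1 (by norm_num)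
  have e1 : CE * τ / σ ^ 50 * (σ ^ 33) ^ 4 ≤ CE * τ * σ ^ 81 := by
    calc _ = CE * τ * σ ^ 82 := by field_simp
      _ ≤ _ := by gcongr
  have e2 : (σ ^ 33) ^ 2 * T2 ≤ (8 * (ρ ^ 8)⁻¹ * CF ^ 2 + 2 * (ρ ^ 3)⁻¹ * Cm * CI + 2)
      * τ * σ ^ 81 := by
    have hG' : G ≤ 2 * (ρ ^ 3)⁻¹ * ((ρ ^ 5)⁻¹ * (CF * τ / σ ^ 83) ^ 2 * (σ ^ 33) ^ 2
        * (4 * (σ ^ 33) ^ 2) + Cm * (CI * (τ * σ ^ 80) ^ 2)) := by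
      calc G = 2 * (ρ ^ 3)⁻¹ * (ρ ^ 3 / 2 * G) := by field_simp
        _ ≤ _ := by gcongr
    calc (σ ^ 33) ^ 2 * T2 ≤ (σ ^ 33) ^ 2 * (σ ^ 50 / τ * (2 * (ρ ^ 3)⁻¹
          * ((ρ ^ 5)⁻¹ * (CF * τ / σ ^ 83) ^ 2 * (σ ^ 33) ^ 2
        * (4 * (σ ^ 33) ^ 2) + Cm * (CI * (τ * σ ^ 80) ^ 2)))
          + 2 * (σ ^ 33) ^ 2 / (σ ^ 50 / τ)) := by
          gcongr; exact h2.trans (by gcongr)
      _ = 8 * (ρ ^ 8)⁻¹ * CF ^ 2 * τ * σ ^ 82 + 2 * (ρ ^ 3)⁻¹ * Cm * CI * τ * σ ^ 276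
          + 2 * τ * σ ^ 82 := by field_simp; ring
      _ ≤ 8 * (ρ ^ 8)⁻¹ * CF ^ 2 * τ * σ ^ 81 + 2 * (ρ ^ 3)⁻¹ * Cm * CI * τ * σ ^ 81
          + 2 * τ * σ ^ 81 := by gcongr
      _ = _ := by ring
  have e3 : σ ^ 33 * T3 ≤ ((ρ ^ 3)⁻¹ * Cm * CI + 2) * τ * σ ^ 81 := by
    have hGc' : Gc ≤ (ρ ^ 3 * (σ ^ 40) ^ 2)⁻¹ * (Cm * (CI * (τ * σ ^ 80) ^ 2)) := by
      calc Gc = (ρ ^ 3 * (σ ^ 40) ^ 2)⁻¹ * (ρ ^ 3 * (σ ^ 40) ^ 2 * Gc) := by field_simp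
        _ ≤ _ := by gcongr
    calc σ ^ 33 * T3 ≤ σ ^ 33 * (τ⁻¹ * ((ρ ^ 3 * (σ ^ 40) ^ 2)⁻¹
          * (Cm * (CI * (τ * σ ^ 80) ^ 2))) + 2 * (σ ^ 33) ^ 2 / τ⁻¹) := by
          gcongr; exact h3.trans (by gcongr)
      _ = (ρ ^ 3)⁻¹ * Cm * CI * τ * σ ^ 113 + 2 * τ * σ ^ 99 := by field_simp
      _ ≤ (ρ ^ 3)⁻¹ * Cm * CI * τ * σ ^ 81 + 2 * τ * σ ^ 81 := by gcongr
      _ = _ := by ring
  have e4 : τ * (σ ^ 40) ^ 2 ≤ Cd * ((CE + 8 * (ρ ^ 8)⁻¹ * CF ^ 2 + 3 * (ρ ^ 3)⁻¹ * Cm * CI + 4)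
      * τ * σ ^ 81) := by
    refine h.trans ?_
    gcongr
    nlinarith
  have e5 : (τ * σ ^ 80) * 1 ≤ (τ * σ ^ 80)
      * (Cd * (CE + 8 * (ρ ^ 8)⁻¹ * CF ^ 2 + 3 * (ρ ^ 3)⁻¹ * Cm * CI + 4) * σ) := by
    calc (τ * σ ^ 80) * 1 = τ * (σ ^ 40) ^ 2 := by ring
      _ ≤ _ := e4
      _ = _ := by ring
  exact le_of_mul_le_mul_left e5 (by positivity)

theorem core (π : Par) (ρ CI : ℝ) (hρ : 0 < ρ) (hρ1 : ρ ≤ 1) (hCI : 0 ≤ CI) :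
    ∃ C : ℝ, 0 ≤ C ∧ ∀ Q : Pair π, Q.ρ = ρ → Q.Good →
      ∀ (d : ℕ) (σ τ : ℝ) (e : Fin d → ℝ) (i : Fin d), 0 < σ → σ ≤ ρ ^ 2 / 8 →
      (d : ℝ) * σ ^ 3 = 1 → 0 < τ → Q.ψd = Psi d τ (σ ^ 40) (σ ^ 39) e → (∀ j, |e j| ≤ 1) →
      |e i| = 1 →
      ∫ p in ann (ρ / 2) (5 / 6 * (π.R * ρ)), Q.w p ^ 2 ≤ CI * (τ * σ ^ 80) ^ 2 →
      1 ≤ C * σ := by
  have hR := π.three_le_R
  have hK : 1 ≤ (ρ ^ 40)⁻¹ := one_le_inv₀ (by positivity) |>.2 (pow_le_one₀ hρ.le hρ1)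
  obtain ⟨Cm, hCm, hm⟩ := mult (ρ ^ 40)⁻¹ (ρ / 2) (2 / 3 * (π.R * ρ)) (π.R * ρ)
    (2 / 3 * (π.R * ρ)) (5 / 6 * (π.R * ρ)) hK (by linarith) (by nlinarith) le_rfl
    (by nlinarith) (by nlinarith)
  obtain ⟨Cd, hCd, hd⟩ := detect (ρ ^ 40)⁻¹ (ρ / 2) (2 / 3 * (π.R * ρ)) (π.R * ρ) hK
  obtain ⟨C1, hC1, hP1⟩ := Psi_CB 1
  obtain ⟨C2, hC2, hP2⟩ := Psi_CB 2
  set CE := ρ⁻¹ * (4 * C2 + 3 * C1) with hCE
  set CF := CE + 2 * ρ⁻¹ * C2 with hCF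
  have hCE0 : 0 ≤ CE := by positivity
  refine ⟨Cd * (CE + 8 * (ρ ^ 8)⁻¹ * CF ^ 2 + 3 * (ρ ^ 3)⁻¹ * Cm * CI + 4), by positivity, ?_⟩
  intro Q hQ hG d σ τ e i hσ hσρ hd3 hτ hψ he hei hI
  subst hQ
  have hσ1 : σ ≤ Q.ρ / 8 := by nlinarith
  have hσ2 : σ ≤ 1 := by linarith
  have hpow : ∀ {a b : ℕ}, a ≤ b → σ ^ b ≤ σ ^ a := fun h => pow_le_pow_of_le_one hσ.le hσ2 h
  have hpow1 : ∀ {b : ℕ}, 1 ≤ b → σ ^ b ≤ σ := fun h => (hpow h).trans_eq (pow_one _)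
  have hdH : (d : ℝ) * σ ^ 39 = σ ^ 36 := by linear_combination σ ^ 36 * hd3
  have hdinv : (d : ℝ) = (σ ^ 3)⁻¹ := eq_inv_of_mul_eq_one_left hd3
  have hψ0 : ∀ p, σ ^ 36 ≤ ‖p‖ → Q.ψd p = 0 := fun p hp => by
    rw [hψ]; exact Psi_eq_zero d τ _ _ e (by positivity) (hpow (by norm_num)) p (hdH ▸ hp)
  have hf0 : ∀ p, σ ^ 33 < ‖p‖ → Q.f p = 0 := fun p hp =>
    Q.f_eq_zero hψ0 (lt_of_le_of_lt (hpow (by norm_num)) hp)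
  have hD : σ ^ 33 ≤ σ := hpow1 (by norm_num)
  have hf : ∀ p, Q.ρ / 2 ≤ ‖p‖ → Q.f p = 0 := fun p hp => hf0 p (by linarith)
  have hDR : σ ^ 33 < π.R * Q.ρ := by nlinarith
  have hDr : σ ^ 33 ≤ 2 / 3 * (π.R * Q.ρ) := by nlinarith
  set L := Pair.lin hG hf with hL
  obtain ⟨s, ν, hs, hν, hA1, hA2, hη⟩ := (hG.at0 Q.zero_mem).center (by simp; positivity)
  change |s| ≤ Q.ρ⁻¹ at hs
  change |ν| ≤ Q.ρ⁻¹ at hν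
  have hsσ : (1 + |s|) * σ ≤ 1 / 4 := by
    have h1 : |s| * σ ≤ Q.ρ⁻¹ * (Q.ρ / 8) := by gcongr
    have h2 : Q.ρ⁻¹ * (Q.ρ / 8) = 1 / 8 := by field_simp
    nlinarith
  have hgeo : 2 * (1 + |s|) * σ ^ 34 + ((d : ℝ) + 1) * σ ^ 39 ≤ σ ^ 33 := by
    have h1 : ((1 + |s|) * σ) * σ ^ 33 ≤ 1 / 4 * σ ^ 33 := by gcongr
    have h2 : σ ^ 39 ≤ σ ^ 34 := hpow (by norm_num)
    have h3 : σ ^ 36 ≤ σ ^ 34 := hpow (by norm_num)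
    have h4 : σ * σ ^ 33 ≤ 1 / 8 * σ ^ 33 := by gcongr; linarith
    have h5 : σ ^ 34 = σ * σ ^ 33 := by ring
    have h6 : 2 * (1 + |s|) * σ ^ 34 = 2 * (((1 + |s|) * σ) * σ ^ 33) := by ring
    have h7 : ((d : ℝ) + 1) * σ ^ 39 = σ ^ 36 + σ ^ 39 := by rw [← hdH]; ring
    have h8 : 0 ≤ σ ^ 33 := by positivity
    rw [h6, h7]
    linarith
  -- bounds on the bumps
  have hψs := Q.sm_ψd
  have b1 : ∀ p, CB 1 (C1 * τ / σ ^ 43) Q.ψd p := fun p => by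
    have := hP1 d τ (σ ^ 40) (σ ^ 39) e p (by positivity) (pow_le_one₀ hσ.le hσ2) hτ.le he
    rw [hψ]; refine this.mono le_rfl (le_of_eq ?_); rw [hdinv]; field_simp
  have b2 : ∀ p, CB 2 (C2 * τ / σ ^ 83) Q.ψd p := fun p => by
    have := hP2 d τ (σ ^ 40) (σ ^ 39) e p (by positivity) (pow_le_one₀ hσ.le hσ2) hτ.le he
    rw [hψ]; refine this.mono le_rfl (le_of_eq ?_); rw [hdinv]; field_simp
  have bk : ∀ p, |kap Q.ψd p| ≤ 2 * (C2 * τ / σ ^ 83) := fun p => by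
    have h1 := (((b2 p).dx hψs).dx (sm_dx hψs)).abs_le
    have h2 := (((b2 p).dy hψs).dy (sm_dy hψs)).abs_le
    unfold kap; rw [abs_neg]; exact (abs_add_le _ _).trans (by linarith)
  have hE : ∀ p, ‖p‖ ≤ σ ^ 33 →
      |Q.f p - mu Q.s.φ Q.s.u 0 * kap Q.ψd p| ≤ CE * τ / σ ^ 50 := fun p hp => by
    refine (hG.f_sub (lt_of_le_of_lt hp hDR)).trans ?_
    have h1 := (b1 p).abs_le
    have h2 := ((b1 p).dx hψs).abs_le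
    have h3 := ((b1 p).dy hψs).abs_le
    have h4 : C1 * τ / σ ^ 43 ≤ C1 * τ / σ ^ 50 := by
      gcongr _ / ?_; exact hpow (by norm_num)
    have h5 : 2 * ‖p‖ * |kap Q.ψd p| ≤ 2 * σ ^ 33 * (2 * (C2 * τ / σ ^ 83)) := by
      gcongr; exact bk p
    have h6 : 2 * σ ^ 33 * (2 * (C2 * τ / σ ^ 83)) = 4 * C2 * τ / σ ^ 50 := by
      field_simp; ring
    calc _ ≤ Q.ρ⁻¹ * (4 * C2 * τ / σ ^ 50 + 3 * (C1 * τ / σ ^ 50)) :=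
          mul_le_mul_of_nonneg_left (by linarith) (by positivity)
      _ = _ := by rw [hCE]; ring
  have hμ0 : |mu Q.s.φ Q.s.u 0| ≤ Q.ρ⁻¹ := (hG.at0 Q.zero_mem).bdmu.1
  have hF : ∀ p, ‖p‖ ≤ σ ^ 33 → |Q.f p| ≤ CF * τ / σ ^ 83 := fun p hp => by
    have h1 := hE p hp
    have h2 : |mu Q.s.φ Q.s.u 0 * kap Q.ψd p| ≤ Q.ρ⁻¹ * (2 * (C2 * τ / σ ^ 83)) := by
      rw [abs_mul]; gcongr; exact bk p
    have h3 : CE * τ / σ ^ 50 ≤ CE * τ / σ ^ 83 := by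
      gcongr _ / ?_; exact hpow (by norm_num)
    have h4 : |Q.f p| ≤ |Q.f p - mu Q.s.φ Q.s.u 0 * kap Q.ψd p|
        + |mu Q.s.φ Q.s.u 0 * kap Q.ψd p| := by
      simpa using abs_add_le (Q.f p - mu Q.s.φ Q.s.u 0 * kap Q.ψd p)
        (mu Q.s.φ Q.s.u 0 * kap Q.ψd p)
    calc |Q.f p| ≤ CE * τ / σ ^ 83 + Q.ρ⁻¹ * (2 * (C2 * τ / σ ^ 83)) := by linarith
      _ = _ := by rw [hCF]; ring
  have hμ1 : ((Q.ρ ^ 40)⁻¹)⁻¹ ≤ mu Q.s.φ Q.s.u 0 := by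
    refine (hG.K_inv_le (k := 1) (by norm_num)).trans (le_trans ?_ (Q.s.hmu 0 Q.zero_mem))
    have := hG.rhoM
    have hM := π.M_pos
    rw [pow_one, le_inv_comm₀ hρ hM]; linarith
  have hdet := hd L d τ (σ ^ 40) (σ ^ 39) (σ ^ 34) (σ ^ 33) s ν (mu Q.s.φ Q.s.u 0)
    (CE * τ / σ ^ 50) e i (by positivity) hτ.le
    (by
      have : ((1 + |s|) * σ) * σ ^ 39 ≤ 1 / 4 * σ ^ 39 := by gcongr
      nlinarith)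
    (hpow (by norm_num)) hgeo (pow_le_one₀ hσ.le hσ2) hDR (hs.trans hG.inv_le_K)
    (hν.trans hG.inv_le_K) hA1 hA2 hei hμ1 (by positivity)
    (fun p hp => by rw [← hψ]; exact hE p hp)
  -- the global estimate
  have hw := Q.sm_w
  have hg := cont_gsq hw
  have hwx := (sm_dx hw).continuous
  have hwy := (sm_dy hw).continuous
  have hfc := Q.sm_f.continuous
  have hV1 := Q.c1_V1.continuous
  have hV2 := (Q.c1_V2 0).continuous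
  have hglob := hm L Q.V1 (Q.V2 0) (fun _ => Q.ρ ^ 3) Q.c1_V1 (Q.c1_V2 0) continuous_const
    hG.hypV
  change ∫ p in closedBall (0 : P) _, Q.ρ ^ 3 * gsq Q.w p ≤
    (∫ p in closedBall (0 : P) _, |Q.f p * (Q.V1 p * dx Q.w p + Q.V2 0 p * dy Q.w p)|)
      + Cm * ∫ p in ann _ _, Q.w p ^ 2 at hglob
  have hsub : closedBall (0 : P) (σ ^ 33) ⊆ closedBall 0 (2 / 3 * (π.R * Q.ρ)) :=
    closedBall_subset_closedBall hDr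
  have hGG : ∫ p in closedBall (0 : P) (σ ^ 33), gsq Q.w p
      ≤ ∫ p in closedBall (0 : P) (2 / 3 * (π.R * Q.ρ)), gsq Q.w p :=
    int_le_int hg hg measurableSet_closedBall hsub (fun _ _ => le_rfl) fun p _ => gsq_nonneg _ _
  have hfV : ∫ p in closedBall (0 : P) (2 / 3 * (π.R * Q.ρ)),
      |Q.f p * (Q.V1 p * dx Q.w p + Q.V2 0 p * dy Q.w p)|
      = ∫ p in closedBall (0 : P) (σ ^ 33),
        |Q.f p * (Q.V1 p * dx Q.w p + Q.V2 0 p * dy Q.w p)| := by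
    refine setIntegral_eq_of_subset_of_forall_sdiff_eq_zero measurableSet_closedBall hsub
      fun p hp => ?_
    rw [hf0 p (by simpa using hp.2), zero_mul, abs_zero]
  have hfV2 : ∫ p in closedBall (0 : P) (σ ^ 33),
      (|Q.f p * (Q.V1 p * dx Q.w p + Q.V2 0 p * dy Q.w p)| - Q.ρ ^ 3 / 2 * gsq Q.w p)
      ≤ (Q.ρ ^ 5)⁻¹ * (CF * τ / σ ^ 83) ^ 2 * (σ ^ 33) ^ 2 * (4 * (σ ^ 33) ^ 2) := by
    refine int_le_const (by fun_prop) (by positivity) (by positivity) measurableSet_closedBall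
      subset_rfl fun p hp => ?_
    have hp' : ‖p‖ ≤ σ ^ 33 := by simpa using hp
    have hV := (hG.at0 (lt_of_le_of_lt hp' hDR)).V0
    have h1 : Q.ρ⁻¹ * ‖p‖ ≤ Q.ρ⁻¹ * σ ^ 33 := by gcongr
    exact young_fV hρ (hF p hp') (hV.1.trans h1) (hV.2.trans h1)
  rw [integral_sub (intOn_cball (by fun_prop) _) (intOn_cball (by fun_prop) _),
    integral_const_mul] at hfV2
  rw [integral_const_mul, hfV] at hglob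
  have hCmI : Cm * ∫ p in ann (Q.ρ / 2) (5 / 6 * (π.R * Q.ρ)), Q.w p ^ 2
      ≤ Cm * (CI * (τ * σ ^ 80) ^ 2) := by gcongr
  have hGfin : Q.ρ ^ 3 / 2 * ∫ p in closedBall (0 : P) (σ ^ 33), gsq Q.w p
      ≤ (Q.ρ ^ 5)⁻¹ * (CF * τ / σ ^ 83) ^ 2 * (σ ^ 33) ^ 2 * (4 * (σ ^ 33) ^ 2)
        + Cm * (CI * (τ * σ ^ 80) ^ 2) := by
    have : Q.ρ ^ 3 * ∫ p in closedBall (0 : P) (σ ^ 33), gsq Q.w p
      ≤ Q.ρ ^ 3 * ∫ p in closedBall (0 : P) (2 / 3 * (π.R * Q.ρ)), gsq Q.w p := by gcongr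
    linarith
  -- the localised estimate
  have hD1 : σ ^ 35 ≤ Q.ρ ^ 6 := by
    calc σ ^ 35 ≤ σ ^ 6 := hpow (by norm_num)
      _ ≤ Q.ρ ^ 6 := by gcongr; linarith
  have hloc := hm L (Q.Z1 (σ ^ 35)) (Q.Z2 (σ ^ 35)) (Q.W (σ ^ 35)) (Q.c1_Z1 _) (Q.c1_Z2 _)
    (Q.cont_W _) (hG.hypZ (by positivity) hD1)
  change ∫ p in closedBall (0 : P) _, Q.W (σ ^ 35) p * gsq Q.w p ≤
    (∫ p in closedBall (0 : P) _,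
      |Q.f p * (Q.Z1 (σ ^ 35) p * dx Q.w p + Q.Z2 (σ ^ 35) p * dy Q.w p)|)
      + Cm * ∫ p in ann _ _, Q.w p ^ 2 at hloc
  have hz : ∫ p in closedBall (0 : P) (2 / 3 * (π.R * Q.ρ)),
      |Q.f p * (Q.Z1 (σ ^ 35) p * dx Q.w p + Q.Z2 (σ ^ 35) p * dy Q.w p)| = 0 := by
    refine setIntegral_eq_zero_of_forall_eq_zero fun p hp => ?_
    rw [hG.fZ_zero hσ hσρ hψ0 p (by simp at hp; nlinarith), abs_zero]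
  rw [hz, zero_add] at hloc
  set Cut := {p : P | σ ^ 34 ≤ |p.1| ∧ |p.1| ≤ 2 * σ ^ 34 ∧
    |p.2 - (i : ℝ) * σ ^ 39 - s * p.1| ≤ σ ^ 39} with hCut
  have hCutm : MeasurableSet Cut := by
    refine IsClosed.measurableSet ?_
    have c1 : IsClosed {p : P | σ ^ 34 ≤ |p.1|} := isClosed_le (by fun_prop) (by fun_prop)
    have c2 : IsClosed {p : P | |p.1| ≤ 2 * σ ^ 34} := isClosed_le (by fun_prop) (by fun_prop)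
    have c3 : IsClosed {p : P | |p.2 - (i : ℝ) * σ ^ 39 - s * p.1| ≤ σ ^ 39} :=
      isClosed_le (by fun_prop) (by fun_prop)
    exact c1.inter (c2.inter c3)
  have hi : |(i : ℝ) * σ ^ 39| + σ ^ 39 ≤ σ ^ 36 := by
    have h1 : ((i : ℕ) : ℝ) + 1 ≤ d := by exact_mod_cast i.2
    rw [abs_of_nonneg (by positivity), ← hdH]
    have : (((i : ℕ) : ℝ) + 1) * σ ^ 39 ≤ d * σ ^ 39 := by gcongr
    linarith
  have hCutD : ∀ p ∈ Cut, ‖p‖ ≤ σ ^ 33 := fun p ⟨_, h2, h3⟩ => by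
    have h4 : |s * p.1| ≤ |s| * (2 * σ ^ 34) := by rw [abs_mul]; gcongr
    have h5 : p.2 = (p.2 - (i : ℝ) * σ ^ 39 - s * p.1) + (i : ℝ) * σ ^ 39 + s * p.1 := by ring
    have h6 : |p.2| ≤ |p.2 - (i : ℝ) * σ ^ 39 - s * p.1| + |(i : ℝ) * σ ^ 39| + |s * p.1| := by
      conv_lhs => rw [h5]
      exact (abs_add_le _ _).trans (by gcongr; exact abs_add_le _ _)
    have h7 : 0 ≤ |s| * σ ^ 34 := by positivity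
    have h8 : 0 ≤ σ ^ 39 := by positivity
    have h9 : 0 ≤ σ ^ 34 := by positivity
    have h10 : 0 ≤ σ ^ 36 := by positivity
    rw [Prod.norm_def, Real.norm_eq_abs, Real.norm_eq_abs]
    exact max_le (by nlinarith) (by nlinarith)
  have hCutsub : Cut ⊆ closedBall (0 : P) (σ ^ 33) := fun p hp => by simpa using hCutD p hp
  have hW := Q.cont_W (σ ^ 35)
  have hGc : ∫ p in Cut, Q.ρ ^ 3 * (σ ^ 40) ^ 2 * gsq Q.w p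
      ≤ ∫ p in closedBall (0 : P) (2 / 3 * (π.R * Q.ρ)), Q.W (σ ^ 35) p * gsq Q.w p := by
    refine int_le_int (by fun_prop) (by fun_prop) hCutm (hCutsub.trans hsub) (fun p hp => ?_)
      fun p hp => ?_
    · exact mul_le_mul_of_nonneg_right (hG.W_cut hσ hσρ hη hi (hCutD p hp) hp.1 hp.2.2)
        (gsq_nonneg _ _)
    · exact mul_nonneg (hG.hypZ (by positivity) hD1 p (by simp at hp; nlinarith)).1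
        (gsq_nonneg _ _)
  rw [integral_const_mul] at hGc
  exact final_arith hρ hσ hσ2 hτ hCE0 hCm hCI hCd hGfin (hGc.trans (hloc.trans hCmI))
    (int_abs_grad_le hw (by positivity) (by positivity) measurableSet_closedBall subset_rfl)
    (int_abs_grad_le hw (by positivity) (by positivity) hCutm hCutsub) hdet

end Crest.Agent.R220
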