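import Crest.Agent.R220.Basic

open scoped ContDiff Topology
open MeasureTheory Set Metric Filter

noncomputable section
namespace Crest.Agent.R220

theorem darb_alg {P1 P2 P3 R1 R2 R3 N1 N2 N3 M1 M2 M3 E : ℝ} (hE : 0 < E)
    (hP : P1 ^ 2 + P2 ^ 2 + P3 ^ 2 = E) (hR : R1 ^ 2 + R2 ^ 2 + R3 ^ 2 = E)
    (hPR : P1 * R1 + P2 * R2 + P3 * R3 = 0) (hNP : N1 * P1 + N2 * P2 + N3 * P3 = 0)
    (hNR : N1 * R1 + N2 * R2 + N3 * R3 = 0) (hMP : M1 * P1 + M2 * P2 + M3 * P3 = 0)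
    (hMR : M1 * R1 + M2 * R2 + M3 * R3 = 0) :
    E * (N1 * M1) = (N1 * M1 + N2 * M2 + N3 * M3) * (E - P1 ^ 2 - R1 ^ 2) := by
  obtain ⟨n1, hn1⟩ : ∃ n1, n1 = P2 * R3 - P3 * R2 := ⟨_, rfl⟩
  obtain ⟨n2, hn2⟩ : ∃ n2, n2 = P3 * R1 - P1 * R3 := ⟨_, rfl⟩
  obtain ⟨n3, hn3⟩ : ∃ n3, n3 = P1 * R2 - P2 * R1 := ⟨_, rfl⟩
  have hn : n1 ^ 2 + n2 ^ 2 + n3 ^ 2 = E ^ 2 := by
    rw [hn1, hn2, hn3]
    linear_combination (R1 ^ 2 + R2 ^ 2 + R3 ^ 2) * hP + E * hR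
      - (P1 * R1 + P2 * R2 + P3 * R3) * hPR
  have hn1' : n1 ^ 2 = E * (E - P1 ^ 2 - R1 ^ 2) := by
    rw [hn1]
    linear_combination (R2 ^ 2 + R3 ^ 2) * hP + (E - P1 ^ 2) * hR
      - (P2 * R2 + P3 * R3 - P1 * R1) * hPR
  have key : ∀ {A1 A2 A3 : ℝ}, A1 * P1 + A2 * P2 + A3 * P3 = 0 → A1 * R1 + A2 * R2 + A3 * R3 = 0 →
      A1 * E ^ 2 = n1 * (A1 * n1 + A2 * n2 + A3 * n3) ∧
      A2 * E ^ 2 = n2 * (A1 * n1 + A2 * n2 + A3 * n3) ∧
      A3 * E ^ 2 = n3 * (A1 * n1 + A2 * n2 + A3 * n3) := by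
    intro A1 A2 A3 h1 h2
    rw [← hn, hn1, hn2, hn3]
    refine ⟨?_, ?_, ?_⟩
    · linear_combination (-(R2 * (P1 * R2 - P2 * R1)) + R3 * (P3 * R1 - P1 * R3)) * (-h1)
        + (-(P2 * (P1 * R2 - P2 * R1)) + P3 * (P3 * R1 - P1 * R3)) * h2
    · linear_combination (-(R3 * (P2 * R3 - P3 * R2)) + R1 * (P1 * R2 - P2 * R1)) * (-h1)
        + (-(P3 * (P2 * R3 - P3 * R2)) + P1 * (P1 * R2 - P2 * R1)) * h2
    · linear_combination (-(R1 * (P3 * R1 - P1 * R3)) + R2 * (P2 * R3 - P3 * R2)) * (-h1)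
        + (-(P1 * (P3 * R1 - P1 * R3)) + P2 * (P2 * R3 - P3 * R2)) * h2
  obtain ⟨a1, a2, a3⟩ := key hNP hNR
  obtain ⟨b1, b2, b3⟩ := key hMP hMR
  generalize N1 * n1 + N2 * n2 + N3 * n3 = α at a1 a2 a3
  generalize M1 * n1 + M2 * n2 + M3 * n3 = β at b1 b2 b3
  have hE5 : E ^ 4 ≠ 0 := by positivity
  apply mul_left_cancel₀ hE5
  have c1 : E ^ 4 * (N1 * M1) = n1 ^ 2 * (α * β) := by
    linear_combination (M1 * E ^ 2) * a1 + n1 * α * b1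
  have c2 : E ^ 4 * (N2 * M2) = n2 ^ 2 * (α * β) := by
    linear_combination (M2 * E ^ 2) * a2 + n2 * α * b2
  have c3 : E ^ 4 * (N3 * M3) = n3 ^ 2 * (α * β) := by
    linear_combination (M3 * E ^ 2) * a3 + n3 * α * b3
  linear_combination E * c1 - (E - P1 ^ 2 - R1 ^ 2) * (c1 + c2 + c3)
    + E * (α * β) * hn1' - (E - P1 ^ 2 - R1 ^ 2) * (α * β) * hn

/-- Each coordinate of an isometric immersion of `exp (2 φ) (dx² + dy²)` into three-space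
satisfies the Darboux equation. -/
theorem darb (U : Set P) (hU : IsOpen U) (φ F1 F2 F3 : P → ℝ) (hφ : ContDiff ℝ ∞ φ)
    (h1 : ContDiff ℝ ∞ F1) (h2 : ContDiff ℝ ∞ F2) (h3 : ContDiff ℝ ∞ F3)
    (hxx : ∀ p ∈ U, dx F1 p ^ 2 + dx F2 p ^ 2 + dx F3 p ^ 2 = Real.exp (2 * φ p))
    (hyy : ∀ p ∈ U, dy F1 p ^ 2 + dy F2 p ^ 2 + dy F3 p ^ 2 = Real.exp (2 * φ p))
    (hxy : ∀ p ∈ U, dx F1 p * dy F1 p + dx F2 p * dy F2 p + dx F3 p * dy F3 p = 0) :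
    ∀ p ∈ U, Darboux φ F1 p := by
  have D : ∀ {f : P → ℝ}, ContDiff ℝ ∞ f → ∀ p, DifferentiableAt ℝ f p :=
    fun hf p => sm_diff hf p
  have X3 : ∀ {a1 b1 a2 b2 a3 b3 : P → ℝ}, ContDiff ℝ ∞ a1 → ContDiff ℝ ∞ b1 → ContDiff ℝ ∞ a2 →
      ContDiff ℝ ∞ b2 → ContDiff ℝ ∞ a3 → ContDiff ℝ ∞ b3 → ∀ p,
      dx (fun q => a1 q * b1 q + a2 q * b2 q + a3 q * b3 q) p =
        dx a1 p * b1 p + a1 p * dx b1 p + (dx a2 p * b2 p + a2 p * dx b2 p) +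
          (dx a3 p * b3 p + a3 p * dx b3 p) := by
    intro a1 b1 a2 b2 a3 b3 ha1 hb1 ha2 hb2 ha3 hb3 p
    rw [dx_add (D ((ha1.mul hb1).add (ha2.mul hb2)) p) (D (ha3.mul hb3) p),
      dx_add (D (ha1.mul hb1) p) (D (ha2.mul hb2) p), dx_mul (D ha1 p) (D hb1 p),
      dx_mul (D ha2 p) (D hb2 p), dx_mul (D ha3 p) (D hb3 p)]
  have Y3 : ∀ {a1 b1 a2 b2 a3 b3 : P → ℝ}, ContDiff ℝ ∞ a1 → ContDiff ℝ ∞ b1 → ContDiff ℝ ∞ a2 →
      ContDiff ℝ ∞ b2 → ContDiff ℝ ∞ a3 → ContDiff ℝ ∞ b3 → ∀ p,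
      dy (fun q => a1 q * b1 q + a2 q * b2 q + a3 q * b3 q) p =
        dy a1 p * b1 p + a1 p * dy b1 p + (dy a2 p * b2 p + a2 p * dy b2 p) +
          (dy a3 p * b3 p + a3 p * dy b3 p) := by
    intro a1 b1 a2 b2 a3 b3 ha1 hb1 ha2 hb2 ha3 hb3 p
    rw [dy_add (D ((ha1.mul hb1).add (ha2.mul hb2)) p) (D (ha3.mul hb3) p),
      dy_add (D (ha1.mul hb1) p) (D (ha2.mul hb2) p), dy_mul (D ha1 p) (D hb1 p),
      dy_mul (D ha2 p) (D hb2 p), dy_mul (D ha3 p) (D hb3 p)]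
  set E : P → ℝ := fun q => Real.exp (2 * φ q) with hE
  have h2φ : ContDiff ℝ ∞ fun q => 2 * φ q := contDiff_const.mul hφ
  have hEs : ContDiff ℝ ∞ E := h2φ.exp
  have Ex : ∀ p, dx E p = 2 * dx φ p * E p := fun p => by
    rw [hE, dx_exp (D h2φ p), dx_const_mul _ (D hφ p)]; ring
  have Ey : ∀ p, dy E p = 2 * dy φ p * E p := fun p => by
    rw [hE, dy_exp (D h2φ p), dy_const_mul _ (D hφ p)]; ring
  have hxx' : ∀ p ∈ U, dx F1 p * dx F1 p + dx F2 p * dx F2 p + dx F3 p * dx F3 p = E p :=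
    fun p hp => by simpa only [sq] using hxx p hp
  have hyy' : ∀ p ∈ U, dy F1 p * dy F1 p + dy F2 p * dy F2 p + dy F3 p * dy F3 p = E p :=
    fun p hp => by simpa only [sq] using hyy p hp
  have x1 := sm_dx h1
  have x2 := sm_dx h2
  have x3 := sm_dx h3
  have y1 := sm_dy h1
  have y2 := sm_dy h2
  have y3 := sm_dy h3
  have c1 := dy_dx_comm' h1
  have c2 := dy_dx_comm' h2
  have c3 := dy_dx_comm' h3
  have A1 : ∀ p ∈ U, dx (dx F1) p * dx F1 p + dx (dx F2) p * dx F2 p + dx (dx F3) p * dx F3 p =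
      dx φ p * E p := fun p hp => by
    have := dx_congr_on hU hxx' p hp
    rw [X3 x1 x1 x2 x2 x3 x3, Ex] at this
    linarith
  have A2 : ∀ p ∈ U, dx (dy F1) p * dx F1 p + dx (dy F2) p * dx F2 p + dx (dy F3) p * dx F3 p =
      dy φ p * E p := fun p hp => by
    have := dy_congr_on hU hxx' p hp
    rw [Y3 x1 x1 x2 x2 x3 x3, Ey, c1, c2, c3] at this
    linarith
  have A3 : ∀ p ∈ U, dx (dy F1) p * dy F1 p + dx (dy F2) p * dy F2 p + dx (dy F3) p * dy F3 p =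
      dx φ p * E p := fun p hp => by
    have := dx_congr_on hU hyy' p hp
    rw [X3 y1 y1 y2 y2 y3 y3, Ex] at this
    linarith
  have A4 : ∀ p ∈ U, dy (dy F1) p * dy F1 p + dy (dy F2) p * dy F2 p + dy (dy F3) p * dy F3 p =
      dy φ p * E p := fun p hp => by
    have := dy_congr_on hU hyy' p hp
    rw [Y3 y1 y1 y2 y2 y3 y3, Ey] at this
    linarith
  have A5 : ∀ p ∈ U, dx (dx F1) p * dy F1 p + dx (dx F2) p * dy F2 p + dx (dx F3) p * dy F3 p =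
      -dy φ p * E p := fun p hp => by
    have := dx_congr_on hU hxy p hp
    rw [X3 x1 y1 x2 y2 x3 y3, dx_const] at this
    linarith [A2 p hp]
  have A6 : ∀ p ∈ U, dy (dy F1) p * dx F1 p + dy (dy F2) p * dx F2 p + dy (dy F3) p * dx F3 p =
      -dx φ p * E p := fun p hp => by
    have := dy_congr_on hU hxy p hp
    rw [Y3 x1 y1 x2 y2 x3 y3, dy_const, c1, c2, c3] at this
    linarith [A3 p hp]
  intro p hp
  have G1 := dy_congr_on hU A5 p hp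
  rw [Y3 (sm_dx x1) y1 (sm_dx x2) y2 (sm_dx x3) y3, dy_dx_comm' x1, dy_dx_comm' x2,
    dy_dx_comm' x3, c1, c2, c3, dy_mul (D (sm_dy hφ).neg p) (D hEs p), dy_neg, Ey] at G1
  have G2 := dx_congr_on hU A3 p hp
  rw [X3 (sm_dx y1) y1 (sm_dx y2) y2 (sm_dx y3) y3, dx_mul (D (sm_dx hφ) p) (D hEs p), Ex] at G2
  have hEp : 0 < E p := Real.exp_pos _
  have a1 := A1 p hp
  have a2 := A2 p hp
  have a3 := A3 p hp
  have a4 := A4 p hp
  have a5 := A5 p hp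
  have a6 := A6 p hp
  have b1 := hxx p hp
  have b2 := hyy p hp
  have b3 := hxy p hp
  change _ = E p at b1 b2
  have k1 := darb_alg (N1 := S11 φ F1 p) (N2 := S11 φ F2 p) (N3 := S11 φ F3 p)
    (M1 := S22 φ F1 p) (M2 := S22 φ F2 p) (M3 := S22 φ F3 p) hEp b1 b2 b3
    (by simp only [S11]; linear_combination a1 - dx φ p * b1 + dy φ p * b3)
    (by simp only [S11]; linear_combination a5 - dx φ p * b3 + dy φ p * b2)
    (by simp only [S22]; linear_combination a6 + dx φ p * b1 - dy φ p * b3)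
    (by simp only [S22]; linear_combination a4 + dx φ p * b3 - dy φ p * b2)
  have k2 := darb_alg (N1 := S12 φ F1 p) (N2 := S12 φ F2 p) (N3 := S12 φ F3 p)
    (M1 := S12 φ F1 p) (M2 := S12 φ F2 p) (M3 := S12 φ F3 p) hEp b1 b2 b3
    (by simp only [S12]; linear_combination a2 - dy φ p * b1 - dx φ p * b3)
    (by simp only [S12]; linear_combination a3 - dy φ p * b3 - dx φ p * b2)
    (by simp only [S12]; linear_combination a2 - dy φ p * b1 - dx φ p * b3)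
    (by simp only [S12]; linear_combination a3 - dy φ p * b3 - dx φ p * b2)
  have k3 : S11 φ F1 p * S22 φ F1 p + S11 φ F2 p * S22 φ F2 p + S11 φ F3 p * S22 φ F3 p -
      (S12 φ F1 p * S12 φ F1 p + S12 φ F2 p * S12 φ F2 p + S12 φ F3 p * S12 φ F3 p) =
      E p * kap φ p := by
    simp only [S11, S12, S22, kap]
    linear_combination G1 - G2 + dx φ p * a1 - dy φ p * a5 - dx φ p * a6 + dy φ p * a4
      - (dx φ p ^ 2 + dy φ p ^ 2) * b1 - (dx φ p ^ 2 + dy φ p ^ 2) * b2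
      + 2 * dy φ p * a2 + 2 * dx φ p * a3
  unfold Darboux mu
  change _ = kap φ p * (E p - _ - _)
  apply mul_left_cancel₀ hEp.ne'
  linear_combination k1 - k2 + (E p - dx F1 p ^ 2 - dy F1 p ^ 2) * k3

end Crest.Agent.R220
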