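import Crest.Agent.R220.PW2

/-!
Packaging of the pointwise facts valid for small `ρ`.
-/

open scoped ContDiff Topology
open MeasureTheory Set Metric Filter Asymptotics

noncomputable section
namespace Crest.Agent.R220

namespace Pair
variable {π : Par} (Q : Pair π)

def fc1 (p : P) : ℝ := Q.a11 p * dx Q.s.u p + 2 * Q.a12 p * dy Q.s.u p - Q.a22 p * dx Q.s.u p
def fc2 (p : P) : ℝ := -Q.a11 p * dy Q.s.u p + 2 * Q.a12 p * dx Q.s.u p + Q.a22 p * dy Q.s.u p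

end Pair

section ev
variable {π : Par}

instance ord_fc1 : Ord (sc π) (fun z => z.fc1 z.p) 0 := by unfold Pair.fc1; ord
instance ord_fc2 : Ord (sc π) (fun z => z.fc2 z.p) 0 := by unfold Pair.fc2; ord

theorem ev_center : ∀ᶠ z in (sc π).l, ‖z.p‖ ≤ z.ρ / 2 → ∃ s ν : ℝ, |s| ≤ z.ρ⁻¹ ∧ |ν| ≤ z.ρ⁻¹ ∧
    z.a12 z.p - s * z.a11 z.p = ν ∧ z.a22 z.p - s * z.a12 z.p = ν * s ∧
    z.ρ ^ 2 ≤ dx z.η z.p + s * dy z.η z.p := by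
  have hM := π.M_pos
  have hM1 := π.hM
  have h1 : Ord (sc π) (fun z => z.κ z.p) (0 + 1) := by ord
  have h2 : Ord (sc π) (fun z => z.e1 z.p * z.ia z.p) (0 + 1) := by ord
  have h3 : Ord (sc π) (fun z => z.e2 z.p * z.ia z.p) (1 + 1) := by ord
  filter_upwards [h1.small one_pos, h2.small one_half_pos,
    h3.small (c := (8 * π.M)⁻¹) (by positivity), ev_a (π := π), ev_ia (π := π), ev_inner (π := π),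
    (sc π).ev_le (c := (8 * π.M)⁻¹) (by positivity),
    (sc π).ev_le (c := ((2 * π.M + 1) * (2 * π.M))⁻¹) (by positivity)]
    with z h1 h2 h3 ⟨_, _, ha3⟩ ⟨hi1, hi2, hi3, _⟩ hin h4 h5 hp
  change z.ρ ≤ _ at h4 h5
  change |_| ≤ _ * z.ρ ^ 1 at h3
  rw [pow_zero, mul_one] at h1 h2
  rw [pow_one] at h3
  have hρ := z.hρ
  have hκ := hin hp
  have hia : 0 < z.ia z.p := lt_of_lt_of_le (by positivity) hi1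
  have hκ0 : 0 ≤ -z.κ z.p := by
    have : 0 ≤ z.ρ ^ 2 / (4 * π.M) := by positivity
    linarith
  set ϖ := Real.sqrt (-z.κ z.p) with hϖ
  have hϖ0 : 0 ≤ ϖ := Real.sqrt_nonneg _
  have hϖ2 : ϖ ^ 2 = -z.κ z.p := Real.sq_sqrt hκ0
  have hϖ1 : ϖ ≤ 1 := by
    rw [hϖ, Real.sqrt_le_one]; linarith [neg_abs_le (z.κ z.p)]
  have hϖ3 : z.ρ / (2 * π.M) ≤ ϖ := by
    refine Real.le_sqrt_of_sq_le (le_trans ?_ (by linarith : z.ρ ^ 2 / (4 * π.M) ≤ -z.κ z.p))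
    rw [div_pow]
    gcongr
    nlinarith
  have h6 : (2 * π.M + 1) * (2 * π.M) ≤ z.ρ⁻¹ := (le_inv_comm₀ hρ (by positivity)).1 h5
  refine ⟨(z.a12 z.p + ϖ) * z.ia z.p, -ϖ, ?_, ?_, ?_, ?_, ?_⟩
  · rw [abs_mul, abs_of_pos hia]
    refine le_trans ?_ h6
    gcongr
    exact (abs_add_le _ _).trans (by rw [abs_of_nonneg hϖ0]; linarith)
  · rw [abs_neg, abs_of_nonneg hϖ0]
    exact hϖ1.trans (le_trans (by nlinarith) h6)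
  · linear_combination (-(z.a12 z.p + ϖ)) * hi3
  · have : z.κ z.p = z.a11 z.p * z.a22 z.p - z.a12 z.p ^ 2 := rfl
    linear_combination (-z.a22 z.p) * hi3 + z.ia z.p * hϖ2 - z.ia z.p * this
  · have h7 : dx z.η z.p + (z.a12 z.p + ϖ) * z.ia z.p * dy z.η z.p
        = z.e2 z.p * z.ia z.p + ϖ * (1 + z.e1 z.p * z.ia z.p) := by
      unfold Pair.e1 Pair.e2
      linear_combination (ϖ - dx z.η z.p) * hi3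
    rw [h7]
    rw [abs_le] at h2 h3
    have h8 : z.ρ / (2 * π.M) * (1 / 2) ≤ ϖ * (1 + z.e1 z.p * z.ia z.p) := by
      gcongr; linarith [h2.1]
    have h9 : z.ρ / (2 * π.M) * (1 / 2) = 2 * ((8 * π.M)⁻¹ * z.ρ) := by field_simp; norm_num
    have h10 : z.ρ * z.ρ ≤ (8 * π.M)⁻¹ * z.ρ := by gcongr
    nlinarith [h3.1]

theorem ev_V0 : ∀ᶠ z in (sc π).l,
    |z.V1 z.p| ≤ z.ρ⁻¹ * ‖z.p‖ ∧ |z.V2 0 z.p| ≤ z.ρ⁻¹ * ‖z.p‖ := by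
  have hM := π.M_pos
  have hM1 := π.hM
  have hε := π.eps_pos
  have hε1 := π.eps_le
  filter_upwards [ev_a (π := π), ev_ia (π := π),
    (sc π).ev_le (c := (8 * π.M ^ 2)⁻¹) (by positivity)]
    with z ⟨_, _, ha3⟩ ⟨hi1, hi2, _, _⟩ h5
  change z.ρ ≤ _ at h5
  have hρ := z.hρ
  have hia : 0 < z.ia z.p := lt_of_lt_of_le (by positivity) hi1
  have h6 : 8 * π.M ^ 2 ≤ z.ρ⁻¹ := (le_inv_comm₀ hρ (by positivity)).1 h5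
  have h7 : |(1 - π.eps) * z.p.1| ≤ 1 * ‖z.p‖ := by
    rw [abs_mul]; gcongr
    · rw [abs_le]; constructor <;> linarith
    · exact abs_fst_le _
  constructor
  · exact h7.trans (by gcongr; nlinarith)
  · unfold Pair.V2
    rw [abs_mul, abs_of_pos hia, add_zero]
    have h8 := z.η_le z.hp
    have h9 : |(1 - π.eps) * z.p.1 * z.a12 z.p| ≤ 1 * ‖z.p‖ * (2 * π.M) := by
      rw [abs_mul]; gcongr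
    have h10 : |z.η z.p + (1 - π.eps) * z.p.1 * z.a12 z.p| ≤ 4 * π.M * ‖z.p‖ :=
      (abs_add_le _ _).trans (by linarith)
    calc _ ≤ 4 * π.M * ‖z.p‖ * (2 * π.M) := by gcongr
      _ = 8 * π.M ^ 2 * ‖z.p‖ := by ring
      _ ≤ _ := by gcongr

/-- All pointwise facts at one configuration. -/
structure GoodAt (z : Cfg π) : Prop where
  rho1 : z.ρ ≤ 1
  rhoM : 8 * π.M ≤ z.ρ⁻¹
  rhoR : π.R * z.ρ ≤ 1 / 2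
  bd0 : |z.a11 z.p| ≤ z.ρ⁻¹ ∧ |z.a12 z.p| ≤ z.ρ⁻¹ ∧ |z.a22 z.p| ≤ z.ρ⁻¹ ∧ |z.b1 z.p| ≤ z.ρ⁻¹ ∧
    |z.b2 z.p| ≤ z.ρ⁻¹ ∧ |z.κ z.p| ≤ z.ρ⁻¹ ∧ |z.w z.p| ≤ z.ρ⁻¹
  bdx : |dx z.a11 z.p| ≤ z.ρ⁻¹ ∧ |dx z.a12 z.p| ≤ z.ρ⁻¹ ∧ |dx z.a22 z.p| ≤ z.ρ⁻¹ ∧
    |dx z.κ z.p| ≤ z.ρ⁻¹
  bdy : |dy z.a11 z.p| ≤ z.ρ⁻¹ ∧ |dy z.a12 z.p| ≤ z.ρ⁻¹ ∧ |dy z.a22 z.p| ≤ z.ρ⁻¹ ∧
    |dy z.κ z.p| ≤ z.ρ⁻¹
  ell : 0 < z.κ z.p → ∀ ξ1 ξ2 : ℝ,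
    z.ρ ^ 3 * z.κ z.p * (ξ1 ^ 2 + ξ2 ^ 2) ≤ pform z.a11 z.a12 z.a22 z.p ξ1 ξ2
  outer : 2 / 3 * (π.R * z.ρ) ≤ ‖z.p‖ → z.ρ ^ 3 ≤ z.κ z.p
  inner : ‖z.p‖ ≤ z.ρ / 2 → z.κ z.p ≤ -(z.ρ ^ 2 / (4 * π.M))
  T0 : ∀ ξ1 ξ2 : ℝ, z.ρ ^ 3 * (ξ1 ^ 2 + ξ2 ^ 2)
      ≤ Tform z.a11 z.a12 z.a22 z.b1 z.b2 z.V1 (z.V2 0) z.p ξ1 ξ2
  TZ : ∀ ξ1 ξ2 : ℝ,
    (z.W z.D1 z.p - (z.ρ ^ 40)⁻¹ * (max (z.κ z.p) 0) ^ 5) * (ξ1 ^ 2 + ξ2 ^ 2)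
      ≤ Tform z.a11 z.a12 z.a22 z.b1 z.b2 (z.Z1 z.D1) (z.Z2 z.D1) z.p ξ1 ξ2
  Wge : z.ρ / 4 ≤ ‖z.p‖ → z.ρ ^ 13 ≤ z.W z.D1 z.p
  bdZ : |z.Z1 z.D1 z.p| ≤ z.ρ⁻¹ ∧ |z.Z2 z.D1 z.p| ≤ z.ρ⁻¹
  V0 : |z.V1 z.p| ≤ z.ρ⁻¹ * ‖z.p‖ ∧ |z.V2 0 z.p| ≤ z.ρ⁻¹ * ‖z.p‖
  center : ‖z.p‖ ≤ z.ρ / 2 → ∃ s ν : ℝ, |s| ≤ z.ρ⁻¹ ∧ |ν| ≤ z.ρ⁻¹ ∧
    z.a12 z.p - s * z.a11 z.p = ν ∧ z.a22 z.p - s * z.a12 z.p = ν * s ∧
    z.ρ ^ 2 ≤ dx z.η z.p + s * dy z.η z.p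
  bdmu : |mu z.s.φ z.s.u z.p| ≤ z.ρ⁻¹ ∧ |dx (mu z.s.φ z.s.u) z.p| ≤ z.ρ⁻¹ ∧
    |dy (mu z.s.φ z.s.u) z.p| ≤ z.ρ⁻¹
  bdf : |kap z.s'.φ z.p| ≤ 1 / 100 * z.ρ⁻¹ ∧ |z.s.φ z.p| ≤ 1 ∧ |z.s'.φ z.p| ≤ 1 ∧
    |z.fc1 z.p| ≤ z.ρ⁻¹ ∧ |z.fc2 z.p| ≤ z.ρ⁻¹

theorem ev_le_inv (g : Cfg π → ℝ) {k : ℕ} [h : Ord (sc π) g k] :
    ∀ᶠ z in (sc π).l, |g z| ≤ z.ρ⁻¹ := (h.mono (Nat.zero_le _)).le_inv

theorem ev_le_one (g : Cfg π → ℝ) {k : ℕ} [h : Ord (sc π) g (k + 1)] :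
    ∀ᶠ z in (sc π).l, |g z| ≤ 1 := by
  have := (h.mono (l := 0 + 1) (by omega)).small one_pos
  simpa using this

theorem ev_good : ∀ᶠ z in (sc π).l, GoodAt z := by
  have hM := π.M_pos
  have hR := π.R_pos
  have h1 := ord_ςt0 (π := π) 1
  have h2 := ord_ςt0 (π := π) (-1)
  have hZ1 : Ord (sc π) (fun z => z.Z1 z.D1 z.p) 0 := by unfold Pair.Z1; ord
  have hZ2 : Ord (sc π) (fun z => z.Z2 z.D1 z.p) 0 := by unfold Pair.Z2; ord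
  have hk : Ord (sc π) (fun z => 100 * kap z.s'.φ z.p) 0 := by ord
  have e0 : ∀ᶠ z in (sc π).l, z.ρ ≤ 1 ∧ 8 * π.M ≤ z.ρ⁻¹ ∧ π.R * z.ρ ≤ 1 / 2 := by
    filter_upwards [(sc π).ev_le one_pos, (sc π).ev_le (c := (8 * π.M)⁻¹) (by positivity),
      (sc π).ev_le (c := 1 / 2 / π.R) (by positivity)] with z h1 h2 h3
    change z.ρ ≤ _ at h1 h2 h3
    refine ⟨h1, (le_inv_comm₀ z.hρ (by positivity)).1 h2, ?_⟩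
    rw [le_div_iff₀ hR] at h3; linarith
  have e1 : ∀ᶠ z in (sc π).l, |z.a11 z.p| ≤ z.ρ⁻¹ ∧ |z.a12 z.p| ≤ z.ρ⁻¹ ∧ |z.a22 z.p| ≤ z.ρ⁻¹ ∧
      |z.b1 z.p| ≤ z.ρ⁻¹ ∧ |z.b2 z.p| ≤ z.ρ⁻¹ ∧ |z.κ z.p| ≤ z.ρ⁻¹ ∧ |z.w z.p| ≤ z.ρ⁻¹ :=
    (ev_le_inv _).and <| (ev_le_inv _).and <| (ev_le_inv _).and <| (ev_le_inv _).and <|
      (ev_le_inv _).and <| (ev_le_inv _).and (ev_le_inv _)
  have e2 : ∀ᶠ z in (sc π).l, |dx z.a11 z.p| ≤ z.ρ⁻¹ ∧ |dx z.a12 z.p| ≤ z.ρ⁻¹ ∧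
      |dx z.a22 z.p| ≤ z.ρ⁻¹ ∧ |dx z.κ z.p| ≤ z.ρ⁻¹ :=
    (ev_le_inv _).and <| (ev_le_inv _).and <| (ev_le_inv _).and (ev_le_inv _)
  have e3 : ∀ᶠ z in (sc π).l, |dy z.a11 z.p| ≤ z.ρ⁻¹ ∧ |dy z.a12 z.p| ≤ z.ρ⁻¹ ∧
      |dy z.a22 z.p| ≤ z.ρ⁻¹ ∧ |dy z.κ z.p| ≤ z.ρ⁻¹ :=
    (ev_le_inv _).and <| (ev_le_inv _).and <| (ev_le_inv _).and (ev_le_inv _)
  have e4 : ∀ᶠ z in (sc π).l, |z.Z1 z.D1 z.p| ≤ z.ρ⁻¹ ∧ |z.Z2 z.D1 z.p| ≤ z.ρ⁻¹ :=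
    hZ1.le_inv.and hZ2.le_inv
  have e5 : ∀ᶠ z in (sc π).l, |mu z.s.φ z.s.u z.p| ≤ z.ρ⁻¹ ∧
      |dx (mu z.s.φ z.s.u) z.p| ≤ z.ρ⁻¹ ∧ |dy (mu z.s.φ z.s.u) z.p| ≤ z.ρ⁻¹ :=
    (ev_le_inv _).and <| (ev_le_inv _).and (ev_le_inv _)
  have e6 : ∀ᶠ z in (sc π).l, |kap z.s'.φ z.p| ≤ 1 / 100 * z.ρ⁻¹ ∧ |z.s.φ z.p| ≤ 1 ∧
      |z.s'.φ z.p| ≤ 1 ∧ |z.fc1 z.p| ≤ z.ρ⁻¹ ∧ |z.fc2 z.p| ≤ z.ρ⁻¹ := by
    refine Eventually.and ?_ <| (ev_le_one (k := 3) _).and <| (ev_le_one (k := 3) _).and <|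
      (ev_le_inv _).and (ev_le_inv _)
    filter_upwards [hk.le_inv] with z hz
    change _ ≤ z.ρ⁻¹ at hz
    rw [abs_mul, abs_of_pos (by norm_num : (0 : ℝ) < 100)] at hz
    linarith
  filter_upwards [e0, e1, e2, e3, e4, e5, e6, ev_ell (π := π), ev_outer (π := π),
    ev_inner (π := π), ev_T0 (π := π), ev_TZ (π := π), ev_W (π := π), ev_V0 (π := π),
    ev_center (π := π)] with z e0 e1 e2 e3 e4 e5 e6 h1 h2 h3 h4 h5 h6 h7 h8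
  exact ⟨e0.1, e0.2.1, e0.2.2, e1, e2, e3, h1, h2, h3, h4, h5, h6, e4, h7, h8, e5, e6⟩

end ev

/-- A pair is good when all its configurations are. -/
def Pair.Good {π : Par} (Q : Pair π) : Prop :=
  ∀ (p : P) (hp : ‖p‖ < π.R * Q.ρ) (D1 : ℝ) (hD0 : 0 ≤ D1) (hD : D1 ≤ Q.ρ ^ 6),
    GoodAt ⟨Q, p, hp, D1, hD0, hD⟩

theorem exists_good (π : Par) : ∃ ρ0 > 0, ∀ Q : Pair π, Q.ρ < ρ0 → Q.Good := by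
  obtain ⟨ρ0, h0, h⟩ := (sc π).eventually_iff.1 (ev_good (π := π))
  exact ⟨ρ0, h0, fun Q hQ p hp D1 hD0 hD => h ⟨Q, p, hp, D1, hD0, hD⟩ hQ⟩

namespace Pair
variable {π : Par} {Q : Pair π}

theorem Good.at0 (hG : Q.Good) {p : P} (hp : ‖p‖ < π.R * Q.ρ) :
    GoodAt ⟨Q, p, hp, 0, le_rfl, pow_nonneg Q.hρ.le 6⟩ := hG p hp 0 le_rfl _

theorem zero_mem (Q : Pair π) : ‖(0 : P)‖ < π.R * Q.ρ := by
  have := π.R_pos; have := Q.hρ; rw [norm_zero]; positivity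

theorem Good.rho1 (hG : Q.Good) : Q.ρ ≤ 1 := (hG.at0 Q.zero_mem).rho1
theorem Good.rhoM (hG : Q.Good) : 8 * π.M ≤ Q.ρ⁻¹ := (hG.at0 Q.zero_mem).rhoM
theorem Good.rhoR (hG : Q.Good) : π.R * Q.ρ ≤ 1 / 2 := (hG.at0 Q.zero_mem).rhoR

theorem Good.inv_le_K (hG : Q.Good) : Q.ρ⁻¹ ≤ (Q.ρ ^ 40)⁻¹ := by
  have := Q.hρ
  refine inv_anti₀ (by positivity) ?_
  calc Q.ρ ^ 40 ≤ Q.ρ ^ 1 := pow_le_pow_of_le_one this.le hG.rho1 (by norm_num)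
    _ = Q.ρ := pow_one _

theorem Good.K_inv_le (hG : Q.Good) {k : ℕ} (hk : k ≤ 40) : ((Q.ρ ^ 40)⁻¹)⁻¹ ≤ Q.ρ ^ k := by
  rw [inv_inv]; exact pow_le_pow_of_le_one Q.hρ.le hG.rho1 hk

theorem f_eq (Q : Pair π) (p : P) : Q.f p = kap Q.ψd p * mu Q.s.φ Q.s.u p
    + kap Q.s'.φ p * (Real.exp (2 * Q.s.φ p) - Real.exp (2 * Q.s'.φ p))
    + dx Q.ψd p * Q.fc1 p + dy Q.ψd p * Q.fc2 p := rfl

/-- If the two perturbations agree outside a closed ball, `f` vanishes there. -/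
theorem f_eq_zero (Q : Pair π) {D : ℝ} (h : ∀ p, D ≤ ‖p‖ → Q.ψd p = 0) {p : P} (hp : D < ‖p‖) :
    Q.f p = 0 := by
  have hU : IsOpen {q : P | D < ‖q‖} := isOpen_lt continuous_const continuous_norm
  have h0 : ∀ q ∈ {q : P | D < ‖q‖}, Q.ψd q = (fun _ => (0 : ℝ)) q := fun q hq => h q (le_of_lt hq)
  have hx : ∀ q ∈ {q : P | D < ‖q‖}, dx Q.ψd q = (fun _ => (0 : ℝ)) q := fun q hq => by
    rw [dx_congr_on hU h0 q hq]; simp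
  have hy : ∀ q ∈ {q : P | D < ‖q‖}, dy Q.ψd q = (fun _ => (0 : ℝ)) q := fun q hq => by
    rw [dy_congr_on hU h0 q hq]; simp
  have hk : kap Q.ψd p = 0 := by
    unfold kap; rw [dx_congr_on hU hx p hp, dy_congr_on hU hy p hp]; simp
  have hφ : Q.s.φ p = Q.s'.φ p := by
    have := h0 p hp
    rw [ψd_eq] at this
    exact sub_eq_zero.1 this
  rw [f_eq, hk, hx p hp, hy p hp, hφ]; simp

/-- The abstract linear equation attached to a good pair. -/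
def lin (hG : Q.Good) (hf : ∀ p, Q.ρ / 2 ≤ ‖p‖ → Q.f p = 0) :
    Lin (Q.ρ ^ 40)⁻¹ (Q.ρ / 2) (2 / 3 * (π.R * Q.ρ)) (π.R * Q.ρ) where
  a11 := Q.a11
  a12 := Q.a12
  a22 := Q.a22
  b1 := Q.b1
  b2 := Q.b2
  κ := Q.κ
  w := Q.w
  f := Q.f
  h11 := Q.sm_a11
  h12 := Q.sm_a12
  h22 := Q.sm_a22
  hb1 := Q.sm_b1
  hb2 := Q.sm_b2
  hκ := Q.sm_κ
  hw := Q.sm_w
  hf := Q.sm_f
  eqn := Q.eqn
  bd0 := fun p hp => by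
    obtain ⟨h1, h2, h3, h4, h5, h6, h7⟩ := (hG.at0 hp).bd0
    have hK := hG.inv_le_K
    exact ⟨h1.trans hK, h2.trans hK, h3.trans hK, h4.trans hK, h5.trans hK, h6.trans hK,
      h7.trans hK⟩
  bdx := fun p hp => by
    obtain ⟨h1, h2, h3, h4⟩ := (hG.at0 hp).bdx
    have hK := hG.inv_le_K
    exact ⟨h1.trans hK, h2.trans hK, h3.trans hK, h4.trans hK⟩
  bdy := fun p hp => by
    obtain ⟨h1, h2, h3, h4⟩ := (hG.at0 hp).bdy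
    have hK := hG.inv_le_K
    exact ⟨h1.trans hK, h2.trans hK, h3.trans hK, h4.trans hK⟩
  ell := fun p hp hκ ξ1 ξ2 => by
    refine le_trans ?_ ((hG.at0 hp).ell hκ ξ1 ξ2)
    have := hG.K_inv_le (k := 3) (by norm_num)
    change _ ≤ Q.ρ ^ 3 * Q.κ p * _
    gcongr
  outer := fun p hp h => (hG.K_inv_le (k := 3) (by norm_num)).trans ((hG.at0 hp).outer h)
  inner := fun p h => by
    have hρ := Q.hρ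
    have hM := π.M_pos
    have hp : ‖p‖ < π.R * Q.ρ := by nlinarith [π.three_le_R]
    have h1 : Q.κ p ≤ -(Q.ρ ^ 2 / (4 * π.M)) := (hG.at0 hp).inner h
    have : 0 ≤ Q.ρ ^ 2 / (4 * π.M) := by positivity
    linarith
  fsupp := fun p _ h => hf p h

theorem abs_exp_sub_le {a b : ℝ} (ha : |a| ≤ 1) (hb : |b| ≤ 1) :
    |Real.exp (2 * a) - Real.exp (2 * b)| ≤ 100 * |a - b| := by
  have h := Convex.norm_image_sub_le_of_norm_deriv_le (f := fun t => Real.exp (2 * t))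
    (s := Icc (-1 : ℝ) 1) (C := 100) (fun x _ => by fun_prop) (fun x hx => ?_) (convex_Icc _ _)
    (abs_le.1 hb) (abs_le.1 ha)
  · simpa [Real.norm_eq_abs] using h
  · have : deriv (fun t => Real.exp (2 * t)) x = Real.exp (2 * x) * 2 := by
      simpa using ((hasDerivAt_id x).const_mul 2).exp.deriv
    rw [this, Real.norm_eq_abs, abs_of_pos (by positivity)]
    have h1 : Real.exp (2 * x) ≤ Real.exp 1 * Real.exp 1 := by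
      rw [← Real.exp_add]; exact Real.exp_le_exp.2 (by linarith [hx.2])
    have h2 : Real.exp 1 ≤ 3 := Real.exp_one_lt_d9.le.trans (by norm_num)
    nlinarith [Real.exp_pos 1]

/-- The source is the bump Laplacian up to a small remainder. -/
theorem Good.f_sub (hG : Q.Good) {p : P} (hp : ‖p‖ < π.R * Q.ρ) :
    |Q.f p - mu Q.s.φ Q.s.u 0 * kap Q.ψd p|
      ≤ Q.ρ⁻¹ * (2 * ‖p‖ * |kap Q.ψd p| + |Q.ψd p| + |dx Q.ψd p| + |dy Q.ψd p|) := by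
  have hρ := Q.hρ
  have h1 := lip_ball (sm_mu Q.s.hφ Q.s.hu) (L := Q.ρ⁻¹) (fun q hq => (hG.at0 hq).bdmu.2.1)
    (fun q hq => (hG.at0 hq).bdmu.2.2) hp Q.zero_mem
  rw [sub_zero] at h1
  obtain ⟨h2, h3, h4, h5, h6⟩ := (hG.at0 hp).bdf
  change |kap Q.s'.φ p| ≤ 1 / 100 * Q.ρ⁻¹ at h2
  change |Q.fc1 p| ≤ Q.ρ⁻¹ at h5
  change |Q.fc2 p| ≤ Q.ρ⁻¹ at h6
  change _ ≤ 2 * Q.ρ⁻¹ * ‖p‖ at h1
  have h7 := abs_exp_sub_le h3 h4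
  change |Real.exp (2 * Q.s.φ p) - Real.exp (2 * Q.s'.φ p)| ≤ 100 * |Q.s.φ p - Q.s'.φ p| at h7
  have h8 : Q.s.φ p - Q.s'.φ p = Q.ψd p := by rw [ψd_eq]
  rw [h8] at h7
  have h9 : Q.f p - mu Q.s.φ Q.s.u 0 * kap Q.ψd p
      = kap Q.ψd p * (mu Q.s.φ Q.s.u p - mu Q.s.φ Q.s.u 0)
        + kap Q.s'.φ p * (Real.exp (2 * Q.s.φ p) - Real.exp (2 * Q.s'.φ p))
        + dx Q.ψd p * Q.fc1 p + dy Q.ψd p * Q.fc2 p := by rw [f_eq]; ring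
  rw [h9]
  have e1 : |kap Q.ψd p * (mu Q.s.φ Q.s.u p - mu Q.s.φ Q.s.u 0)|
      ≤ |kap Q.ψd p| * (2 * Q.ρ⁻¹ * ‖p‖) := by rw [abs_mul]; gcongr
  have e2 : |kap Q.s'.φ p * (Real.exp (2 * Q.s.φ p) - Real.exp (2 * Q.s'.φ p))|
      ≤ 1 / 100 * Q.ρ⁻¹ * (100 * |Q.ψd p|) := by rw [abs_mul]; gcongr
  have e3 : |dx Q.ψd p * Q.fc1 p| ≤ |dx Q.ψd p| * Q.ρ⁻¹ := by rw [abs_mul]; gcongr
  have e4 : |dy Q.ψd p * Q.fc2 p| ≤ |dy Q.ψd p| * Q.ρ⁻¹ := by rw [abs_mul]; gcongr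
  refine (abs_add_le _ _).trans ?_
  refine (add_le_add_left (abs_add_le _ _) _).trans ?_
  refine (add_le_add_left (add_le_add_left (abs_add_le _ _) _) _).trans ?_
  linarith

end Pair

end Crest.Agent.R220
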