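import Crest.Agent.R220.Basic

open scoped ContDiff Topology
open MeasureTheory Set Metric Filter

noncomputable section
namespace Crest.Agent.R220

/-- Pigeonhole principle for bounded real vectors. -/
theorem pigeon {ι κ : Type*} [Fintype ι] [Fintype κ] (M δ : ℝ) (hδ : 0 < δ) (hM : 0 ≤ M)
    (F : ι → κ → ℝ) (hF : ∀ a k, |F a k| ≤ M)
    (hcard : (2 * M / δ + 2) ^ (Fintype.card κ) < (Fintype.card ι : ℝ)) :
    ∃ a a', a ≠ a' ∧ ∀ k, |F a k - F a' k| ≤ δ := by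
  classical
  set N := ⌊2 * M / δ⌋₊ + 1 with hN
  have h0 : ∀ a k, 0 ≤ (F a k + M) / δ := fun a k =>
    div_nonneg (by linarith [(abs_le.1 (hF a k)).1]) hδ.le
  have hlt : ∀ a k, ⌊(F a k + M) / δ⌋₊ < N := by
    intro a k
    have : (F a k + M) / δ ≤ 2 * M / δ := by
      apply div_le_div_of_nonneg_right _ hδ.le
      linarith [(abs_le.1 (hF a k)).2]
    exact Nat.lt_succ_of_le (Nat.floor_le_floor this)
  let G : ι → κ → Fin N := fun a k => ⟨_, hlt a k⟩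
  have hc : Fintype.card (κ → Fin N) < Fintype.card ι := by
    rw [Fintype.card_fun, Fintype.card_fin]
    have h1 : (N : ℝ) ≤ 2 * M / δ + 2 := by
      have := Nat.floor_le (show 0 ≤ 2 * M / δ by positivity)
      rw [hN]
      push_cast
      linarith
    have h2 : (N : ℝ) ^ Fintype.card κ ≤ (2 * M / δ + 2) ^ Fintype.card κ :=
      pow_le_pow_left₀ (Nat.cast_nonneg _) h1 _
    exact_mod_cast h2.trans_lt hcard
  obtain ⟨a, a', hne, heq⟩ := Fintype.exists_ne_map_eq_of_card_lt G hc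
  refine ⟨a, a', hne, fun k => ?_⟩
  have h1 : ⌊(F a k + M) / δ⌋₊ = ⌊(F a' k + M) / δ⌋₊ := congrArg Fin.val (congrFun heq k)
  have h2 := Nat.floor_le (h0 a k)
  have h3 := Nat.lt_floor_add_one ((F a k + M) / δ)
  have h4 := Nat.floor_le (h0 a' k)
  have h5 := Nat.lt_floor_add_one ((F a' k + M) / δ)
  rw [← h1] at h4 h5
  rw [le_div_iff₀ hδ] at h2 h4
  rw [div_lt_iff₀ hδ] at h3 h5
  rw [abs_le]
  constructor <;> nlinarith

theorem count_eventually (M : ℝ) (hM : 0 ≤ M) (n0 A : ℕ) :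
    ∀ᶠ n : ℕ in atTop, (2 * M * (n : ℝ) ^ n0 + 2) ^ (A + (2 * n + 1) ^ 2) < (2 : ℝ) ^ (n ^ 3) := by
  have h1 : Tendsto (fun n : ℕ => (n : ℝ) ^ (10 * (n0 + 1)) / (2 : ℝ) ^ n) atTop (𝓝 0) :=
    tendsto_pow_const_div_const_pow_of_one_lt _ (by norm_num)
  have h2 := h1.eventually (gt_mem_nhds one_pos)
  filter_upwards [h2, eventually_ge_atTop (A + 5), eventually_ge_atTop ⌈2 * M + 2⌉₊] with n hn hA hM'
  have hn1 : (1 : ℝ) ≤ n := by exact_mod_cast (by omega : 1 ≤ n)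
  have hM2 : 2 * M + 2 ≤ n := (Nat.le_ceil _).trans (by exact_mod_cast hM')
  have hp : (1 : ℝ) ≤ (n : ℝ) ^ n0 := one_le_pow₀ hn1
  have hb : 2 * M * (n : ℝ) ^ n0 + 2 ≤ (n : ℝ) ^ (n0 + 1) := by
    rw [pow_succ]
    nlinarith
  have hb1 : (1 : ℝ) ≤ (n : ℝ) ^ (n0 + 1) := one_le_pow₀ hn1
  have he : A + (2 * n + 1) ^ 2 ≤ 10 * n ^ 2 := by nlinarith
  rw [div_lt_one (by positivity)] at hn
  calc (2 * M * (n : ℝ) ^ n0 + 2) ^ (A + (2 * n + 1) ^ 2)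
      ≤ ((n : ℝ) ^ (n0 + 1)) ^ (A + (2 * n + 1) ^ 2) := pow_le_pow_left₀ (by positivity) hb _
    _ ≤ ((n : ℝ) ^ (n0 + 1)) ^ (10 * n ^ 2) := pow_le_pow_right₀ hb1 he
    _ = ((n : ℝ) ^ (10 * (n0 + 1))) ^ (n ^ 2) := by rw [← pow_mul, ← pow_mul]; congr 1; ring
    _ < ((2 : ℝ) ^ n) ^ (n ^ 2) := pow_lt_pow_left₀ hn (by positivity) (pow_ne_zero 2 (by omega))
    _ = (2 : ℝ) ^ (n ^ 3) := by rw [← pow_mul]; congr 1; ring

end Crest.Agent.R220
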