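import Crest.Agent.R220.Core
import Crest.Agent.R220.Pigeon

/-!
The main local non-solvability lemma.
-/

open scoped ContDiff Topology
open MeasureTheory Set Metric Filter

noncomputable section
namespace Crest.Agent.R220

theorem edgeAvg_sub {u v : P → ℝ} (hu : Continuous u) (hv : Continuous v) (σ : ℝ) (i j : ℤ) :
    edgeAvg σ (fun p => u p - v p) i j = edgeAvg σ u i j - edgeAvg σ v i j := by
  unfold edgeAvg
  rw [intervalIntegral.integral_sub (Continuous.intervalIntegrable (by fun_prop) _ _)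
    (Continuous.intervalIntegrable (by fun_prop) _ _), mul_sub]

theorem abs_edgeAvg_le {u : P → ℝ} {σ r M : ℝ} (hσ : 0 < σ) (h : ∀ p, ‖p‖ < r → |u p| ≤ M)
    {i j : ℤ} (hi : |(i : ℝ) * σ| + σ < r) (hj : |(j : ℝ) * σ| + σ < r) :
    |edgeAvg σ u i j| ≤ M := by
  unfold edgeAvg
  have h1 := intervalIntegral.norm_integral_le_of_norm_le_const
    (a := (j : ℝ) * σ) (b := ((j : ℝ) + 1) * σ) (C := M) (f := fun y => u ((i : ℝ) * σ, y))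
    (fun y hy => by
      rw [uIoc_of_le (by linarith)] at hy
      refine h _ ?_
      rw [Prod.norm_def, Real.norm_eq_abs, Real.norm_eq_abs]
      refine max_lt (by linarith) ?_
      rw [abs_lt]
      constructor <;> linarith [hy.1, hy.2, le_abs_self ((j : ℝ) * σ), neg_abs_le ((j : ℝ) * σ)])
  rw [show ((j : ℝ) + 1) * σ - j * σ = σ by ring, abs_of_pos hσ, Real.norm_eq_abs] at h1
  rw [abs_mul, abs_of_pos (inv_pos.2 hσ)]
  calc _ ≤ σ⁻¹ * (M * σ) := by gcongr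
    _ = M := by field_simp

theorem abs_ite_sub {b b' : Bool} (h : b ≠ b') :
    |(if b then (1 : ℝ) else 0) - (if b' then 1 else 0)| = 1 := by
  cases b <;> cases b' <;> simp_all

/-- The seven jets at the centre. -/
def jets (u : P → ℝ) : Fin 7 → ℝ :=
  ![dx (dx u) 0, dx (dy u) 0, dy (dy u) 0, dx (dx (dx u)) 0, dx (dx (dy u)) 0, dx (dy (dy u)) 0,
    dy (dy (dy u)) 0]

theorem abs_jets_le {u : P → ℝ} (hu : ContDiff ℝ ∞ u) {M : ℝ} (h : CB 4 M u 0) (k : Fin 7) :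
    |jets u k| ≤ M := by
  fin_cases k
  · exact ((h.dx hu).dx (by fun_prop)).abs_le
  · exact ((h.dy hu).dx (by fun_prop)).abs_le
  · exact ((h.dy hu).dy (by fun_prop)).abs_le
  · exact (((h.dx hu).dx (by fun_prop)).dx (by fun_prop)).abs_le
  · exact (((h.dy hu).dx (by fun_prop)).dx (by fun_prop)).abs_le
  · exact (((h.dy hu).dy (by fun_prop)).dx (by fun_prop)).abs_le
  · exact (((h.dy hu).dy (by fun_prop)).dy (by fun_prop)).abs_le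

theorem mainLemma' (π : Par) (r0 δ : ℝ) (N : ℕ) (hr0 : 0 < r0) (hδ : 0 < δ) :
    ∃ ρ : ℝ, 0 < ρ ∧ ρ ≤ δ ∧ ∃ ψ : P → ℝ, ContDiff ℝ ∞ ψ ∧ (∀ p, r0 ≤ ‖p‖ → ψ p = 0) ∧
      (∀ p, CB N δ ψ p) ∧
      ∀ u : P → ℝ, ContDiff ℝ ∞ u →
        (∀ p, ‖p‖ < r0 → CB 4 π.M u p ∧ π.M⁻¹ ≤ dy (dy u) p ∧
          π.M⁻¹ ≤ mu (fun q => phi0 π.q1 π.q2 π.lam ρ q + ψ q) u p ∧
          Darboux (fun q => phi0 π.q1 π.q2 π.lam ρ q + ψ q) u p) → False := by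
  have hM := π.hM
  obtain ⟨ρ0, hρ0, hgood⟩ := exists_good π
  have hR := π.three_le_R
  have hR0 := π.R_pos
  obtain ⟨ρ, hρ, hρ1, hρ2, hρ3, hρ4⟩ :
      ∃ ρ : ℝ, 0 < ρ ∧ ρ < ρ0 ∧ ρ ≤ δ ∧ π.R * ρ ≤ r0 ∧ π.R * ρ ≤ 1 := by
    refine ⟨min (ρ0 / 2) (min δ (min r0 1 / π.R)), by positivity,
      (min_le_left _ _).trans_lt (by linarith), (min_le_right _ _).trans (min_le_left _ _), ?_, ?_⟩
    · have : min (ρ0 / 2) (min δ (min r0 1 / π.R)) ≤ min r0 1 / π.R :=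
        (min_le_right _ _).trans (min_le_right _ _)
      rw [le_div_iff₀ hR0] at this
      linarith [min_le_left r0 1]
    · have : min (ρ0 / 2) (min δ (min r0 1 / π.R)) ≤ min r0 1 / π.R :=
        (min_le_right _ _).trans (min_le_right _ _)
      rw [le_div_iff₀ hR0] at this
      linarith [min_le_right r0 1]
  have hρ5 : ρ ≤ 1 := by nlinarith
  have hK : 1 ≤ (ρ ^ 40)⁻¹ := one_le_inv₀ (by positivity) |>.2 (pow_le_one₀ hρ.le hρ5)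
  have hρ6 : 3 * ρ ≤ π.R * ρ := by gcongr
  have hρ7 : ρ ^ 2 ≤ ρ := by nlinarith
  obtain ⟨N', hN1, hN2⟩ : ∃ N' : ℕ, N ≤ N' ∧ 3 ≤ N' := ⟨max N 3, le_max_left _ _, le_max_right _ _⟩
  obtain ⟨CΨ, hCΨ, hΨ⟩ := Psi_CB N'
  obtain ⟨n0, hn0⟩ : ∃ n0 : ℕ, 40 * (N' + 6) = n0 := ⟨_, rfl⟩
  have hn01 : 1 ≤ n0 := by omega
  obtain ⟨Ci, σ0, hCi, hσ0, hit⟩ := iter (ρ ^ 40)⁻¹ (ρ / 2) (2 / 3 * (π.R * ρ)) (π.R * ρ) hK
    (by linarith only [hρ]) (by linarith only [hρ, hρ6]) hρ4 n0 (5 / 6 * (π.R * ρ))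
    (by linarith only [hρ, hρ6]) (by linarith only [hρ, hρ6])
  obtain ⟨C, hC, hcore⟩ := core π ρ (2 * Ci) hρ hρ5 (by positivity)
  have hinv : Tendsto (fun n : ℕ => (n : ℝ)⁻¹) atTop (𝓝 0) := tendsto_inv_atTop_nhds_zero_nat
  have hsm : ∀ c : ℝ, 0 < c → ∀ᶠ n : ℕ in atTop, (n : ℝ)⁻¹ < c := fun c hc =>
    hinv.eventually (gt_mem_nhds hc)
  obtain ⟨n, hn1, hn2, hn3, hn4, hn5, hn6, hn7⟩ := ((count_eventually π.M π.M_pos.le n0 7).and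
    ((hsm (ρ ^ 2 / 8) (by positivity)).and ((hsm σ0 hσ0).and ((hsm (C + 1)⁻¹ (by positivity)).and
    ((hsm (δ / (CΨ + 1)) (by positivity)).and ((hsm (ρ ^ 4 / (CΨ + 1)) (by positivity)).and
    (eventually_gt_atTop 0))))))).exists
  have hn0' : (0 : ℝ) < n := by exact_mod_cast hn7
  obtain ⟨σ, hσdef⟩ : ∃ σ : ℝ, σ = (n : ℝ)⁻¹ := ⟨_, rfl⟩
  rw [← hσdef] at hn2 hn3 hn4 hn5 hn6
  have hσ : 0 < σ := hσdef ▸ inv_pos.2 hn0'
  have hσn : (n : ℝ) * σ = 1 := hσdef ▸ mul_inv_cancel₀ hn0'.ne'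
  have hσρ8 : σ ≤ ρ / 8 := by linarith only [hn2, hρ7]
  have hσρ : σ ≤ ρ := by linarith only [hσρ8, hρ]
  have hσ1 : σ ≤ 1 := hσρ.trans hρ5
  have hpow : ∀ {a b : ℕ}, a ≤ b → σ ^ b ≤ σ ^ a := fun h => pow_le_pow_of_le_one hσ.le hσ1 h
  have hpow1 : ∀ {b : ℕ}, 1 ≤ b → σ ^ b ≤ σ := fun h => (hpow h).trans_eq (pow_one _)
  obtain ⟨d, hd⟩ : ∃ d : ℕ, d = n ^ 3 := ⟨_, rfl⟩
  have hd3 : (d : ℝ) * σ ^ 3 = 1 := by
    rw [hd]; push_cast; rw [← mul_pow, hσn, one_pow]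
  have hdinv : (d : ℝ) = (σ ^ 3)⁻¹ := eq_inv_of_mul_eq_one_left hd3
  have hdH : (d : ℝ) * σ ^ 39 = σ ^ 36 := by linear_combination σ ^ 36 * hd3
  obtain ⟨τ, hτ⟩ : ∃ τ : ℝ, τ = σ ^ (40 * (N' + 4)) := ⟨_, rfl⟩
  have hτ0 : 0 < τ := by rw [hτ]; positivity
  obtain ⟨e, he⟩ : ∃ e : (Fin d → Bool) → Fin d → ℝ, e = fun a j => if a j then 1 else 0 :=
    ⟨_, rfl⟩
  have he1 : ∀ a j, |e a j| ≤ 1 := fun a j => by
    simp only [he]; split_ifs <;> simp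
  let ψ : (Fin d → Bool) → P → ℝ := fun a => Psi d τ (σ ^ 40) (σ ^ 39) (e a)
  have hψCB : ∀ a p, CB N' (CΨ * σ) (ψ a) p := fun a p => by
    refine (hΨ d τ (σ ^ 40) (σ ^ 39) (e a) p (by positivity) (pow_le_one₀ hσ.le hσ1) hτ0.le
      (he1 a)).mono le_rfl ?_
    have : CΨ * τ * d / (σ ^ 40) ^ N' = CΨ * σ ^ 157 := by
      rw [hτ, hdinv]; field_simp; ring
    rw [this]
    gcongr; exact hpow1 (by norm_num)
  have hCσ : ∀ c : ℝ, σ < c / (CΨ + 1) → CΨ * σ ≤ c := fun c h => by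
    rw [lt_div_iff₀ (by positivity)] at h; linarith only [h, hσ]
  have hψ0 : ∀ (e' : Fin d → ℝ) p, σ ^ 36 ≤ ‖p‖ → Psi d τ (σ ^ 40) (σ ^ 39) e' p = 0 :=
    fun e' p hp => Psi_eq_zero d τ _ _ e' (by positivity) (hpow (by norm_num)) p (hdH ▸ hp)
  refine ⟨ρ, hρ, hρ2, ?_⟩
  by_contra hcon
  have hsol : ∀ a, ∃ u : P → ℝ, ContDiff ℝ ∞ u ∧ ∀ p, ‖p‖ < r0 → CB 4 π.M u p ∧
      π.M⁻¹ ≤ dy (dy u) p ∧ π.M⁻¹ ≤ mu (fun q => phi0 π.q1 π.q2 π.lam ρ q + ψ a q) u p ∧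
      Darboux (fun q => phi0 π.q1 π.q2 π.lam ρ q + ψ a q) u p := fun a => by
    by_contra hno
    refine hcon ⟨ψ a, Psi_smooth _ _ _ _ _, fun p hp => hψ0 _ p ?_,
      fun p => (hψCB a p).mono hN1 (hCσ δ hn5), fun u hu h => hno ⟨u, hu, h⟩⟩
    have := hpow1 (b := 36) (by norm_num)
    linarith only [this, hσρ, hρ6, hρ3, hρ, hp]
  choose u hu hcl using hsol
  let S : (Fin d → Bool) → Sol π ρ := fun a =>
    { u := u a
      ψ := ψ a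
      hu := hu a
      hψ := Psi_smooth _ _ _ _ _
      cψ := fun p => (hψCB a p).mono hN2 (hCσ _ hn6)
      cu := fun p hp => (hcl a p (hp.trans_le hρ3)).1
      hyy := fun p hp => (hcl a p (hp.trans_le hρ3)).2.1
      hmu := fun p hp => (hcl a p (hp.trans_le hρ3)).2.2.1
      dar := fun p hp => (hcl a p (hp.trans_le hρ3)).2.2.2 }
  classical
  let F : (Fin d → Bool) → Fin 7 ⊕ (↥(Finset.Icc (-(n : ℤ)) n) × ↥(Finset.Icc (-(n : ℤ)) n)) → ℝ :=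
    fun a => Sum.elim (jets (u a)) fun ij =>
      if |((ij.1 : ℤ) : ℝ) * σ| + σ < π.R * ρ ∧ |((ij.2 : ℤ) : ℝ) * σ| + σ < π.R * ρ then
        edgeAvg σ (u a) ij.1 ij.2 else 0
  obtain ⟨a, a', hne, hF⟩ := pigeon π.M (σ ^ n0) (by positivity) π.M_pos.le F
    (fun a k => by
      rcases k with k | ij
      · exact abs_jets_le (hu a) (hcl a 0 (by simpa using hr0)).1 k
      · simp only [F, Sum.elim_inr]
        split_ifs with h
        · exact abs_edgeAvg_le hσ (fun p hp => (hcl a p (hp.trans_le hρ3)).1.abs_le) h.1 h.2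
        · simpa using π.M_pos.le)
    (by
      have h1 : Fintype.card (Fin 7 ⊕ (↥(Finset.Icc (-(n : ℤ)) n) × ↥(Finset.Icc (-(n : ℤ)) n)))
          = 7 + (2 * n + 1) ^ 2 := by
        simp only [Fintype.card_sum, Fintype.card_fin, Fintype.card_prod, Fintype.card_coe,
          Int.card_Icc]
        have : ((n : ℤ) + 1 - -(n : ℤ)).toNat = 2 * n + 1 := by omega
        rw [this]; ring
      have h2 : 2 * π.M / σ ^ n0 = 2 * π.M * (n : ℝ) ^ n0 := by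
        rw [hσdef, inv_pow, div_inv_eq_mul]
      rw [h1, h2]
      simpa [hd] using hn1)
  have hδ' : σ ^ n0 ≤ ρ ^ 2 := (hpow1 hn01).trans (by linarith only [hn2, sq_nonneg ρ])
  obtain ⟨Q, hQρ, hQw, hψd⟩ : ∃ Q : Pair π, Q.ρ = ρ ∧ Q.w = (fun p => u a p - u a' p) ∧
      Q.ψd = Psi d τ (σ ^ 40) (σ ^ 39) (e a - e a') := ⟨
    { ρ := ρ
      hρ := hρ
      s := S a
      s' := S a'
      jxx := (hF (Sum.inl 0)).trans hδ'
      jxy := (hF (Sum.inl 1)).trans hδ'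
      jyy := (hF (Sum.inl 2)).trans hδ'
      jxxx := (hF (Sum.inl 3)).trans hδ'
      jxxy := (hF (Sum.inl 4)).trans hδ'
      jxyy := (hF (Sum.inl 5)).trans hδ'
      jyyy := (hF (Sum.inl 6)).trans hδ' }, rfl, rfl, funext fun p => Psi_sub _ _ _ _ _ _ p⟩
  clear_value S
  subst hQρ
  have hG : Q.Good := hgood Q hρ1
  obtain ⟨i, hi⟩ := Function.ne_iff.1 hne
  have hei : |(e a - e a') i| = 1 := by
    simp only [he, Pi.sub_apply]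
    exact abs_ite_sub hi
  have hee : ∀ j, |(e a - e a') j| ≤ 1 := fun j => by
    simp only [he, Pi.sub_apply]
    split_ifs <;> simp
  have hψd0 : ∀ p, σ ^ 36 ≤ ‖p‖ → Q.ψd p = 0 := fun p hp => by rw [hψd]; exact hψ0 _ p hp
  have hf : ∀ p, Q.ρ / 2 ≤ ‖p‖ → Q.f p = 0 := fun p hp => by
    refine Q.f_eq_zero hψd0 (lt_of_lt_of_le ?_ hp)
    have := hpow1 (b := 36) (by norm_num)
    linarith only [this, hσρ8, hρ]
  have hD1 : σ ^ 35 ≤ Q.ρ ^ 6 := by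
    calc σ ^ 35 ≤ σ ^ 6 := hpow (by norm_num)
      _ ≤ Q.ρ ^ 6 := by gcongr
  have havg : ∀ i j : ℤ, |(i : ℝ) * σ| + σ < π.R * Q.ρ → |(j : ℝ) * σ| + σ < π.R * Q.ρ →
      |edgeAvg σ Q.w i j| ≤ σ ^ n0 := fun i j hi hj => by
    have hmem : ∀ k : ℤ, |(k : ℝ) * σ| + σ < π.R * Q.ρ → k ∈ Finset.Icc (-(n : ℤ)) n :=
      fun k hk => by
        rw [Finset.mem_Icc, ← abs_le]
        have h1 : |(k : ℝ)| * σ ≤ (n : ℝ) * σ := by
          rw [abs_mul, abs_of_pos hσ] at hk; linarith only [hk, hσn, hρ4, hσ]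
        have h2 : |(k : ℝ)| ≤ n := le_of_mul_le_mul_right h1 hσ
        exact_mod_cast h2
    have h3 := hF (Sum.inr (⟨i, hmem i hi⟩, ⟨j, hmem j hj⟩))
    simp only [F, Sum.elim_inr, hi, hj, and_self, if_true] at h3
    rw [hQw, edgeAvg_sub (hu a).continuous (hu a').continuous]
    exact h3
  have hD0 : 0 ≤ σ ^ 35 := by positivity
  have hWge : ∀ p : P, ‖p‖ < π.R * Q.ρ → Q.ρ / 2 / 2 ≤ ‖p‖ →
      ((Q.ρ ^ 40)⁻¹)⁻¹ ≤ Q.W (σ ^ 35) p := fun p hp h => by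
    have h1 : Q.ρ / 4 ≤ ‖p‖ := by linarith only [h]
    have h2 : Q.ρ ^ 13 ≤ Q.W (σ ^ 35) p := (hG p hp (σ ^ 35) hD0 hD1).Wge h1
    exact (hG.K_inv_le (k := 13) (by norm_num)).trans h2
  have hI : ∫ p in ann (Q.ρ / 2) (5 / 6 * (π.R * Q.ρ)), Q.w p ^ 2
      ≤ Ci * (σ ^ (2 * n0) + (σ ^ n0) ^ 2) :=
    hit (Pair.lin hG hf) (Q.Z1 (σ ^ 35)) (Q.Z2 (σ ^ 35)) (Q.W (σ ^ 35)) (Q.c1_Z1 _)
      (Q.c1_Z2 _) (Q.cont_W _) (hG.hypZ hD0 hD1)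
      (fun p hp => hG.fZ_zero hσ hn2.le hψd0 p hp (dx Q.w p) (dy Q.w p)) hWge
      σ (σ ^ n0) hσ hn3.le (by positivity) havg
  have hfin := hcore Q rfl hG d σ τ (e a - e a') i hσ hn2.le hd3 hτ0 hψd hee hei (by
    refine le_trans hI (le_of_eq ?_)
    rw [hτ, ← hn0]; ring)
  rw [lt_inv_comm₀ hσ (by positivity)] at hn4
  have : (C + 1) * σ < σ⁻¹ * σ := by gcongr
  rw [inv_mul_cancel₀ hσ.ne'] at this
  linarith only [this, hfin, hσ]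

theorem mainLemma : MLStatement := by
  intro M q1 q2 lam r0 δ N hM hq1 hq1' hq2 hq2' hlam hlam' hr0 hδ
  exact mainLemma' ⟨M, q1, q2, lam, hM, hq1, hq1', hq2, hq2', hlam, hlam'⟩ r0 δ N hr0 hδ

end Crest.Agent.R220
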