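import Crest.Agent.R220.Orders

/-!
The multiplier vector fields and the algebraic decomposition of their Friedrichs forms.
-/

open scoped ContDiff Topology
open MeasureTheory Set Metric Filter Asymptotics

noncomputable section
namespace Crest.Agent.R220

/-- The `C¹` function `t₊²`. -/
def pp (t : ℝ) : ℝ := (max t 0) ^ 2

theorem pp_nonneg (t : ℝ) : 0 ≤ pp t := sq_nonneg _

theorem pp_of_nonpos {t : ℝ} (h : t ≤ 0) : pp t = 0 := by simp [pp, max_eq_right h]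

theorem pp_of_nonneg {t : ℝ} (h : 0 ≤ t) : pp t = t ^ 2 := by simp [pp, max_eq_left h]

theorem hasDerivAt_pp (t : ℝ) : HasDerivAt pp (2 * max t 0) t := by
  rcases lt_trichotomy t 0 with h | rfl | h
  · have : pp =ᶠ[𝓝 t] fun _ => 0 :=
      (eventually_lt_nhds h).mono fun s hs => pp_of_nonpos hs.le
    rw [max_eq_right h.le, mul_zero]
    exact (hasDerivAt_const t (0 : ℝ)).congr_of_eventuallyEq this
  · rw [hasDerivAt_iff_isLittleO_nhds_zero]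
    simp only [zero_add, max_self, mul_zero, smul_zero, sub_zero, pp_of_nonpos le_rfl]
    refine IsBigO.trans_isLittleO (g := fun h : ℝ => h ^ 2) ?_ (isLittleO_pow_id (by norm_num))
    refine IsBigO.of_bound 1 (Eventually.of_forall fun s => ?_)
    rw [one_mul, Real.norm_eq_abs, Real.norm_eq_abs, abs_of_nonneg (pp_nonneg s),
      abs_of_nonneg (sq_nonneg s)]
    rcases le_total s 0 with hs | hs
    · rw [pp_of_nonpos hs]; positivity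
    · rw [pp_of_nonneg hs]
  · have : pp =ᶠ[𝓝 t] fun s => s ^ 2 :=
      (eventually_gt_nhds h).mono fun s hs => pp_of_nonneg hs.le
    rw [max_eq_left h.le]
    simpa using (hasDerivAt_pow 2 t).congr_of_eventuallyEq this

theorem contDiff_pp : ContDiff ℝ 1 pp := by
  rw [contDiff_one_iff_deriv]
  refine ⟨fun t => (hasDerivAt_pp t).differentiableAt, ?_⟩
  have : deriv pp = fun t => 2 * max t 0 := funext fun t => (hasDerivAt_pp t).deriv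
  rw [this]; fun_prop

theorem pos_of_mul_pos_of_pos_left' {a b : ℝ} (h : 0 < a * b) (ha : 0 < a) : 0 < b := by
  by_contra hc
  push Not at hc
  nlinarith

/-- The flux form of the field `(Z1, Z2)` across a level set with conormal `(n1, n2)`. -/
def Phi (a11 a12 a22 Z1 Z2 : P → ℝ) (p : P) (n1 n2 ξ1 ξ2 : ℝ) : ℝ :=
  (1 / 2) * (Z1 p * n1 + Z2 p * n2) * pform a11 a12 a22 p ξ1 ξ2
    - ((a11 p * n1 + a12 p * n2) * ξ1 + (a12 p * n1 + a22 p * n2) * ξ2) * (Z1 p * ξ1 + Z2 p * ξ2)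

theorem Tform_two {a11 a12 a22 b1 b2 V1 V2 V2' g g' : P → ℝ} {p : P}
    (h1 : DifferentiableAt ℝ V1 p) (h2 : DifferentiableAt ℝ V2 p) (h2' : DifferentiableAt ℝ V2' p)
    (hg : DifferentiableAt ℝ g p) (hg' : DifferentiableAt ℝ g' p) (ξ1 ξ2 : ℝ) :
    Tform a11 a12 a22 b1 b2 (fun q => (g q + g' q) * V1 q) (fun q => g q * V2 q + g' q * V2' q)
        p ξ1 ξ2
      = g p * Tform a11 a12 a22 b1 b2 V1 V2 p ξ1 ξ2 + g' p * Tform a11 a12 a22 b1 b2 V1 V2' p ξ1 ξ2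
        + Phi a11 a12 a22 V1 V2 p (dx g p) (dy g p) ξ1 ξ2
        + Phi a11 a12 a22 V1 V2' p (dx g' p) (dy g' p) ξ1 ξ2 := by
  unfold Tform Phi pform
  dsimp_d
  ring

namespace Par
variable (π : Par)

/-- The small anisotropy of the dilation field. -/
def eps : ℝ := π.q1 / (8 * π.M ^ 2)

theorem eps_pos : 0 < π.eps := by
  have := π.hq1; have := π.M_pos; unfold eps; positivity

theorem eps_le : π.eps ≤ 1 / 8 := by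
  have := π.hq1'; have h := π.hM; unfold eps
  rw [div_le_div_iff₀ (by positivity) (by norm_num)]
  nlinarith

end Par

namespace Pair
variable {π : Par} (Q : Pair π)

/-- A globally `C¹` version of `1 / a11`. -/
def ia : P → ℝ := fun p => (Q.a11 p + 2 * π.M * pp ((2 * π.M)⁻¹ - Q.a11 p))⁻¹

theorem ia_den_pos (p : P) : 0 < Q.a11 p + 2 * π.M * pp ((2 * π.M)⁻¹ - Q.a11 p) := by
  have hM := π.M_pos
  have hm : 0 < (2 * π.M)⁻¹ := by positivity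
  have hmm : 2 * π.M * (2 * π.M)⁻¹ = 1 := mul_inv_cancel₀ (by positivity)
  rcases le_total ((2 * π.M)⁻¹ - Q.a11 p) 0 with h | h
  · rw [pp_of_nonpos h]; linarith
  · rw [pp_of_nonneg h]
    set m := (2 * π.M)⁻¹
    set t := m - Q.a11 p with ht
    have : Q.a11 p = m - t := by rw [ht]; ring
    rw [this]
    have h3 : 0 < m * (m - t + 2 * π.M * t ^ 2) := by
      have : m * (m - t + 2 * π.M * t ^ 2) = (t - m / 2) ^ 2 + 3 / 4 * m ^ 2 := by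
        linear_combination t ^ 2 * hmm
      rw [this]; positivity
    exact pos_of_mul_pos_of_pos_left' h3 hm

theorem c1_ia : ContDiff ℝ 1 Q.ia := by
  have h := sm_one Q.sm_a11
  unfold ia
  refine ContDiff.inv ?_ fun p => (Q.ia_den_pos p).ne'
  exact h.add (contDiff_const.mul (contDiff_pp.comp (contDiff_const.sub h)))

theorem ia_eq {p : P} (h : (2 * π.M)⁻¹ ≤ Q.a11 p) : Q.ia p = (Q.a11 p)⁻¹ := by
  unfold ia; rw [pp_of_nonpos (by linarith)]; simp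

theorem dx_ia {p : P} (h : (2 * π.M)⁻¹ ≤ Q.a11 p) :
    dx Q.ia p = -(Q.a11 p ^ 2)⁻¹ * dx Q.a11 p := by
  have h1 := Q.sm_a11
  have h2 : DifferentiableAt ℝ (fun q => pp ((2 * π.M)⁻¹ - Q.a11 q)) p :=
    (c1_diff (contDiff_pp.comp (contDiff_const.sub (sm_one h1)))) p
  unfold ia
  rw [dx_inv (by fun_prop) (Q.ia_den_pos p).ne']
  rw [dx_add (by fun_prop) (by fun_prop), dx_const_mul _ h2,
    dx_comp (hasDerivAt_pp _) (by fun_prop), pp_of_nonpos (by linarith),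
    max_eq_right (by linarith)]
  simp

theorem dy_ia {p : P} (h : (2 * π.M)⁻¹ ≤ Q.a11 p) :
    dy Q.ia p = -(Q.a11 p ^ 2)⁻¹ * dy Q.a11 p := by
  have h1 := Q.sm_a11
  have h2 : DifferentiableAt ℝ (fun q => pp ((2 * π.M)⁻¹ - Q.a11 q)) p :=
    (c1_diff (contDiff_pp.comp (contDiff_const.sub (sm_one h1)))) p
  unfold ia
  rw [dy_inv (by fun_prop) (Q.ia_den_pos p).ne']
  rw [dy_add (by fun_prop) (by fun_prop), dy_const_mul _ h2,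
    dy_comp (hasDerivAt_pp _) (by fun_prop), pp_of_nonpos (by linarith),
    max_eq_right (by linarith)]
  simp

def t0 : ℝ := π.eps / (4 * π.M) * Q.ρ
def V1 (_Q : Pair π) : P → ℝ := fun p => (1 - π.eps) * p.1
def V2 (t : ℝ) : P → ℝ := fun p => (Q.η p + t + (1 - π.eps) * p.1 * Q.a12 p) * Q.ia p
def sg (ς D1 : ℝ) : P → ℝ := fun p => ς * Q.η p + Q.ρ ^ 2 * p.1 ^ 2 - D1
def wt (ς D1 : ℝ) : P → ℝ := fun p => pp (Q.sg ς D1 p)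
def Z1 (D1 : ℝ) : P → ℝ := fun p => (Q.wt 1 D1 p + Q.wt (-1) D1 p) * Q.V1 p
def Z2 (D1 : ℝ) : P → ℝ :=
  fun p => Q.wt 1 D1 p * Q.V2 (1 * Q.t0) p + Q.wt (-1) D1 p * Q.V2 (-1 * Q.t0) p
def W (D1 : ℝ) : P → ℝ := fun p => Q.ρ ^ 3 * (Q.wt 1 D1 p + Q.wt (-1) D1 p)

theorem c1_V1 : ContDiff ℝ 1 Q.V1 := by unfold V1; fun_prop
theorem c1_V2 (t : ℝ) : ContDiff ℝ 1 (Q.V2 t) := by
  have := sm_one Q.sm_η; have := sm_one Q.sm_a12; have := Q.c1_ia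
  unfold V2; fun_prop
theorem sm_sg (ς D1 : ℝ) : ContDiff ℝ ∞ (Q.sg ς D1) := by
  have := Q.sm_η
  unfold sg; fun_prop
theorem c1_wt (ς D1 : ℝ) : ContDiff ℝ 1 (Q.wt ς D1) :=
  contDiff_pp.comp (sm_one (Q.sm_sg ς D1))
theorem c1_Z1 (D1 : ℝ) : ContDiff ℝ 1 (Q.Z1 D1) :=
  ((Q.c1_wt _ _).add (Q.c1_wt _ _)).mul Q.c1_V1
theorem c1_Z2 (D1 : ℝ) : ContDiff ℝ 1 (Q.Z2 D1) :=
  ((Q.c1_wt _ _).mul (Q.c1_V2 _)).add ((Q.c1_wt _ _).mul (Q.c1_V2 _))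
theorem cont_W (D1 : ℝ) : Continuous (Q.W D1) :=
  continuous_const.mul ((Q.c1_wt _ _).add (Q.c1_wt _ _)).continuous

theorem dx_wt (ς D1 : ℝ) (p : P) : dx (Q.wt ς D1) p =
    2 * max (Q.sg ς D1 p) 0 * (ς * dx Q.η p + 2 * Q.ρ ^ 2 * p.1) := by
  have := Q.sm_η
  unfold wt
  rw [dx_comp (hasDerivAt_pp _) (sm_diff (Q.sm_sg ς D1) p)]
  congr 1
  unfold sg; dsimp_d; norm_num; ring

theorem dy_wt (ς D1 : ℝ) (p : P) : dy (Q.wt ς D1) p =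
    2 * max (Q.sg ς D1 p) 0 * (ς * dy Q.η p) := by
  have := Q.sm_η
  unfold wt
  rw [dy_comp (hasDerivAt_pp _) (sm_diff (Q.sm_sg ς D1) p)]
  congr 1
  unfold sg; dsimp_d; norm_num

/-- The good first-order variable. -/
def ζ (p : P) (ξ1 ξ2 : ℝ) : ℝ := ξ1 + Q.a12 p * Q.ia p * ξ2

def bb (t : ℝ) (p : P) : ℝ := (Q.η p + t) * Q.ia p

def err11 (p : P) : ℝ := Q.e1 p / 2 + Q.V1 p * Q.d1 p / 2 + (Q.b1 p - Q.d1 p) * Q.V1 p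

def α12 (t : ℝ) (p : P) : ℝ := -(Q.e2 p * Q.ia p - Q.bb t p * Q.d1 p)
  + (Q.b1 p - Q.d1 p) * Q.bb t p
  + ((Q.b2 p - Q.d2 p) - Q.a12 p * Q.ia p * (Q.b1 p - Q.d1 p)) * Q.V1 p

def main22 (t : ℝ) (p : P) : ℝ := 2 * (1 - π.eps) * π.q1 * p.1 ^ 2
  + 2 * π.q2 * p.2 * (p.2 - π.eps * (Q.a12 p * Q.ia p) * p.1 + t * Q.ia p)
  - π.eps * (π.q1 * p.1 ^ 2 + π.q2 * p.2 ^ 2 - Q.ρ ^ 2)

def err22 (t : ℝ) (p : P) : ℝ :=
  Q.ia p / 2 * (Q.μb p * (2 * π.q2 * p.2) * Q.e3 p * Q.ia p + Q.V1 p * Q.e5 p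
      + (Q.bb t p + Q.V1 p * (Q.a12 p * Q.ia p)) * Q.e6 p - π.eps * Q.e4 p
      - Q.κ p * Q.e1 p * Q.ia p - Q.V1 p * Q.κ p * Q.d1 p * Q.ia p)
    + ((Q.b2 p - Q.d2 p) - Q.a12 p * Q.ia p * (Q.b1 p - Q.d1 p)) * Q.bb t p

theorem Tform_V (t : ℝ) {p : P} (h : (2 * π.M)⁻¹ ≤ Q.a11 p) (ξ1 ξ2 : ℝ) :
    Tform Q.a11 Q.a12 Q.a22 Q.b1 Q.b2 Q.V1 (Q.V2 t) p ξ1 ξ2
      = (π.eps * Q.a11 p / 2 + Q.err11 p) * Q.ζ p ξ1 ξ2 ^ 2 + Q.α12 t p * Q.ζ p ξ1 ξ2 * ξ2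
        + (Q.ia p / 2 * Q.μb p * Q.main22 t p + Q.err22 t p) * ξ2 ^ 2 := by
  have hM := π.M_pos
  have ha : Q.a11 p ≠ 0 := (lt_of_lt_of_le (by positivity) h).ne'
  have := Q.sm_η; have := Q.sm_a12
  have hia : DifferentiableAt ℝ Q.ia p := c1_diff Q.c1_ia p
  unfold Tform pform err11 α12 main22 err22 ζ bb e1 e2 e3 e4 e5 e6 d1 d2
  rw [dx_κ, dy_κ]
  unfold V1 V2 κ
  dsimp_d
  rw [Q.dx_ia h, Q.dy_ia h, Q.ia_eq h]
  field_simp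
  ring

def Xs (ς : ℝ) (p : P) : ℝ := ς * Q.e2 p * Q.ia p + 2 * Q.ρ ^ 2 * p.1
def β0 (ς : ℝ) (p : P) : ℝ := Q.bb (ς * Q.t0) p * (ς * dy Q.η p) - Q.V1 p * Q.Xs ς p
def γ0 (ς : ℝ) (p : P) : ℝ := Q.a11 p * Q.bb (ς * Q.t0) p * Q.Xs ς p
  + Q.κ p * Q.ia p * Q.V1 p * (ς * dy Q.η p)

theorem Phi_V (ς D1 : ℝ) {p : P} (h : (2 * π.M)⁻¹ ≤ Q.a11 p) (ξ1 ξ2 : ℝ) :
    Phi Q.a11 Q.a12 Q.a22 Q.V1 (Q.V2 (ς * Q.t0)) p (dx (Q.wt ς D1) p) (dy (Q.wt ς D1) p) ξ1 ξ2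
      = 2 * max (Q.sg ς D1 p) 0 * ((1 / 2) * Q.β0 ς p
          * (Q.a11 p * Q.ζ p ξ1 ξ2 ^ 2 - Q.κ p * Q.ia p * ξ2 ^ 2)
          - Q.γ0 ς p * Q.ζ p ξ1 ξ2 * ξ2) := by
  have hM := π.M_pos
  have ha : Q.a11 p ≠ 0 := (lt_of_lt_of_le (by positivity) h).ne'
  rw [dx_wt, dy_wt]
  unfold Phi pform β0 γ0 Xs ζ bb e2 V1 V2 κ
  rw [Q.ia_eq h]
  field_simp
  ring

theorem pform_eq {p : P} (h : (2 * π.M)⁻¹ ≤ Q.a11 p) (ξ1 ξ2 : ℝ) :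
    pform Q.a11 Q.a12 Q.a22 p ξ1 ξ2
      = Q.a11 p * Q.ζ p ξ1 ξ2 ^ 2 + Q.κ p * Q.ia p * ξ2 ^ 2 := by
  have hM := π.M_pos
  have ha : Q.a11 p ≠ 0 := (lt_of_lt_of_le (by positivity) h).ne'
  unfold pform ζ κ
  rw [Q.ia_eq h]
  field_simp
  ring

theorem Tform_Z (D1 : ℝ) (p : P) (ξ1 ξ2 : ℝ) :
    Tform Q.a11 Q.a12 Q.a22 Q.b1 Q.b2 (Q.Z1 D1) (Q.Z2 D1) p ξ1 ξ2
      = Q.wt 1 D1 p * Tform Q.a11 Q.a12 Q.a22 Q.b1 Q.b2 Q.V1 (Q.V2 (1 * Q.t0)) p ξ1 ξ2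
        + Q.wt (-1) D1 p * Tform Q.a11 Q.a12 Q.a22 Q.b1 Q.b2 Q.V1 (Q.V2 (-1 * Q.t0)) p ξ1 ξ2
        + Phi Q.a11 Q.a12 Q.a22 Q.V1 (Q.V2 (1 * Q.t0)) p (dx (Q.wt 1 D1) p) (dy (Q.wt 1 D1) p) ξ1 ξ2
        + Phi Q.a11 Q.a12 Q.a22 Q.V1 (Q.V2 (-1 * Q.t0)) p (dx (Q.wt (-1) D1) p)
            (dy (Q.wt (-1) D1) p) ξ1 ξ2 :=
  Tform_two (c1_diff Q.c1_V1 p) (c1_diff (Q.c1_V2 _) p) (c1_diff (Q.c1_V2 _) p)
    (c1_diff (Q.c1_wt _ _) p) (c1_diff (Q.c1_wt _ _) p) ξ1 ξ2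

end Pair

end Crest.Agent.R220
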