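import Crest.Agent.R220.Basic

open scoped ContDiff Topology
open MeasureTheory Set Metric Filter

noncomputable section
namespace Crest.Agent.R220

theorem mult_hasDerivAt (t : ℝ) : HasDerivAt (fun t : ℝ => (max t 0) ^ 4) (4 * (max t 0) ^ 3) t := by
  rcases lt_trichotomy t 0 with h | rfl | h
  · have : (fun t : ℝ => (max t 0) ^ 4) =ᶠ[𝓝 t] fun _ => 0 := by
      filter_upwards [gt_mem_nhds h] with s hs
      simp [max_eq_right hs.le]
    rw [max_eq_right h.le]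
    simpa using (hasDerivAt_const t (0 : ℝ)).congr_of_eventuallyEq this
  · rw [hasDerivAt_iff_isLittleO_nhds_zero]
    refine Asymptotics.IsBigO.trans_isLittleO (Asymptotics.IsBigO.of_bound 1 ?_)
      (Asymptotics.isLittleO_pow_id (𝕜 := ℝ) (n := 4) (by norm_num))
    refine Eventually.of_forall fun s => ?_
    have : |max s 0| ≤ |s| := by
      rcases le_total s 0 with h | h
      · simp [max_eq_right h]
      · simp [max_eq_left h]
    simpa using pow_le_pow_left₀ (abs_nonneg _) this 4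
  · have : (fun t : ℝ => (max t 0) ^ 4) =ᶠ[𝓝 t] fun s => s ^ 4 := by
      filter_upwards [lt_mem_nhds h] with s hs
      simp [max_eq_left hs.le]
    rw [max_eq_left h.le]
    simpa using (hasDerivAt_pow 4 t).congr_of_eventuallyEq this

theorem mult_contDiff : ContDiff ℝ 1 (fun t : ℝ => (max t 0) ^ 4) := by
  rw [contDiff_one_iff_deriv]
  refine ⟨fun t => (mult_hasDerivAt t).differentiableAt, ?_⟩
  have : deriv (fun t : ℝ => (max t 0) ^ 4) = fun t => 4 * (max t 0) ^ 3 :=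
    funext fun t => (mult_hasDerivAt t).deriv
  rw [this]
  fun_prop

theorem mult_cut {a b : ℝ} (ha : 0 < a) (hab : a < b) :
    ∃ (χ : P → ℝ) (G : ℝ), 0 ≤ G ∧ ContDiff ℝ ∞ χ ∧ HasCompactSupport χ ∧ (∀ p, 0 ≤ χ p) ∧
      (∀ p, χ p ≤ 1) ∧ (∀ p, ‖p‖ ≤ a → χ p = 1) ∧ (∀ p, b ≤ ‖p‖ → χ p = 0) ∧
      (∀ p, |dx χ p| ≤ G ∧ |dy χ p| ≤ G) ∧
      (∀ p, ‖p‖ < a ∨ b < ‖p‖ → dx χ p = 0 ∧ dy χ p = 0) := by
  let c : ContDiffBump (0 : P) := ⟨a, b, ha, hab⟩
  have hc : ContDiff ℝ ∞ c := c.contDiff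
  obtain ⟨G1, h1⟩ := (sm_dx hc).continuous.bounded_above_of_compact_support
    (hasCompactSupport_dx c.hasCompactSupport)
  obtain ⟨G2, h2⟩ := (sm_dy hc).continuous.bounded_above_of_compact_support
    (hasCompactSupport_dy c.hasCompactSupport)
  refine ⟨c, max G1 G2, le_max_of_le_left ((norm_nonneg _).trans (h1 0)), hc, c.hasCompactSupport,
    fun p => c.nonneg, fun p => c.le_one, fun p hp => c.one_of_mem_closedBall (by simpa using hp),
    fun p hp => c.zero_of_le_dist (by simpa using hp),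
    fun p => ⟨le_max_of_le_left (h1 p), le_max_of_le_right (h2 p)⟩, fun p hp => ?_⟩
  rcases hp with hp | hp
  · have := c.eventuallyEq_one_of_mem_ball (x := p) (by simpa using hp)
    rw [dx_congr this, dy_congr this]
    exact ⟨dx_const 1 p, dy_const 1 p⟩
  · have h3 : p ∉ tsupport c := by
      rw [c.tsupport_eq]
      simpa using hp
    have := notMem_tsupport_iff_eventuallyEq.1 h3
    rw [dx_congr this, dy_congr this]
    exact ⟨dx_const 0 p, dy_const 0 p⟩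

theorem mult_lin {α β B x y : ℝ} (h1 : |α| ≤ B) (h2 : |β| ≤ B) :
    |α * x + β * y| ≤ B * (|x| + |y|) := by
  calc |α * x + β * y| ≤ |α| * |x| + |β| * |y| := by
        rw [← abs_mul, ← abs_mul]; exact abs_add_le _ _
    _ ≤ B * |x| + B * |y| := by gcongr
    _ = _ := by ring

theorem mult_sq (x y : ℝ) : (|x| + |y|) ^ 2 ≤ 2 * (x ^ 2 + y ^ 2) := by
  nlinarith [sq_nonneg (|x| - |y|), sq_abs x, sq_abs y]

theorem mult_div_int {P1 P2 : P → ℝ} (h1 : ContDiff ℝ 1 P1) (h2 : ContDiff ℝ 1 P2)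
    (k1 : HasCompactSupport P1) (k2 : HasCompactSupport P2) :
    Integrable (fun p => dx P1 p + dy P2 p) ∧ ∫ p, (dx P1 p + dy P2 p) = 0 := by
  have i1 := (c1_cont_dx h1).integrable_of_hasCompactSupport (μ := volume) (hasCompactSupport_dx k1)
  have i2 := (c1_cont_dy h2).integrable_of_hasCompactSupport (μ := volume) (hasCompactSupport_dy k2)
  exact ⟨i1.add i2, by rw [integral_add i1 i2, integral_dx h1 k1, integral_dy h2 k2, add_zero]⟩

theorem mult_X2 {a b c d : P → ℝ} {p : P} (ha : DifferentiableAt ℝ a p) (hb : DifferentiableAt ℝ b p)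
    (hc : DifferentiableAt ℝ c p) (hd : DifferentiableAt ℝ d p) :
    dx (fun q => a q * b q + c q * d q) p =
      dx a p * b p + a p * dx b p + (dx c p * d p + c p * dx d p) := by
  rw [dx_add (ha.fun_mul hb) (hc.fun_mul hd), dx_mul ha hb, dx_mul hc hd]

theorem mult_Y2 {a b c d : P → ℝ} {p : P} (ha : DifferentiableAt ℝ a p) (hb : DifferentiableAt ℝ b p)
    (hc : DifferentiableAt ℝ c p) (hd : DifferentiableAt ℝ d p) :
    dy (fun q => a q * b q + c q * d q) p =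
      dy a p * b p + a p * dy b p + (dy c p * d p + c p * dy d p) := by
  rw [dy_add (ha.fun_mul hb) (hc.fun_mul hd), dy_mul ha hb, dy_mul hc hd]

/-- Degenerate Caccioppoli inequality. -/
theorem mult_cacc {K r1 rmin R r' G : ℝ} (hK : 1 ≤ K) (h5 : r' < R) {χ : P → ℝ} (hG : 0 ≤ G)
    (hχ : ContDiff ℝ ∞ χ) (hc : HasCompactSupport χ) (h0 : ∀ p, 0 ≤ χ p) (h1 : ∀ p, χ p ≤ 1)
    (hz : ∀ p, r' ≤ ‖p‖ → χ p = 0) (hb : ∀ p, |dx χ p| ≤ G ∧ |dy χ p| ≤ G)
    (L : Lin K r1 rmin R) :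
    ∫ p, χ p ^ 2 * (max (L.κ p) 0) ^ 5 * gsq L.w p ≤
      2 * K ^ 3 * (2 * K * (2 * G * K + 4 * K) + 3 * K ^ 2) ^ 2 * ∫ p in ann r1 r', L.w p ^ 2 := by
  have hK0 : 0 < K := by linarith
  set C₃ := 2 * K * (2 * G * K + 4 * K) + 3 * K ^ 2 with hC₃
  have hC₃0 : 0 ≤ C₃ := by positivity
  have Df : ∀ {f : P → ℝ}, ContDiff ℝ ∞ f → ∀ p, DifferentiableAt ℝ f p :=
    fun hf p => sm_diff hf p
  have wx := sm_dx L.hw
  have wy := sm_dy L.hw
  have h11 := L.h11
  have h12 := L.h12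
  have h22 := L.h22
  have hw := L.hw
  set k : P → ℝ := fun p => max (L.κ p) 0 with hk
  have hkc : Continuous k := L.hκ.continuous.max continuous_const
  have hk4 : ContDiff ℝ 1 fun p => k p ^ 4 := mult_contDiff.comp (sm_one L.hκ)
  set v : P → ℝ := fun p => χ p ^ 2 * k p ^ 4 with hv
  have hvs : ContDiff ℝ 1 v := (sm_one (hχ.pow 2)).mul hk4
  have hχ2 : HasCompactSupport fun p => χ p ^ 2 := by
    simp only [sq]; exact hc.mul_right
  have hvc : HasCompactSupport v := hχ2.mul_right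
  have hvx : ∀ p, dx v p = χ p * k p ^ 3 * (2 * dx χ p * k p + 4 * χ p * dx L.κ p) := fun p => by
    rw [hv, dx_mul (Df (hχ.pow 2) p) (c1_diff hk4 p), dx_pow _ (Df hχ p),
      dx_comp (mult_hasDerivAt _) (Df L.hκ p)]
    simp only [hk]
    norm_num
    ring
  have hvy : ∀ p, dy v p = χ p * k p ^ 3 * (2 * dy χ p * k p + 4 * χ p * dy L.κ p) := fun p => by
    rw [hv, dy_mul (Df (hχ.pow 2) p) (c1_diff hk4 p), dy_pow _ (Df hχ p),
      dy_comp (mult_hasDerivAt _) (Df L.hκ p)]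
    simp only [hk]
    norm_num
    ring
  have s1 : ContDiff ℝ ∞ fun p => L.w p * (L.a11 p * dx L.w p + L.a12 p * dy L.w p) := by fun_prop
  have s2 : ContDiff ℝ ∞ fun p => L.w p * (L.a12 p * dx L.w p + L.a22 p * dy L.w p) := by fun_prop
  obtain ⟨iD, hD⟩ := mult_div_int (hvs.mul (sm_one s1)) (hvs.mul (sm_one s2)) hvc.mul_right
    hvc.mul_right
  have hgc : Continuous (gsq L.w) := (wx.continuous.pow 2).add (wy.continuous.pow 2)
  have iL : Integrable fun p => χ p ^ 2 * k p ^ 5 * gsq L.w p :=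
    (((hχ.continuous.pow 2).mul (hkc.pow 5)).mul hgc).integrable_of_hasCompactSupport
      hχ2.mul_right.mul_right
  have hann : MeasurableSet (ann r1 r') :=
    ((isClosed_le continuous_const continuous_norm).inter
      (isClosed_le continuous_norm continuous_const)).measurableSet
  have iR : Integrable ((ann r1 r').indicator fun p => K ^ 2 * C₃ ^ 2 * L.w p ^ 2) := by
    rw [integrable_indicator_iff hann]
    refine (((continuous_const.mul (hw.continuous.pow 2)).continuousOn.integrableOn_compact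
      (isCompact_closedBall (0 : P) r')).mono_set fun p hp => ?_)
    simpa using hp.2
  have key : ∀ p, (2 * K)⁻¹ * (χ p ^ 2 * k p ^ 5 * gsq L.w p) ≤
      (dx (fun p => v p * (L.w p * (L.a11 p * dx L.w p + L.a12 p * dy L.w p))) p +
        dy (fun p => v p * (L.w p * (L.a12 p * dx L.w p + L.a22 p * dy L.w p))) p) +
      (ann r1 r').indicator (fun p => K ^ 2 * C₃ ^ 2 * L.w p ^ 2) p := by
    intro p
    rw [dx_mul (c1_diff hvs p) (Df s1 p), dy_mul (c1_diff hvs p) (Df s2 p),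
      dx_mul (Df hw p) (Df (by fun_prop) p), dy_mul (Df hw p) (Df (by fun_prop) p),
      dx_add (Df (by fun_prop) p) (Df (by fun_prop) p),
      dy_add (Df (by fun_prop) p) (Df (by fun_prop) p),
      dx_mul (Df h11 p) (Df wx p), dx_mul (Df h12 p) (Df wy p),
      dy_mul (Df h12 p) (Df wx p), dy_mul (Df h22 p) (Df wy p), dy_dx_comm' hw, hvx, hvy]
    have hind : 0 ≤ (ann r1 r').indicator (fun p => K ^ 2 * C₃ ^ 2 * L.w p ^ 2) p :=
      indicator_nonneg (fun q _ => by positivity) p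
    by_cases hp : r' ≤ ‖p‖
    · simpa [hv, hz p hp] using hind
    by_cases hκ : L.κ p ≤ 0
    · have : k p = 0 := max_eq_right hκ
      simpa [hv, this] using hind
    push Not at hp hκ
    have hpR : ‖p‖ < R := hp.trans h5
    have hkp : k p = L.κ p := max_eq_left hκ.le
    have hr1 : r1 ≤ ‖p‖ := by
      by_contra hcon
      exact absurd (L.inner p (not_le.1 hcon).le) (not_le.2 hκ)
    rw [indicator_of_mem (show p ∈ ann r1 r' from ⟨hr1, hp.le⟩)]
    have heq := L.eqn p hpR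
    rw [L.fsupp p hpR hr1] at heq
    have hell := L.ell p hpR hκ (dx L.w p) (dy L.w p)
    obtain ⟨b11, b12, b22, b1, b2, bκ, -⟩ := L.bd0 p hpR
    obtain ⟨x1, x2, -, xκ⟩ := L.bdx p hpR
    obtain ⟨-, y2, y3, yκ⟩ := L.bdy p hpR
    have hκK : L.κ p ≤ K := (le_abs_self _).trans bκ
    simp only [hv, hkp, gsq, pform] at hell ⊢
    have hχ0 := h0 p
    have hχ1 := h1 p
    obtain ⟨gx, gy⟩ := hb p
    generalize L.κ p = κ at *
    generalize χ p = c at *
    generalize dx L.w p = ξ1 at *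
    generalize dy L.w p = ξ2 at *
    generalize L.w p = w at *
    set s := |ξ1| + |ξ2| with hs
    have hs0 : 0 ≤ s := by positivity
    have grad : ∀ g q : ℝ, |g| ≤ G → |q| ≤ K → |2 * g * κ + 4 * c * q| ≤ 2 * G * K + 4 * K := by
      intro g q hg hq
      calc |2 * g * κ + 4 * c * q| ≤ |2 * g * κ| + |4 * c * q| := abs_add_le _ _
        _ = 2 * |g| * κ + 4 * c * |q| := by
            rw [abs_mul, abs_mul, abs_mul, abs_mul, abs_of_pos hκ, abs_of_nonneg hχ0]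
            norm_num
        _ ≤ 2 * G * K + 4 * 1 * K := by gcongr
        _ = _ := by ring
    have three : ∀ α β γ : ℝ, |α| ≤ K → |β| ≤ K → |γ| ≤ K → |α + β - γ| ≤ 3 * K := by
      intro α β γ h1 h2 h3
      linarith [abs_sub (α + β) γ, abs_add_le α β]
    set A1 := L.a11 p * ξ1 + L.a12 p * ξ2 with hA1
    set A2 := L.a12 p * ξ1 + L.a22 p * ξ2 with hA2
    have bA1 : |A1| ≤ K * s := mult_lin b11 b12
    have bA2 : |A2| ≤ K * s := mult_lin b12 b22
    set g1 := 2 * dx χ p * κ + 4 * c * dx L.κ p with hg1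
    set g2 := 2 * dy χ p * κ + 4 * c * dy L.κ p with hg2
    set B := (dx L.a11 p + dy L.a12 p - L.b1 p) * ξ1 + (dx L.a12 p + dy L.a22 p - L.b2 p) * ξ2
      with hB
    have bB : |B| ≤ 3 * K * s := mult_lin (three _ _ _ x1 y2 b1) (three _ _ _ x2 y3 b2)
    have bE : |g1 * A1 + g2 * A2 + c * κ * B| ≤ C₃ * s := by
      have u1 : |g1 * A1 + g2 * A2| ≤ (2 * G * K + 4 * K) * (|A1| + |A2|) :=
        mult_lin (grad _ _ gx xκ) (grad _ _ gy yκ)
      have u2 : |c * κ * B| ≤ 1 * K * (3 * K * s) := by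
        rw [abs_mul, abs_mul, abs_of_pos hκ, abs_of_nonneg hχ0]
        gcongr
      have u3 : (2 * G * K + 4 * K) * (|A1| + |A2|) ≤ (2 * G * K + 4 * K) * (K * s + K * s) := by
        gcongr
      calc _ ≤ |g1 * A1 + g2 * A2| + |c * κ * B| := abs_add_le _ _
        _ ≤ (2 * G * K + 4 * K) * (K * s + K * s) + 1 * K * (3 * K * s) := by linarith
        _ = C₃ * s := by rw [hC₃]; ring
    have e1 : -(c * κ ^ 3 * (|w| * (C₃ * s))) ≤ c * κ ^ 3 * (w * (g1 * A1 + g2 * A2 + c * κ * B)) := by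
      rw [← mul_neg]
      apply mul_le_mul_of_nonneg_left _ (by positivity)
      have : |w * (g1 * A1 + g2 * A2 + c * κ * B)| ≤ |w| * (C₃ * s) := by
        rw [abs_mul]; gcongr
      exact (abs_le.1 this).1
    have e2 : c * κ ^ 3 * (|w| * (C₃ * s)) ≤
        (2 * K)⁻¹ * (c ^ 2 * κ ^ 5 * (ξ1 ^ 2 + ξ2 ^ 2)) + K ^ 2 * C₃ ^ 2 * w ^ 2 := by
      have y1 : 0 ≤ κ * (c * κ ^ 2 * s - 2 * K * C₃ * |w|) ^ 2 := by positivity
      have y2 : c ^ 2 * κ ^ 5 * s ^ 2 ≤ c ^ 2 * κ ^ 5 * (2 * (ξ1 ^ 2 + ξ2 ^ 2)) := by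
        gcongr; exact mult_sq _ _
      have y3 : κ * (K ^ 2 * C₃ ^ 2 * w ^ 2) ≤ K * (K ^ 2 * C₃ ^ 2 * w ^ 2) := by gcongr
      rw [← sub_le_iff_le_add, ← div_eq_inv_mul, le_div_iff₀ (by positivity)]
      have y4 : |w| ^ 2 = w ^ 2 := sq_abs w
      have y5 : κ * (c * κ ^ 2 * s - 2 * K * C₃ * |w|) ^ 2 = c ^ 2 * κ ^ 5 * s ^ 2 -
          4 * K * (c * κ ^ 3 * (|w| * (C₃ * s))) + 4 * (κ * (K ^ 2 * C₃ ^ 2 * w ^ 2)) := by
        rw [← y4]; ring
      nlinarith
    have e3 : c ^ 2 * κ ^ 4 * (K⁻¹ * κ * (ξ1 ^ 2 + ξ2 ^ 2)) ≤ c ^ 2 * κ ^ 4 *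
        (L.a11 p * ξ1 ^ 2 + 2 * L.a12 p * ξ1 * ξ2 + L.a22 p * ξ2 ^ 2) := by gcongr
    have e4 : c ^ 2 * κ ^ 4 * (K⁻¹ * κ * (ξ1 ^ 2 + ξ2 ^ 2)) =
        2 * ((2 * K)⁻¹ * (c ^ 2 * κ ^ 5 * (ξ1 ^ 2 + ξ2 ^ 2))) := by field_simp
    have e5 : c * κ ^ 3 * g1 * (w * A1) + c ^ 2 * κ ^ 4 * (ξ1 * A1 + w * (dx L.a11 p * ξ1 +
        L.a11 p * dx (dx L.w) p + (dx L.a12 p * ξ2 + L.a12 p * dx (dy L.w) p))) +
        (c * κ ^ 3 * g2 * (w * A2) + c ^ 2 * κ ^ 4 * (ξ2 * A2 + w * (dy L.a12 p * ξ1 +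
        L.a12 p * dx (dy L.w) p + (dy L.a22 p * ξ2 + L.a22 p * dy (dy L.w) p)))) =
        c * κ ^ 3 * (w * (g1 * A1 + g2 * A2 + c * κ * B)) + c ^ 2 * κ ^ 4 *
          (L.a11 p * ξ1 ^ 2 + 2 * L.a12 p * ξ1 * ξ2 + L.a22 p * ξ2 ^ 2) := by
      rw [hB, hA1, hA2]
      linear_combination c ^ 2 * κ ^ 4 * w * heq
    rw [e5]
    linarith
  have fin := integral_mono (iL.const_mul (2 * K)⁻¹) (iD.add iR) key
  rw [integral_const_mul, integral_add' iD iR, hD, zero_add, integral_indicator hann,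
    integral_const_mul, inv_mul_le_iff₀ (by positivity)] at fin
  refine fin.trans (le_of_eq ?_)
  ring

/-- Friedrichs multiplier estimate combined with a degenerate Caccioppoli inequality. -/
theorem mult (K r1 rmin R r r' : ℝ) (hK : 1 ≤ K) (h1 : 0 < r1) (h2 : r1 ≤ rmin) (h3 : rmin ≤ r)
    (h4 : r < r') (h5 : r' < R) :
    ∃ C : ℝ, 0 ≤ C ∧ ∀ (L : Lin K r1 rmin R) (Z1 Z2 W : P → ℝ), ContDiff ℝ 1 Z1 →
      ContDiff ℝ 1 Z2 → Continuous W →
      (∀ p, ‖p‖ < R → 0 ≤ W p ∧ |Z1 p| ≤ K ∧ |Z2 p| ≤ K ∧ ∀ ξ1 ξ2 : ℝ,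
        (W p - K * (max (L.κ p) 0) ^ 5) * (ξ1 ^ 2 + ξ2 ^ 2)
          ≤ Tform L.a11 L.a12 L.a22 L.b1 L.b2 Z1 Z2 p ξ1 ξ2) →
      ∫ p in closedBall (0 : P) r, W p * gsq L.w p ≤
        (∫ p in closedBall (0 : P) r, |L.f p * (Z1 p * dx L.w p + Z2 p * dy L.w p)|)
          + C * ∫ p in ann r1 r', L.w p ^ 2 := by
  have hK0 : 0 < K := by linarith
  have hr0 : 0 < r := by linarith
  obtain ⟨χ, G, hG, hχ, hc, c0, c1, cone, czero, cb, cd⟩ :=
    mult_cut (a := r) (b := (r + r') / 2) hr0 (by linarith)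
  obtain ⟨ψ, G', hG', hψ, hc', d0, d1, done, dzero, db, -⟩ :=
    mult_cut (a := (r + r') / 2) (b := r') (by linarith) (by linarith)
  set C₄ := 6 * G * K ^ 7 + K with hC₄
  have hC₄0 : 0 ≤ C₄ := by positivity
  refine ⟨C₄ * (2 * K ^ 3 * (2 * K * (2 * G' * K + 4 * K) + 3 * K ^ 2) ^ 2), by positivity, ?_⟩
  intro L Z1 Z2 W hZ1 hZ2 hW hT
  have hcacc := mult_cacc hK h5 hG' hψ hc' d0 d1 dzero db L
  have Df : ∀ {f : P → ℝ}, ContDiff ℝ ∞ f → ∀ p, DifferentiableAt ℝ f p :=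
    fun hf p => sm_diff hf p
  have D1 : ∀ {f : P → ℝ}, ContDiff ℝ 1 f → ∀ p, DifferentiableAt ℝ f p :=
    fun hf p => c1_diff hf p
  have wx := sm_dx L.hw
  have wy := sm_dy L.hw
  have h11 := L.h11
  have h12 := L.h12
  have h22 := L.h22
  have wx1 := sm_one wx
  have wy1 := sm_one wy
  have sA1 : ContDiff ℝ ∞ fun p => L.a11 p * dx L.w p + L.a12 p * dy L.w p := by fun_prop
  have sA2 : ContDiff ℝ ∞ fun p => L.a12 p * dx L.w p + L.a22 p * dy L.w p := by fun_prop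
  have sZ : ContDiff ℝ 1 fun p => Z1 p * dx L.w p + Z2 p * dy L.w p := by fun_prop
  set F : P → ℝ := fun p => (dx L.w p * (L.a11 p * dx L.w p + L.a12 p * dy L.w p) +
    dy L.w p * (L.a12 p * dx L.w p + L.a22 p * dy L.w p)) / 2 with hF
  have sF : ContDiff ℝ ∞ F := by fun_prop
  set Q1 : P → ℝ := fun p => (L.a11 p * dx L.w p + L.a12 p * dy L.w p) *
    (Z1 p * dx L.w p + Z2 p * dy L.w p) - Z1 p * F p with hQ1
  set Q2 : P → ℝ := fun p => (L.a12 p * dx L.w p + L.a22 p * dy L.w p) *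
    (Z1 p * dx L.w p + Z2 p * dy L.w p) - Z2 p * F p with hQ2
  have sQ1 : ContDiff ℝ 1 Q1 := ((sm_one sA1).mul sZ).sub (hZ1.mul (sm_one sF))
  have sQ2 : ContDiff ℝ 1 Q2 := ((sm_one sA2).mul sZ).sub (hZ2.mul (sm_one sF))
  have hdiv : ∀ p, dx Q1 p + dy Q2 p =
      (L.a11 p * dx (dx L.w) p + 2 * L.a12 p * dx (dy L.w) p + L.a22 p * dy (dy L.w) p
        + L.b1 p * dx L.w p + L.b2 p * dy L.w p) * (Z1 p * dx L.w p + Z2 p * dy L.w p) -
        Tform L.a11 L.a12 L.a22 L.b1 L.b2 Z1 Z2 p (dx L.w p) (dy L.w p) := by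
    intro p
    have x1 := mult_X2 (Df h11 p) (Df wx p) (Df h12 p) (Df wy p)
    have x2 := mult_X2 (Df h12 p) (Df wx p) (Df h22 p) (Df wy p)
    have y1 := mult_Y2 (Df h11 p) (Df wx p) (Df h12 p) (Df wy p)
    have y2 := mult_Y2 (Df h12 p) (Df wx p) (Df h22 p) (Df wy p)
    have zx := mult_X2 (D1 hZ1 p) (Df wx p) (D1 hZ2 p) (Df wy p)
    have zy := mult_Y2 (D1 hZ1 p) (Df wx p) (D1 hZ2 p) (Df wy p)
    have fx := dx_div_const 2 (Df ((wx.mul sA1).add (wy.mul sA2)) p)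
    rw [mult_X2 (Df wx p) (Df sA1 p) (Df wy p) (Df sA2 p), x1, x2, ← hF] at fx
    have fy := dy_div_const 2 (Df ((wx.mul sA1).add (wy.mul sA2)) p)
    rw [mult_Y2 (Df wx p) (Df sA1 p) (Df wy p) (Df sA2 p), y1, y2, ← hF] at fy
    rw [hQ1, hQ2, dx_sub (D1 ((sm_one sA1).mul sZ) p) (D1 (hZ1.mul (sm_one sF)) p),
      dy_sub (D1 ((sm_one sA2).mul sZ) p) (D1 (hZ2.mul (sm_one sF)) p),
      dx_mul (Df sA1 p) (D1 sZ p), dy_mul (Df sA2 p) (D1 sZ p), dx_mul (D1 hZ1 p) (Df sF p),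
      dy_mul (D1 hZ2 p) (Df sF p), x1, y2, zx, zy, fx, fy, dy_dx_comm' L.hw]
    simp only [hF, Tform, pform]
    ring
  obtain ⟨iD, hD⟩ := mult_div_int ((sm_one hχ).mul sQ1) ((sm_one hχ).mul sQ2) hc.mul_right
    hc.mul_right
  have hgc : Continuous (gsq L.w) := (wx.continuous.pow 2).add (wy.continuous.pow 2)
  have hkc : Continuous fun p => max (L.κ p) 0 := L.hκ.continuous.max continuous_const
  have hψ2 : HasCompactSupport fun p => ψ p ^ 2 := by
    simp only [sq]; exact hc'.mul_right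
  have iK : Integrable fun p => ψ p ^ 2 * (max (L.κ p) 0) ^ 5 * gsq L.w p :=
    (((hψ.continuous.pow 2).mul (hkc.pow 5)).mul hgc).integrable_of_hasCompactSupport
      hψ2.mul_right.mul_right
  have iL : Integrable ((closedBall (0 : P) r).indicator fun p => W p * gsq L.w p) :=
    (integrable_indicator_iff measurableSet_closedBall).2
      ((hW.mul hgc).continuousOn.integrableOn_compact (isCompact_closedBall _ _))
  have iF : Integrable ((closedBall (0 : P) r).indicator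
      fun p => |L.f p * (Z1 p * dx L.w p + Z2 p * dy L.w p)|) :=
    (integrable_indicator_iff measurableSet_closedBall).2
      ((L.hf.continuous.mul sZ.continuous).abs.continuousOn.integrableOn_compact
        (isCompact_closedBall _ _))
  have key : ∀ p, (closedBall (0 : P) r).indicator (fun p => W p * gsq L.w p) p ≤
      (closedBall (0 : P) r).indicator
        (fun p => |L.f p * (Z1 p * dx L.w p + Z2 p * dy L.w p)|) p +
      C₄ * (ψ p ^ 2 * (max (L.κ p) 0) ^ 5 * gsq L.w p) -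
      (dx (fun p => χ p * Q1 p) p + dy (fun p => χ p * Q2 p) p) := by
    intro p
    rw [dx_mul (Df hχ p) (D1 sQ1 p), dy_mul (Df hχ p) (D1 sQ2 p)]
    have hg0 : 0 ≤ gsq L.w p := by unfold gsq; positivity
    have hk0 : 0 ≤ (max (L.κ p) 0) ^ 5 := pow_nonneg (le_max_right _ _) 5
    by_cases hp : (r + r') / 2 < ‖p‖
    · have hn : p ∉ closedBall (0 : P) r := by simp; linarith
      rw [indicator_of_notMem hn, indicator_of_notMem hn, czero p hp.le, (cd p (Or.inr hp)).1,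
        (cd p (Or.inr hp)).2]
      have : 0 ≤ C₄ * (ψ p ^ 2 * (max (L.κ p) 0) ^ 5 * gsq L.w p) := by positivity
      simpa using this
    push Not at hp
    have hpR : ‖p‖ < R := by linarith
    obtain ⟨hW0, z1, z2, hTp⟩ := hT p hpR
    have t1 := hTp (dx L.w p) (dy L.w p)
    have t2 := hdiv p
    rw [L.eqn p hpR] at t2
    rw [done p hp]
    have t3 : (closedBall (0 : P) r).indicator (fun p => W p * gsq L.w p) p ≤
        χ p * (W p * gsq L.w p) := by
      by_cases hq : ‖p‖ ≤ r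
      · rw [indicator_of_mem (by simpa using hq), cone p hq, one_mul]
      · rw [indicator_of_notMem (by simpa using hq)]
        have := c0 p
        positivity
    have t4 : χ p * (L.f p * (Z1 p * dx L.w p + Z2 p * dy L.w p)) ≤ (closedBall (0 : P) r).indicator
        (fun p => |L.f p * (Z1 p * dx L.w p + Z2 p * dy L.w p)|) p := by
      by_cases hq : ‖p‖ ≤ r
      · rw [indicator_of_mem (by simpa using hq), cone p hq, one_mul]
        exact le_abs_self _
      · rw [indicator_of_notMem (by simpa using hq), L.fsupp p hpR (by linarith [not_le.1 hq])]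
        simp
    have t5 : dx χ p * Q1 p + dy χ p * Q2 p ≤
        6 * G * K ^ 7 * ((max (L.κ p) 0) ^ 5 * gsq L.w p) := by
      by_cases hq : ‖p‖ < r
      · rw [(cd p (Or.inl hq)).1, (cd p (Or.inl hq)).2]
        have : 0 ≤ 6 * G * K ^ 7 * ((max (L.κ p) 0) ^ 5 * gsq L.w p) := by positivity
        simpa using this
      · have u1 := L.outer p hpR (by linarith [not_lt.1 hq])
        have u2 : 1 ≤ K ^ 5 * (max (L.κ p) 0) ^ 5 := by
          rw [← mul_pow]
          apply one_le_pow₀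
          rw [inv_le_iff_one_le_mul₀' hK0] at u1
          exact u1.trans (mul_le_mul_of_nonneg_left (le_max_left _ _) hK0.le)
        obtain ⟨b11, b12, b22, -⟩ := L.bd0 p hpR
        set s := |dx L.w p| + |dy L.w p| with hs
        have hs2 : s ^ 2 ≤ 2 * gsq L.w p := mult_sq _ _
        have bA1 : |L.a11 p * dx L.w p + L.a12 p * dy L.w p| ≤ K * s := mult_lin b11 b12
        have bA2 : |L.a12 p * dx L.w p + L.a22 p * dy L.w p| ≤ K * s := mult_lin b12 b22
        have bZ : |Z1 p * dx L.w p + Z2 p * dy L.w p| ≤ K * s := mult_lin z1 z2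
        have bF : |F p| ≤ K * s * s / 2 := by
          rw [hF, abs_div, abs_two, mul_comm (dx L.w p), mul_comm (dy L.w p)]
          exact div_le_div_of_nonneg_right (mult_lin bA1 bA2) (by norm_num)
        have bQ : ∀ A Z : ℝ, |A| ≤ K * s → |Z| ≤ K →
            |A * (Z1 p * dx L.w p + Z2 p * dy L.w p) - Z * F p| ≤ 3 * K ^ 2 * gsq L.w p := by
          intro A Z hA hZ
          calc _ ≤ |A| * |Z1 p * dx L.w p + Z2 p * dy L.w p| + |Z| * |F p| := by
                rw [← abs_mul, ← abs_mul]; exact abs_sub _ _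
            _ ≤ K * s * (K * s) + K * (K * s * s / 2) := by gcongr
            _ = 3 / 2 * K ^ 2 * s ^ 2 := by ring
            _ ≤ 3 / 2 * K ^ 2 * (2 * gsq L.w p) := by gcongr
            _ = _ := by ring
        have u3 := (le_abs_self _).trans (mult_lin (x := Q1 p) (y := Q2 p) (cb p).1 (cb p).2)
        have u4 : G * (|Q1 p| + |Q2 p|) ≤ G * (3 * K ^ 2 * gsq L.w p + 3 * K ^ 2 * gsq L.w p) := by
          gcongr
          exacts [bQ _ _ bA1 z1, bQ _ _ bA2 z2]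
        calc _ ≤ 6 * G * K ^ 2 * gsq L.w p * 1 := by linarith
          _ ≤ 6 * G * K ^ 2 * gsq L.w p * (K ^ 5 * (max (L.κ p) 0) ^ 5) := by gcongr
          _ = _ := by ring
    have t6 := mul_le_mul_of_nonneg_left t1 (c0 p)
    have t7 : χ p * (K * ((max (L.κ p) 0) ^ 5 * gsq L.w p)) ≤
        1 * (K * ((max (L.κ p) 0) ^ 5 * gsq L.w p)) := by gcongr; exact c1 p
    have t8 : χ p * (dx Q1 p + dy Q2 p) = χ p * (L.f p * (Z1 p * dx L.w p + Z2 p * dy L.w p) -
        Tform L.a11 L.a12 L.a22 L.b1 L.b2 Z1 Z2 p (dx L.w p) (dy L.w p)) := by rw [t2]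
    change χ p * ((W p - K * (max (L.κ p) 0) ^ 5) * gsq L.w p) ≤ _ at t6
    rw [hC₄]
    linarith
  have fin := integral_mono iL ((iF.add (iK.const_mul C₄)).sub iD) key
  rw [integral_sub' (iF.add (iK.const_mul C₄)) iD, integral_add' iF (iK.const_mul C₄), hD,
    integral_indicator measurableSet_closedBall, integral_indicator measurableSet_closedBall,
    integral_const_mul] at fin
  have := mul_le_mul_of_nonneg_left hcacc hC₄0
  linarith

end Crest.Agent.R220
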