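import Crest.Agent.R220.Basic

/-!
Order-of-magnitude calculus: `Ord S k f` says `f = O(ρ ^ k)` as the scale `ρ` tends to zero,
uniformly over a type of configurations.
-/

open scoped ContDiff Topology
open MeasureTheory Set Metric Filter Asymptotics

noncomputable section
namespace Crest.Agent.R220

/-- A positive scale function on a type of configurations. -/
structure Scale (Ω : Type) where
  ρ : Ω → ℝ
  pos : ∀ z, 0 < ρ z

namespace Scale
variable {Ω : Type} (S : Scale Ω)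

/-- The filter "for small scale". -/
def l : Filter Ω := Filter.comap S.ρ (𝓝 0)

theorem eventually_iff {p : Ω → Prop} :
    (∀ᶠ z in S.l, p z) ↔ ∃ ρ0 > 0, ∀ z, S.ρ z < ρ0 → p z := by
  unfold l
  rw [eventually_comap, Metric.eventually_nhds_iff]
  constructor
  · rintro ⟨ε, hε, h⟩
    refine ⟨ε, hε, fun z hz => h (y := S.ρ z) ?_ z rfl⟩
    rw [Real.dist_eq, sub_zero, abs_of_pos (S.pos z)]; exact hz
  · rintro ⟨ε, hε, h⟩
    refine ⟨ε, hε, fun y hy z hz => h z ?_⟩
    rw [Real.dist_eq, sub_zero, ← hz, abs_of_pos (S.pos z)] at hy; exact hy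

theorem ev_lt {c : ℝ} (hc : 0 < c) : ∀ᶠ z in S.l, S.ρ z < c :=
  S.eventually_iff.2 ⟨c, hc, fun _ h => h⟩

theorem ev_le {c : ℝ} (hc : 0 < c) : ∀ᶠ z in S.l, S.ρ z ≤ c :=
  (S.ev_lt hc).mono fun _ h => h.le

end Scale

/-- `f = O(ρ ^ k)`. -/
class Ord {Ω : Type} (S : Scale Ω) (f : Ω → ℝ) (k : outParam ℕ) : Prop where
  isO : f =O[S.l] fun z => S.ρ z ^ k

namespace Ord
variable {Ω : Type} {S : Scale Ω} {f g : Ω → ℝ} {k l : ℕ}

theorem of_bound (C : ℝ) (h : ∀ᶠ z in S.l, |f z| ≤ C * S.ρ z ^ k) : Ord S f k :=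
  ⟨IsBigO.of_bound C (h.mono fun z hz => by
    rwa [Real.norm_eq_abs, Real.norm_eq_abs, abs_of_pos (pow_pos (S.pos z) k)])⟩

theorem bound (h : Ord S f k) : ∃ C, 0 < C ∧ ∀ᶠ z in S.l, |f z| ≤ C * S.ρ z ^ k := by
  obtain ⟨C, hC, h⟩ := h.isO.exists_pos
  refine ⟨C, hC, h.bound.mono fun z hz => ?_⟩
  rwa [Real.norm_eq_abs, Real.norm_eq_abs, abs_of_pos (pow_pos (S.pos z) k)] at hz

theorem mono (h : Ord S f k) (hl : l ≤ k) : Ord S f l := by
  obtain ⟨C, hC, h⟩ := h.bound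
  refine of_bound C ?_
  filter_upwards [h, S.ev_le one_pos] with z h1 h2
  exact h1.trans (mul_le_mul_of_nonneg_left (pow_le_pow_of_le_one (S.pos z).le h2 hl) hC.le)

theorem congr (h : Ord S f k) (hfg : ∀ᶠ z in S.l, g z = f z) : Ord S g k :=
  ⟨h.isO.congr' (hfg.mono fun _ h => h.symm) EventuallyEq.rfl⟩

theorem congr' (h : Ord S f k) (hfg : ∀ z, g z = f z) : Ord S g k :=
  h.congr (Eventually.of_forall hfg)

theorem of_le (h : Ord S f k) (hfg : ∀ᶠ z in S.l, |g z| ≤ |f z|) : Ord S g k := by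
  obtain ⟨C, -, h⟩ := h.bound
  refine of_bound C ?_
  filter_upwards [h, hfg] with z h1 h2 using h2.trans h1

/-- One spare power of `ρ` beats any positive constant. -/
theorem small (h : Ord S f (k + 1)) {c : ℝ} (hc : 0 < c) :
    ∀ᶠ z in S.l, |f z| ≤ c * S.ρ z ^ k := by
  obtain ⟨C, hC, h⟩ := h.bound
  filter_upwards [h, S.ev_le (div_pos hc hC)] with z h1 h2
  have := S.pos z
  have h3 : C * S.ρ z ≤ c := by rw [le_div_iff₀ hC] at h2; linarith
  calc |f z| ≤ C * S.ρ z ^ (k + 1) := h1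
    _ = (C * S.ρ z) * S.ρ z ^ k := by ring
    _ ≤ c * S.ρ z ^ k := by gcongr

/-- A bounded quantity is eventually at most `ρ⁻¹`. -/
theorem le_inv (h : Ord S f 0) : ∀ᶠ z in S.l, |f z| ≤ (S.ρ z)⁻¹ := by
  obtain ⟨C, hC, h⟩ := h.bound
  filter_upwards [h, S.ev_le (inv_pos.2 hC)] with z h1 h2
  have := S.pos z
  rw [pow_zero, mul_one] at h1
  exact h1.trans ((le_inv_comm₀ this hC).1 h2)

instance (priority := low) const (c : ℝ) : Ord S (fun _ => c) 0 :=
  of_bound |c| (Eventually.of_forall fun _ => by simp)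

instance rho : Ord S (fun z => S.ρ z) 1 :=
  of_bound 1 (Eventually.of_forall fun z => by simp [abs_of_pos (S.pos z)])

instance add [hf : Ord S f k] [hg : Ord S g l] : Ord S (fun z => f z + g z) (min k l) :=
  ⟨(hf.mono (min_le_left _ _)).isO.add (hg.mono (min_le_right _ _)).isO⟩

instance sub [hf : Ord S f k] [hg : Ord S g l] : Ord S (fun z => f z - g z) (min k l) :=
  ⟨(hf.mono (min_le_left _ _)).isO.sub (hg.mono (min_le_right _ _)).isO⟩

instance neg [hf : Ord S f k] : Ord S (fun z => -f z) k := ⟨hf.isO.neg_left⟩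

instance mul [hf : Ord S f k] [hg : Ord S g l] : Ord S (fun z => f z * g z) (k + l) :=
  ⟨by simpa only [pow_add] using hf.isO.mul hg.isO⟩

instance div_const [hf : Ord S f k] (c : ℝ) : Ord S (fun z => f z / c) k :=
  ⟨by simpa only [div_eq_mul_inv, mul_comm _ c⁻¹] using hf.isO.const_mul_left c⁻¹⟩

instance pow [hf : Ord S f k] (n : ℕ) : Ord S (fun z => f z ^ n) (k * n) :=
  ⟨by simpa only [pow_mul] using hf.isO.pow n⟩

instance abs [hf : Ord S f k] : Ord S (fun z => |f z|) k :=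
  ⟨by simpa only [← Real.norm_eq_abs] using hf.isO.norm_left⟩

end Ord

/-- Prove `Ord S f k` by computing an order bottom-up and weakening it. -/
macro "ord" : tactic => `(tactic| exact Ord.mono inferInstance (by decide))

example {Ω : Type} (S : Scale Ω) (x y v : Ω → ℝ) [Ord S x 1] [Ord S y 0] [Ord S v 3] (q : ℝ) :
    Ord S (fun z => -q * x z ^ 3 / 3 + S.ρ z ^ 2 * q * x z + v z * (y z + 2 * |x z|)) 3 := by
  ord

end Crest.Agent.R220
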