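import Crest.Agent.R220.Coef

/-!
Orders of magnitude of the coefficients of the difference equation.
-/

open scoped ContDiff Topology
open MeasureTheory Set Metric Filter Asymptotics

noncomputable section
namespace Crest.Agent.R220

theorem convex_ball' (r : ℝ) : Convex ℝ {p : P | ‖p‖ < r} := by
  have : {p : P | ‖p‖ < r} = ball 0 r := by ext p; simp
  rw [this]; exact convex_ball _ _

theorem convex_cball' (r : ℝ) : Convex ℝ {p : P | ‖p‖ ≤ r} := by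
  have : {p : P | ‖p‖ ≤ r} = closedBall 0 r := by ext p; simp
  rw [this]; exact convex_closedBall _ _

theorem lip_ball {g : P → ℝ} (hg : ContDiff ℝ ∞ g) {r L : ℝ}
    (hx : ∀ q, ‖q‖ < r → |dx g q| ≤ L) (hy : ∀ q, ‖q‖ < r → |dy g q| ≤ L) {p q : P}
    (hp : ‖p‖ < r) (hq : ‖q‖ < r) : |g p - g q| ≤ 2 * L * ‖p - q‖ :=
  abs_sub_le_of_dx_dy (convex_ball' r) (fun z _ => sm_diff hg z) hx hy hp hq

theorem lip_ball_CB {g : P → ℝ} (hg : ContDiff ℝ ∞ g) {r L : ℝ}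
    (h : ∀ q, ‖q‖ < r → CB 1 L g q) {p q : P}
    (hp : ‖p‖ < r) (hq : ‖q‖ < r) : |g p - g q| ≤ 2 * L * ‖p - q‖ :=
  lip_ball hg (fun z hz => ((h z hz).dx hg).abs_le) (fun z hz => ((h z hz).dy hg).abs_le) hp hq

theorem diff3 {g g' : P → ℝ} (hg : ContDiff ℝ ∞ g) (hg' : ContDiff ℝ ∞ g') {r L e : ℝ}
    (h : ∀ q, ‖q‖ < r → CB 1 L g q) (h' : ∀ q, ‖q‖ < r → CB 1 L g' q)
    (h0 : |g 0 - g' 0| ≤ e) {p : P} (hp : ‖p‖ < r) : |g p - g' p| ≤ e + 4 * L * r := by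
  have hr : ‖(0 : P)‖ < r := by simpa using (norm_nonneg p).trans_lt hp
  have hL : 0 ≤ L := (abs_nonneg _).trans (h p hp).abs_le
  have h1 := lip_ball_CB hg h hp hr
  have h2 := lip_ball_CB hg' h' hp hr
  rw [sub_zero] at h1 h2
  have h3 : 2 * L * ‖p‖ ≤ 2 * L * r := by gcongr
  have : g p - g' p = (g p - g 0) + (g 0 - g' 0) - (g' p - g' 0) := by ring
  rw [this]
  have := abs_add_le (g p - g 0) (g 0 - g' 0)
  have := abs_sub (g p - g 0 + (g 0 - g' 0)) (g' p - g' 0)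
  linarith

theorem diff2 {g g' : P → ℝ} (hg : ContDiff ℝ ∞ g) (hg' : ContDiff ℝ ∞ g') {r L e : ℝ}
    (hx : ∀ q, ‖q‖ < r → |dx g q - dx g' q| ≤ L) (hy : ∀ q, ‖q‖ < r → |dy g q - dy g' q| ≤ L)
    (h0 : |g 0 - g' 0| ≤ e) {p : P} (hp : ‖p‖ < r) : |g p - g' p| ≤ e + 2 * L * r := by
  have hr : ‖(0 : P)‖ < r := by simpa using (norm_nonneg p).trans_lt hp
  have hL : 0 ≤ L := (abs_nonneg _).trans (hx p hp)
  have h1 := lip_ball (g := fun q => g q - g' q) (hg.sub hg') (L := L)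
    (fun q hq => by dsimp_d; exact hx q hq) (fun q hq => by dsimp_d; exact hy q hq) hp hr
  rw [sub_zero] at h1
  have h3 : 2 * L * ‖p‖ ≤ 2 * L * r := by gcongr
  have : g p - g' p = (g p - g' p - (g 0 - g' 0)) + (g 0 - g' 0) := by ring
  rw [this]
  have := abs_add_le (g p - g' p - (g 0 - g' 0)) (g 0 - g' 0)
  linarith

/-- Second-order Taylor estimate, with the gradient taken at any point `p0` with `‖p0‖ ≤ ‖p‖`. -/
theorem taylor2 {g : P → ℝ} (hg : ContDiff ℝ ∞ g) {r L : ℝ}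
    (h : ∀ q, ‖q‖ < r → CB 2 L g q) {p p0 : P} (hp : ‖p‖ < r) (hp0 : ‖p0‖ ≤ ‖p‖) :
    |g p - g 0 - (p.1 * dx g p0 + p.2 * dy g p0)| ≤ 8 * L * ‖p‖ ^ 2 := by
  have hL : 0 ≤ L := (abs_nonneg _).trans (h p hp).abs_le
  have key : ∀ q : P, ‖q‖ ≤ ‖p‖ → 2 * L * ‖q - p0‖ ≤ 4 * L * ‖p‖ := fun q hq => by
    have : ‖q - p0‖ ≤ 2 * ‖p‖ := (norm_sub_le _ _).trans (by linarith)
    nlinarith
  have h1 := abs_sub_le_of_dx_dy (f := fun q => g q - (q.1 * dx g p0 + q.2 * dy g p0))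
    (convex_cball' ‖p‖) (L := 4 * L * ‖p‖) (fun q _ => by fun_prop)
    (fun q hq => by
      dsimp_d
      have := lip_ball_CB (sm_dx hg) (fun z hz => (h z hz).dx hg) (lt_of_le_of_lt hq hp)
        (lt_of_le_of_lt hp0 hp)
      simpa using this.trans (key q hq))
    (fun q hq => by
      dsimp_d
      have := lip_ball_CB (sm_dy hg) (fun z hz => (h z hz).dy hg) (lt_of_le_of_lt hq hp)
        (lt_of_le_of_lt hp0 hp)
      simpa using this.trans (key q hq))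
    (p := p) (q := 0) (le_refl ‖p‖) (by simp)
  simp only [Prod.fst_zero, Prod.snd_zero, zero_mul, add_zero, sub_zero] at h1
  calc _ = |g p - (p.1 * dx g p0 + p.2 * dy g p0) - g 0| := by congr 1; ring
    _ ≤ _ := h1
    _ = _ := by ring

namespace Pair
variable {π : Par} (Q : Pair π)

def wxxx (p : P) : ℝ := dx (dx (dx Q.s.u)) p - dx (dx (dx Q.s'.u)) p
def wxxy (p : P) : ℝ := dx (dx (dy Q.s.u)) p - dx (dx (dy Q.s'.u)) p
def wxyy (p : P) : ℝ := dx (dy (dy Q.s.u)) p - dx (dy (dy Q.s'.u)) p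
def wyyy (p : P) : ℝ := dy (dy (dy Q.s.u)) p - dy (dy (dy Q.s'.u)) p
def wxx (p : P) : ℝ := dx (dx Q.s.u) p - dx (dx Q.s'.u) p
def wxy (p : P) : ℝ := dx (dy Q.s.u) p - dx (dy Q.s'.u) p
def wyy (p : P) : ℝ := dy (dy Q.s.u) p - dy (dy Q.s'.u) p

theorem w3_le (p : P) (hp : ‖p‖ < π.R * Q.ρ) :
    |Q.wxxx p| ≤ Q.ρ ^ 2 + 4 * π.M * (π.R * Q.ρ) ∧ |Q.wxxy p| ≤ Q.ρ ^ 2 + 4 * π.M * (π.R * Q.ρ) ∧
    |Q.wxyy p| ≤ Q.ρ ^ 2 + 4 * π.M * (π.R * Q.ρ) ∧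
    |Q.wyyy p| ≤ Q.ρ ^ 2 + 4 * π.M * (π.R * Q.ρ) := by
  have hu := Q.s.hu; have hu' := Q.s'.hu
  refine ⟨diff3 (by fun_prop) (by fun_prop) (fun q hq => ?_) (fun q hq => ?_) Q.jxxx hp,
    diff3 (by fun_prop) (by fun_prop) (fun q hq => ?_) (fun q hq => ?_) Q.jxxy hp,
    diff3 (by fun_prop) (by fun_prop) (fun q hq => ?_) (fun q hq => ?_) Q.jxyy hp,
    diff3 (by fun_prop) (by fun_prop) (fun q hq => ?_) (fun q hq => ?_) Q.jyyy hp⟩
  · exact (((Q.s.cu q hq).dx hu).dx (by fun_prop)).dx (by fun_prop)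
  · exact (((Q.s'.cu q hq).dx hu').dx (by fun_prop)).dx (by fun_prop)
  · exact (((Q.s.cu q hq).dy hu).dx (by fun_prop)).dx (by fun_prop)
  · exact (((Q.s'.cu q hq).dy hu').dx (by fun_prop)).dx (by fun_prop)
  · exact (((Q.s.cu q hq).dy hu).dy (by fun_prop)).dx (by fun_prop)
  · exact (((Q.s'.cu q hq).dy hu').dy (by fun_prop)).dx (by fun_prop)
  · exact (((Q.s.cu q hq).dy hu).dy (by fun_prop)).dy (by fun_prop)
  · exact (((Q.s'.cu q hq).dy hu').dy (by fun_prop)).dy (by fun_prop)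

theorem w2_le (p : P) (hp : ‖p‖ < π.R * Q.ρ) :
    |Q.wxx p| ≤ Q.ρ ^ 2 + 2 * (Q.ρ ^ 2 + 4 * π.M * (π.R * Q.ρ)) * (π.R * Q.ρ) ∧
    |Q.wxy p| ≤ Q.ρ ^ 2 + 2 * (Q.ρ ^ 2 + 4 * π.M * (π.R * Q.ρ)) * (π.R * Q.ρ) ∧
    |Q.wyy p| ≤ Q.ρ ^ 2 + 2 * (Q.ρ ^ 2 + 4 * π.M * (π.R * Q.ρ)) * (π.R * Q.ρ) := by
  have hu := Q.s.hu; have hu' := Q.s'.hu
  refine ⟨diff2 (by fun_prop) (by fun_prop) (fun q hq => ?_) (fun q hq => ?_) Q.jxx hp,
    diff2 (by fun_prop) (by fun_prop) (fun q hq => ?_) (fun q hq => ?_) Q.jxy hp,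
    diff2 (by fun_prop) (by fun_prop) (fun q hq => ?_) (fun q hq => ?_) Q.jyy hp⟩
  · exact (Q.w3_le q hq).1
  · dcomm; exact (Q.w3_le q hq).2.1
  · exact (Q.w3_le q hq).2.1
  · dcomm; exact (Q.w3_le q hq).2.2.1
  · exact (Q.w3_le q hq).2.2.1
  · exact (Q.w3_le q hq).2.2.2

theorem η_taylor {p p0 : P} (hp : ‖p‖ < π.R * Q.ρ) (hp0 : ‖p0‖ ≤ ‖p‖) :
    |Q.η p - (p.1 * dx Q.η p0 + p.2 * dy Q.η p0)| ≤ 8 * π.M * ‖p‖ ^ 2 := by
  have hu := Q.s.hu; have hu' := Q.s'.hu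
  have h1 := taylor2 (sm_dy hu)
    (fun q hq => ((Q.s.cu q hq).dy hu).mono (by norm_num) le_rfl) hp hp0
  have h2 := taylor2 (sm_dy hu')
    (fun q hq => ((Q.s'.cu q hq).dy hu').mono (by norm_num) le_rfl) hp hp0
  rw [dx_η, dy_η]; unfold η
  rw [abs_le] at *
  constructor <;> nlinarith [h1.1, h1.2, h2.1, h2.2]

theorem η_le {p : P} (hp : ‖p‖ < π.R * Q.ρ) : |Q.η p| ≤ 2 * π.M * ‖p‖ := by
  have hu := Q.s.hu; have hu' := Q.s'.hu
  have h0 : ‖(0 : P)‖ < π.R * Q.ρ := by simpa using (norm_nonneg p).trans_lt hp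
  have h1 := lip_ball_CB (sm_dy hu)
    (fun q hq => ((Q.s.cu q hq).dy hu).mono (by norm_num) le_rfl) hp h0
  have h2 := lip_ball_CB (sm_dy hu')
    (fun q hq => ((Q.s'.cu q hq).dy hu').mono (by norm_num) le_rfl) hp h0
  rw [sub_zero] at h1 h2
  unfold η
  rw [abs_le] at *
  constructor <;> nlinarith [h1.1, h1.2, h2.1, h2.2]

/-- First component of the divergence of the principal part. -/
def d1 (p : P) : ℝ := dx Q.a11 p + dy Q.a12 p
/-- Second component of the divergence of the principal part. -/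
def d2 (p : P) : ℝ := dx Q.a12 p + dy Q.a22 p
def e1 (p : P) : ℝ := dy Q.η p - Q.a11 p
def e2 (p : P) : ℝ := Q.a11 p * dx Q.η p + Q.a12 p * dy Q.η p
def e3 (p : P) : ℝ := Q.η p - (-Q.a12 p * p.1 + Q.a11 p * p.2)
def e4 (p : P) : ℝ := Q.κ p - Q.μb p * (π.q1 * p.1 ^ 2 + π.q2 * p.2 ^ 2 - Q.ρ ^ 2)
def e5 (p : P) : ℝ := dx Q.κ p - Q.μb p * (2 * π.q1 * p.1)
def e6 (p : P) : ℝ := dy Q.κ p - Q.μb p * (2 * π.q2 * p.2)

end Pair

section derived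
variable {π : Par} (σ : (z : Cfg π) → Sol π z.ρ)

theorem ord_of_le {g e : Cfg π → ℝ} {k : ℕ} (he : Ord (sc π) e k) (h : ∀ z, |g z| ≤ e z) :
    Ord (sc π) g k :=
  he.of_le (Eventually.of_forall fun z => (h z).trans (le_abs_self _))

instance ord_wxxx : Ord (sc π) (fun z => z.wxxx z.p) 1 :=
  ord_of_le (by ord) fun z => (z.w3_le z.p z.hp).1
instance ord_wxxy : Ord (sc π) (fun z => z.wxxy z.p) 1 :=
  ord_of_le (by ord) fun z => (z.w3_le z.p z.hp).2.1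
instance ord_wxyy : Ord (sc π) (fun z => z.wxyy z.p) 1 :=
  ord_of_le (by ord) fun z => (z.w3_le z.p z.hp).2.2.1
instance ord_wyyy : Ord (sc π) (fun z => z.wyyy z.p) 1 :=
  ord_of_le (by ord) fun z => (z.w3_le z.p z.hp).2.2.2
instance ord_wxx : Ord (sc π) (fun z => z.wxx z.p) 2 :=
  ord_of_le (by ord) fun z => (z.w2_le z.p z.hp).1
instance ord_wxy : Ord (sc π) (fun z => z.wxy z.p) 2 :=
  ord_of_le (by ord) fun z => (z.w2_le z.p z.hp).2.1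
instance ord_wyy : Ord (sc π) (fun z => z.wyy z.p) 2 :=
  ord_of_le (by ord) fun z => (z.w2_le z.p z.hp).2.2
instance ord_η : Ord (sc π) (fun z => z.η z.p) 1 :=
  ord_of_le (by ord) fun z => z.η_le z.hp
instance ord_ηx : Ord (sc π) (fun z => dx z.η z.p) 0 := by
  simp only [Pair.dx_η]; ord
instance ord_ηy : Ord (sc π) (fun z => dy z.η z.p) 0 := by
  simp only [Pair.dy_η]; ord

instance ord_S11 : Ord (sc π) (fun z => S11 (σ z).φ (σ z).u z.p) 0 := by unfold S11; ord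
instance ord_S12 : Ord (sc π) (fun z => S12 (σ z).φ (σ z).u z.p) 0 := by unfold S12; ord
instance ord_S22 : Ord (sc π) (fun z => S22 (σ z).φ (σ z).u z.p) 0 := by unfold S22; ord
instance ord_S11x : Ord (sc π) (fun z => dx (S11 (σ z).φ (σ z).u) z.p) 0 :=
  Ord.congr' (by ord) fun z => dx_S11 (σ z).hφ (σ z).hu z.p
instance ord_S11y : Ord (sc π) (fun z => dy (S11 (σ z).φ (σ z).u) z.p) 0 :=
  Ord.congr' (by ord) fun z => dy_S11 (σ z).hφ (σ z).hu z.p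
instance ord_S12x : Ord (sc π) (fun z => dx (S12 (σ z).φ (σ z).u) z.p) 0 :=
  Ord.congr' (by ord) fun z => dx_S12 (σ z).hφ (σ z).hu z.p
instance ord_S12y : Ord (sc π) (fun z => dy (S12 (σ z).φ (σ z).u) z.p) 0 :=
  Ord.congr' (by ord) fun z => dy_S12 (σ z).hφ (σ z).hu z.p
instance ord_S22x : Ord (sc π) (fun z => dx (S22 (σ z).φ (σ z).u) z.p) 0 :=
  Ord.congr' (by ord) fun z => dx_S22 (σ z).hφ (σ z).hu z.p
instance ord_S22y : Ord (sc π) (fun z => dy (S22 (σ z).φ (σ z).u) z.p) 0 :=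
  Ord.congr' (by ord) fun z => dy_S22 (σ z).hφ (σ z).hu z.p
instance ord_mux : Ord (sc π) (fun z => dx (mu (σ z).φ (σ z).u) z.p) 0 :=
  Ord.congr' (by ord) fun z => dx_mu (σ z).hφ (σ z).hu z.p
instance ord_muy : Ord (sc π) (fun z => dy (mu (σ z).φ (σ z).u) z.p) 0 :=
  Ord.congr' (by ord) fun z => dy_mu (σ z).hφ (σ z).hu z.p

instance ord_a11 : Ord (sc π) (fun z => z.a11 z.p) 0 := by unfold Pair.a11; ord
instance ord_a12 : Ord (sc π) (fun z => z.a12 z.p) 0 := by unfold Pair.a12; ord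
instance ord_a22 : Ord (sc π) (fun z => z.a22 z.p) 0 := by unfold Pair.a22; ord
instance ord_a11x : Ord (sc π) (fun z => dx z.a11 z.p) 0 := by simp only [Pair.dx_a11]; ord
instance ord_a11y : Ord (sc π) (fun z => dy z.a11 z.p) 0 := by simp only [Pair.dy_a11]; ord
instance ord_a12x : Ord (sc π) (fun z => dx z.a12 z.p) 0 := by simp only [Pair.dx_a12]; ord
instance ord_a12y : Ord (sc π) (fun z => dy z.a12 z.p) 0 := by simp only [Pair.dy_a12]; ord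
instance ord_a22x : Ord (sc π) (fun z => dx z.a22 z.p) 0 := by simp only [Pair.dx_a22]; ord
instance ord_a22y : Ord (sc π) (fun z => dy z.a22 z.p) 0 := by simp only [Pair.dy_a22]; ord
instance ord_μb : Ord (sc π) (fun z => z.μb z.p) 0 := by unfold Pair.μb; ord
instance ord_b1 : Ord (sc π) (fun z => z.b1 z.p) 2 := by unfold Pair.b1; ord
instance ord_b2 : Ord (sc π) (fun z => z.b2 z.p) 2 := by unfold Pair.b2; ord
instance ord_w : Ord (sc π) (fun z => z.w z.p) 0 := by unfold Pair.w; ord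

theorem ord_div1 : Ord (sc π)
    (fun z => dx (S22 (σ z).φ (σ z).u) z.p - dy (S12 (σ z).φ (σ z).u) z.p) 2 :=
  Ord.congr' (f := fun z => (dx (dx (σ z).φ) z.p + dy (dy (σ z).φ) z.p) * dx (σ z).u z.p
      + dx (σ z).φ z.p * (dx (dx (σ z).u) z.p + dy (dy (σ z).u) z.p)) (by ord) fun z => by
    rw [dx_S22 (σ z).hφ (σ z).hu, dy_S12 (σ z).hφ (σ z).hu]; ring

theorem ord_div2 : Ord (sc π)
    (fun z => dy (S11 (σ z).φ (σ z).u) z.p - dx (S12 (σ z).φ (σ z).u) z.p) 2 :=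
  Ord.congr' (f := fun z => (dx (dx (σ z).φ) z.p + dy (dy (σ z).φ) z.p) * dy (σ z).u z.p
      + dy (σ z).φ z.p * (dx (dx (σ z).u) z.p + dy (dy (σ z).u) z.p)) (by ord) fun z => by
    rw [dy_S11 (σ z).hφ (σ z).hu, dx_S12 (σ z).hφ (σ z).hu]; ring

instance ord_d1 : Ord (sc π) (fun z => z.d1 z.p) 2 :=
  Ord.congr' (((ord_div1 fun z => z.s).add (hg := ord_div1 fun z => z.s')).div_const 2)
    fun z => by unfold Pair.d1; rw [Pair.dx_a11, Pair.dy_a12]; ring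
instance ord_d2 : Ord (sc π) (fun z => z.d2 z.p) 2 :=
  Ord.congr' (((ord_div2 fun z => z.s).add (hg := ord_div2 fun z => z.s')).div_const 2)
    fun z => by unfold Pair.d2; rw [Pair.dx_a12, Pair.dy_a22]; ring

instance ord_e1 : Ord (sc π) (fun z => z.e1 z.p) 3 :=
  Ord.congr' (f := fun z => (-(dx z.s.φ z.p * dx z.s.u z.p) + dy z.s.φ z.p * dy z.s.u z.p
      - dx z.s'.φ z.p * dx z.s'.u z.p + dy z.s'.φ z.p * dy z.s'.u z.p) / 2) (by ord) fun z => by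
    unfold Pair.e1 Pair.a11 S22; rw [Pair.dy_η]; ring

/-- `a12 + η_x`. -/
theorem ord_e1' : Ord (sc π) (fun z => z.a12 z.p + dx z.η z.p) 3 :=
  Ord.congr' (f := fun z => (dy z.s.φ z.p * dx z.s.u z.p + dx z.s.φ z.p * dy z.s.u z.p
      + dy z.s'.φ z.p * dx z.s'.u z.p + dx z.s'.φ z.p * dy z.s'.u z.p) / 2) (by ord) fun z => by
    unfold Pair.a12 S12; rw [Pair.dx_η]; ring

instance ord_e2 : Ord (sc π) (fun z => z.e2 z.p) 3 := by
  have h := ord_e1' (π := π)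
  have h2 : Ord (sc π) (fun z => z.a11 z.p * (z.a12 z.p + dx z.η z.p) + z.a12 z.p * z.e1 z.p)
      (min (0 + 3) (0 + 3)) := Ord.add (hf := Ord.mul (hg := h))
  exact Ord.congr' (h2.mono (by decide)) fun z => by unfold Pair.e2 Pair.e1; ring

instance ord_e3 : Ord (sc π) (fun z => z.e3 z.p) 2 := by
  have h := ord_e1' (π := π)
  have h1 : Ord (sc π) (fun z => z.η z.p - (z.p.1 * dx z.η z.p + z.p.2 * dy z.η z.p)) 2 :=
    ord_of_le (by ord) fun z => z.η_taylor z.hp le_rfl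
  have h2 : Ord (sc π) (fun z => z.p.1 * (z.a12 z.p + dx z.η z.p) + z.p.2 * z.e1 z.p)
      (min (1 + 3) (1 + 3)) := Ord.add (hf := Ord.mul (hg := h))
  exact Ord.congr' ((Ord.add (hf := h1) (hg := h2)).mono (by decide)) fun z => by
    unfold Pair.e3 Pair.e1; ring

instance ord_δ11 : Ord (sc π) (fun z => z.δ11 z.p) 2 :=
  Ord.congr' (f := fun z => z.wxx z.p - dx z.s.φ z.p * dx z.s.u z.p + dy z.s.φ z.p * dy z.s.u z.p
      + dx z.s'.φ z.p * dx z.s'.u z.p - dy z.s'.φ z.p * dy z.s'.u z.p) (by ord) fun z => by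
    unfold Pair.δ11 Pair.wxx S11; ring
instance ord_δ12 : Ord (sc π) (fun z => z.δ12 z.p) 2 :=
  Ord.congr' (f := fun z => z.wxy z.p - dy z.s.φ z.p * dx z.s.u z.p - dx z.s.φ z.p * dy z.s.u z.p
      + dy z.s'.φ z.p * dx z.s'.u z.p + dx z.s'.φ z.p * dy z.s'.u z.p) (by ord) fun z => by
    unfold Pair.δ12 Pair.wxy S12; ring
instance ord_δ22 : Ord (sc π) (fun z => z.δ22 z.p) 2 :=
  Ord.congr' (f := fun z => z.wyy z.p + dx z.s.φ z.p * dx z.s.u z.p - dy z.s.φ z.p * dy z.s.u z.p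
      - dx z.s'.φ z.p * dx z.s'.u z.p + dy z.s'.φ z.p * dy z.s'.u z.p) (by ord) fun z => by
    unfold Pair.δ22 Pair.wyy S22; ring

theorem ord_S11x' : Ord (sc π)
    (fun z => dx (S11 (σ z).φ (σ z).u) z.p - dx (dx (dx (σ z).u)) z.p) 1 :=
  Ord.congr' (f := fun z => - dx (dx (σ z).φ) z.p * dx (σ z).u z.p
    - dx (σ z).φ z.p * dx (dx (σ z).u) z.p + dx (dy (σ z).φ) z.p * dy (σ z).u z.p
      + dy (σ z).φ z.p * dx (dy (σ z).u) z.p) (by ord) fun z => by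
    rw [dx_S11 (σ z).hφ (σ z).hu]; ring
theorem ord_S11y' : Ord (sc π)
    (fun z => dy (S11 (σ z).φ (σ z).u) z.p - dx (dx (dy (σ z).u)) z.p) 1 :=
  Ord.congr' (f := fun z => - dx (dy (σ z).φ) z.p * dx (σ z).u z.p
    - dx (σ z).φ z.p * dx (dy (σ z).u) z.p + dy (dy (σ z).φ) z.p * dy (σ z).u z.p
      + dy (σ z).φ z.p * dy (dy (σ z).u) z.p) (by ord) fun z => by
    rw [dy_S11 (σ z).hφ (σ z).hu]; ring
theorem ord_S12x' : Ord (sc π)
    (fun z => dx (S12 (σ z).φ (σ z).u) z.p - dx (dx (dy (σ z).u)) z.p) 1 :=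
  Ord.congr' (f := fun z => - dx (dy (σ z).φ) z.p * dx (σ z).u z.p
    - dy (σ z).φ z.p * dx (dx (σ z).u) z.p - dx (dx (σ z).φ) z.p * dy (σ z).u z.p
      - dx (σ z).φ z.p * dx (dy (σ z).u) z.p) (by ord) fun z => by
    rw [dx_S12 (σ z).hφ (σ z).hu]; ring
theorem ord_S12y' : Ord (sc π)
    (fun z => dy (S12 (σ z).φ (σ z).u) z.p - dx (dy (dy (σ z).u)) z.p) 1 :=
  Ord.congr' (f := fun z => - dy (dy (σ z).φ) z.p * dx (σ z).u z.p
    - dy (σ z).φ z.p * dx (dy (σ z).u) z.p - dx (dy (σ z).φ) z.p * dy (σ z).u z.p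
      - dx (σ z).φ z.p * dy (dy (σ z).u) z.p) (by ord) fun z => by
    rw [dy_S12 (σ z).hφ (σ z).hu]; ring
theorem ord_S22x' : Ord (sc π)
    (fun z => dx (S22 (σ z).φ (σ z).u) z.p - dx (dy (dy (σ z).u)) z.p) 1 :=
  Ord.congr' (f := fun z => dx (dx (σ z).φ) z.p * dx (σ z).u z.p
    + dx (σ z).φ z.p * dx (dx (σ z).u) z.p - dx (dy (σ z).φ) z.p * dy (σ z).u z.p
      - dy (σ z).φ z.p * dx (dy (σ z).u) z.p) (by ord) fun z => by
    rw [dx_S22 (σ z).hφ (σ z).hu]; ring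
theorem ord_S22y' : Ord (sc π)
    (fun z => dy (S22 (σ z).φ (σ z).u) z.p - dy (dy (dy (σ z).u)) z.p) 1 :=
  Ord.congr' (f := fun z => dx (dy (σ z).φ) z.p * dx (σ z).u z.p
    + dx (σ z).φ z.p * dx (dy (σ z).u) z.p - dy (dy (σ z).φ) z.p * dy (σ z).u z.p
      - dy (σ z).φ z.p * dy (dy (σ z).u) z.p) (by ord) fun z => by
    rw [dy_S22 (σ z).hφ (σ z).hu]; ring

theorem ord_three {a b c g : Cfg π → ℝ} (ha : Ord (sc π) a 1) (hb : Ord (sc π) b 1)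
    (hc : Ord (sc π) c 1) (h : ∀ z, g z = a z - b z + c z) : Ord (sc π) g 1 :=
  Ord.congr' (by ord) h

instance ord_δ11x : Ord (sc π) (fun z => dx z.δ11 z.p) 1 :=
  ord_three (ord_S11x' fun z => z.s) (ord_S11x' fun z => z.s') ord_wxxx fun z => by
    rw [Pair.dx_δ11]; unfold Pair.wxxx; ring
instance ord_δ11y : Ord (sc π) (fun z => dy z.δ11 z.p) 1 :=
  ord_three (ord_S11y' fun z => z.s) (ord_S11y' fun z => z.s') ord_wxxy fun z => by
    rw [Pair.dy_δ11]; unfold Pair.wxxy; ring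
instance ord_δ12x : Ord (sc π) (fun z => dx z.δ12 z.p) 1 :=
  ord_three (ord_S12x' fun z => z.s) (ord_S12x' fun z => z.s') ord_wxxy fun z => by
    rw [Pair.dx_δ12]; unfold Pair.wxxy; ring
instance ord_δ12y : Ord (sc π) (fun z => dy z.δ12 z.p) 1 :=
  ord_three (ord_S12y' fun z => z.s) (ord_S12y' fun z => z.s') ord_wxyy fun z => by
    rw [Pair.dy_δ12]; unfold Pair.wxyy; ring
instance ord_δ22x : Ord (sc π) (fun z => dx z.δ22 z.p) 1 :=
  ord_three (ord_S22x' fun z => z.s) (ord_S22x' fun z => z.s') ord_wxyy fun z => by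
    rw [Pair.dx_δ22]; unfold Pair.wxyy; ring
instance ord_δ22y : Ord (sc π) (fun z => dy z.δ22 z.p) 1 :=
  ord_three (ord_S22y' fun z => z.s) (ord_S22y' fun z => z.s') ord_wyyy fun z => by
    rw [Pair.dy_δ22]; unfold Pair.wyyy; ring

instance ord_κ : Ord (sc π) (fun z => z.κ z.p) 2 :=
  Ord.congr' (by ord) fun z => z.κ_eq z.p z.hp
instance ord_κx : Ord (sc π) (fun z => dx z.κ z.p) 1 :=
  Ord.congr' (by ord) fun z => z.dx_κ_eq z.p z.hp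
instance ord_κy : Ord (sc π) (fun z => dy z.κ z.p) 1 :=
  Ord.congr' (by ord) fun z => z.dy_κ_eq z.p z.hp

instance ord_e4 : Ord (sc π) (fun z => z.e4 z.p) 4 :=
  Ord.congr' (f := fun z => (-(dx (dx z.s.ψ) z.p + dy (dy z.s.ψ) z.p) * mu z.s.φ z.s.u z.p
      - (dx (dx z.s'.ψ) z.p + dy (dy z.s'.ψ) z.p) * mu z.s'.φ z.s'.u z.p) / 2
      - (z.δ11 z.p * z.δ22 z.p - z.δ12 z.p ^ 2) / 4) (by ord) fun z => by
    unfold Pair.e4 Pair.μb; rw [z.κ_eq z.p z.hp, Sol.kap_φ, Sol.kap_φ]; ring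

instance ord_e5 : Ord (sc π) (fun z => z.e5 z.p) 2 :=
  Ord.congr' (f := fun z =>
      (-(dx (dx (dx z.s.ψ)) z.p + dx (dy (dy z.s.ψ)) z.p) * mu z.s.φ z.s.u z.p
      + kap z.s.φ z.p * dx (mu z.s.φ z.s.u) z.p
      - (dx (dx (dx z.s'.ψ)) z.p + dx (dy (dy z.s'.ψ)) z.p) * mu z.s'.φ z.s'.u z.p
      + kap z.s'.φ z.p * dx (mu z.s'.φ z.s'.u) z.p) / 2
      - (dx z.δ11 z.p * z.δ22 z.p + z.δ11 z.p * dx z.δ22 z.p - 2 * z.δ12 z.p * dx z.δ12 z.p) / 4)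
      (by ord) fun z => by
    unfold Pair.e5 Pair.μb; rw [z.dx_κ_eq z.p z.hp, Sol.dx_kap_φ, Sol.dx_kap_φ]; ring

instance ord_e6 : Ord (sc π) (fun z => z.e6 z.p) 2 :=
  Ord.congr' (f := fun z =>
      (-(dy (dx (dx z.s.ψ)) z.p + dy (dy (dy z.s.ψ)) z.p) * mu z.s.φ z.s.u z.p
      + kap z.s.φ z.p * dy (mu z.s.φ z.s.u) z.p
      - (dy (dx (dx z.s'.ψ)) z.p + dy (dy (dy z.s'.ψ)) z.p) * mu z.s'.φ z.s'.u z.p
      + kap z.s'.φ z.p * dy (mu z.s'.φ z.s'.u) z.p) / 2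
      - (dy z.δ11 z.p * z.δ22 z.p + z.δ11 z.p * dy z.δ22 z.p - 2 * z.δ12 z.p * dy z.δ12 z.p) / 4)
      (by ord) fun z => by
    unfold Pair.e6 Pair.μb; rw [z.dy_κ_eq z.p z.hp, Sol.dy_kap_φ, Sol.dy_kap_φ]; ring

end derived

end Crest.Agent.R220
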