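import Crest.Agent.R220.Mplier

/-!
Pointwise positivity of the multiplier forms for small `ρ`.
-/

open scoped ContDiff Topology
open MeasureTheory Set Metric Filter Asymptotics

noncomputable section
namespace Crest.Agent.R220

/-! ### Real-variable lemmas -/

theorem quad_lower {c ρ α11 α12 α22 ζ ξ : ℝ} (hc : 0 ≤ c) (h11 : c ≤ α11) (h22 : c * ρ ^ 2 ≤ α22)
    (h12 : |α12| ≤ c * ρ ^ 1) :
    c / 2 * (ζ ^ 2 + ρ ^ 2 * ξ ^ 2) ≤ α11 * ζ ^ 2 + α12 * ζ * ξ + α22 * ξ ^ 2 := by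
  rw [pow_one] at h12
  have h1 : -(c * ρ * (|ζ| * |ξ|)) ≤ α12 * ζ * ξ := by
    have : |α12 * ζ * ξ| ≤ c * ρ * (|ζ| * |ξ|) := by
      rw [abs_mul, abs_mul, mul_assoc]; gcongr
    linarith [neg_abs_le (α12 * ζ * ξ)]
  have h2 : 0 ≤ c * (|ζ| - ρ * |ξ|) ^ 2 := by positivity
  have h3 : |ζ| ^ 2 = ζ ^ 2 := sq_abs ζ
  have h4 : |ξ| ^ 2 = ξ ^ 2 := sq_abs ξ
  have h5 : c * ζ ^ 2 ≤ α11 * ζ ^ 2 := by gcongr
  have h6 : c * ρ ^ 2 * ξ ^ 2 ≤ α22 * ξ ^ 2 := by gcongr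
  have h7 : c * (|ζ| - ρ * |ξ|) ^ 2 = c * ζ ^ 2 - 2 * (c * ρ * (|ζ| * |ξ|)) + c * ρ ^ 2 * ξ ^ 2 := by
    rw [← h3, ← h4]; ring
  nlinarith

theorem flux_lower {a β k γ ζ ξ : ℝ} (ha : 0 < a) (hβ : 0 < β) :
    -(β * k / 2 + γ ^ 2 / (2 * a * β)) * ξ ^ 2
      ≤ (1 / 2) * β * (a * ζ ^ 2 - k * ξ ^ 2) - γ * ζ * ξ := by
  have h : 0 ≤ (a * β * ζ - γ * ξ) ^ 2 / (2 * a * β) := by positivity
  have : (1 / 2) * β * (a * ζ ^ 2 - k * ξ ^ 2) - γ * ζ * ξ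
      + (β * k / 2 + γ ^ 2 / (2 * a * β)) * ξ ^ 2 = (a * β * ζ - γ * ξ) ^ 2 / (2 * a * β) := by
    field_simp; ring
  linarith

theorem young5 {A e : ℝ} (hA : 0 ≤ A) (he : 0 < e) : A ≤ e + A ^ 5 / e ^ 4 := by
  rcases le_total A e with h | h
  · have : 0 ≤ A ^ 5 / e ^ 4 := by positivity
    linarith
  · have : A ≤ A ^ 5 / e ^ 4 := by
      rw [le_div_iff₀ (by positivity)]
      calc A * e ^ 4 ≤ A * A ^ 4 := by gcongr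
        _ = A ^ 5 := by ring
    linarith

theorem main_ge {q1 q2 ε B ρ x y β τ : ℝ} (hq1 : 0 < q1) (hq1' : q1 ≤ 1) (hq2 : 0 < q2)
    (hq2' : q2 ≤ 1) (hε : 0 < ε) (hε' : ε ≤ 1 / 8) (hβ : |β| ≤ B) (hB : ε * B ≤ q1 / 2)
    (hτ : τ ^ 2 ≤ ε * ρ ^ 2 / 4) :
    ε * ρ ^ 2 / 2 ≤ 2 * (1 - ε) * q1 * x ^ 2 + 2 * q2 * y * (y - ε * β * x + τ)
      - ε * (q1 * x ^ 2 + q2 * y ^ 2 - ρ ^ 2) := by
  have h1 : |ε * β| ≤ q1 / 2 := by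
    rw [abs_mul, abs_of_pos hε]; exact (mul_le_mul_of_nonneg_left hβ hε.le).trans hB
  have h2 : 2 * q2 * (ε * β) * (x * y) ≤ q1 / 2 * x ^ 2 + q2 / 2 * y ^ 2 := by
    have h3 : |2 * q2 * (ε * β) * (x * y)| ≤ 2 * q2 * (q1 / 2) * (|x| * |y|) := by
      rw [abs_mul, abs_mul, abs_mul (x), abs_of_pos (by positivity : 0 < 2 * q2)]; gcongr
    have h4 : 2 * (|x| * |y|) ≤ x ^ 2 + y ^ 2 := by
      nlinarith [sq_nonneg (|x| - |y|), sq_abs x, sq_abs y]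
    have h5 : q1 * q2 * x ^ 2 ≤ q1 * x ^ 2 := by
      have : q1 * q2 ≤ q1 := by nlinarith
      gcongr
    have h6 : q1 * q2 * y ^ 2 ≤ q2 * y ^ 2 := by
      have : q1 * q2 ≤ q2 := by nlinarith
      gcongr
    have h7 : q1 * q2 * (2 * (|x| * |y|)) ≤ q1 * q2 * (x ^ 2 + y ^ 2) := by gcongr
    nlinarith [le_abs_self (2 * q2 * (ε * β) * (x * y))]
  have h8 : -(q2 / 2 * y ^ 2 + 2 * q2 * τ ^ 2) ≤ 2 * q2 * y * τ := by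
    nlinarith [mul_nonneg hq2.le (sq_nonneg (y + 2 * τ))]
  have h9 : q2 * τ ^ 2 ≤ ε * ρ ^ 2 / 4 := by nlinarith [sq_nonneg τ]
  have h10 : 0 ≤ q1 * x ^ 2 := by positivity
  have h11 : 0 ≤ q2 * y ^ 2 := by positivity
  nlinarith

theorem sq_le_zeta {β B ρ ξ1 ξ2 : ℝ} (hβ : |β| ≤ B) (hρ : 0 < ρ) (hρ1 : ρ ≤ 1) :
    ρ ^ 2 * (ξ1 ^ 2 + ξ2 ^ 2) ≤ (2 * B ^ 2 + 2) * ((ξ1 + β * ξ2) ^ 2 + ρ ^ 2 * ξ2 ^ 2) := by
  have h1 : β ^ 2 ≤ B ^ 2 := by rw [← sq_abs β]; gcongr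
  have h2 : ξ1 ^ 2 ≤ 2 * (ξ1 + β * ξ2) ^ 2 + 2 * B ^ 2 * ξ2 ^ 2 := by
    nlinarith [sq_nonneg (ξ1 + 2 * β * ξ2), mul_le_mul_of_nonneg_right h1 (sq_nonneg ξ2)]
  have h3 : ρ ^ 2 ≤ 1 := by nlinarith
  have h4 : ρ ^ 2 * ξ1 ^ 2 ≤ ρ ^ 2 * (2 * (ξ1 + β * ξ2) ^ 2 + 2 * B ^ 2 * ξ2 ^ 2) := by gcongr
  have h5 : ρ ^ 2 * (ξ1 + β * ξ2) ^ 2 ≤ 1 * (ξ1 + β * ξ2) ^ 2 := by gcongr
  nlinarith [sq_nonneg (ξ1 + β * ξ2), mul_nonneg (sq_nonneg B) (sq_nonneg (ξ1 + β * ξ2)),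
    mul_nonneg (sq_nonneg ρ) (sq_nonneg ξ2)]

/-! ### Basic eventual bounds -/

section ev
variable {π : Par}

theorem ηy_ge (z : Cfg π) : π.M⁻¹ ≤ dy z.η z.p := by
  rw [Pair.dy_η]
  have := z.s.hyy z.p z.hp; have := z.s'.hyy z.p z.hp
  linarith

theorem ηy_le (z : Cfg π) : |dy z.η z.p| ≤ π.M := by
  rw [Pair.dy_η]
  have h1 := (((z.s.cu z.p z.hp).dy z.s.hu).dy (sm_dy z.s.hu)).abs_le
  have h2 := (((z.s'.cu z.p z.hp).dy z.s'.hu).dy (sm_dy z.s'.hu)).abs_le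
  rw [abs_le] at *
  constructor <;> linarith [h1.1, h1.2, h2.1, h2.2]

theorem ηx_le (z : Cfg π) : |dx z.η z.p| ≤ π.M := by
  rw [Pair.dx_η]
  have h1 := (((z.s.cu z.p z.hp).dy z.s.hu).dx (sm_dy z.s.hu)).abs_le
  have h2 := (((z.s'.cu z.p z.hp).dy z.s'.hu).dx (sm_dy z.s'.hu)).abs_le
  rw [abs_le] at *
  constructor <;> linarith [h1.1, h1.2, h2.1, h2.2]

theorem μb_ge (z : Cfg π) : π.M⁻¹ ≤ z.μb z.p := by
  have h1 : π.M⁻¹ ≤ mu z.s.φ z.s.u z.p := z.s.hmu z.p z.hp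
  have h2 : π.M⁻¹ ≤ mu z.s'.φ z.s'.u z.p := z.s'.hmu z.p z.hp
  unfold Pair.μb; linarith

theorem ev_a : ∀ᶠ z in (sc π).l, (2 * π.M)⁻¹ ≤ z.a11 z.p ∧ z.a11 z.p ≤ 2 * π.M ∧
    |z.a12 z.p| ≤ 2 * π.M := by
  have hM := π.M_pos
  have h1 : Ord (sc π) (fun z => z.e1 z.p) (0 + 1) := by ord
  have h2 : Ord (sc π) (fun z => z.a12 z.p + dx z.η z.p) (0 + 1) := ord_e1'.mono (by decide)
  filter_upwards [h1.small (c := (2 * π.M)⁻¹) (by positivity), h2.small hM] with z h1 h2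
  rw [pow_zero, mul_one] at h1 h2
  have h3 := ηy_ge z
  have h4 := ηy_le z
  have h5 := ηx_le z
  have h6 : π.M⁻¹ = 2 * (2 * π.M)⁻¹ := by field_simp
  have h7 : (2 * π.M)⁻¹ ≤ π.M := by
    have := π.hM
    rw [inv_le_comm₀ (by positivity) hM]
    have : π.M⁻¹ ≤ 1 := inv_le_one_of_one_le₀ π.hM
    linarith
  unfold Pair.e1 at h1
  rw [abs_le] at *
  refine ⟨by linarith [h1.2], by linarith [h1.1, h4.2], by linarith [h2.1, h5.2],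
    by linarith [h2.2, h5.1]⟩

theorem ev_ia : ∀ᶠ z in (sc π).l, (2 * π.M)⁻¹ ≤ z.ia z.p ∧ z.ia z.p ≤ 2 * π.M ∧
    z.a11 z.p * z.ia z.p = 1 ∧ |z.a12 z.p * z.ia z.p| ≤ 4 * π.M ^ 2 := by
  have hM := π.M_pos
  filter_upwards [ev_a (π := π)] with z ⟨h1, h2, h3⟩
  have ha : 0 < z.a11 z.p := lt_of_lt_of_le (by positivity) h1
  have h4 : z.ia z.p ≤ 2 * π.M := by
    rw [z.ia_eq h1]; exact (inv_le_comm₀ ha (by positivity)).2 h1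
  have h5 : (2 * π.M)⁻¹ ≤ z.ia z.p := by
    rw [z.ia_eq h1]; exact inv_anti₀ ha h2
  refine ⟨h5, h4, by rw [z.ia_eq h1]; field_simp, ?_⟩
  rw [abs_mul, abs_of_pos (lt_of_lt_of_le (by positivity) h5)]
  calc _ ≤ (2 * π.M) * (2 * π.M) := by gcongr; exact (lt_of_lt_of_le (by positivity) h5).le
    _ = _ := by ring

instance ord_ia : Ord (sc π) (fun z => z.ia z.p) 0 := by
  have hM := π.M_pos
  refine Ord.of_bound (2 * π.M) ?_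
  filter_upwards [ev_ia (π := π)] with z ⟨h1, h2, _⟩
  rw [pow_zero, mul_one, abs_of_pos (lt_of_lt_of_le (by positivity) h1)]; exact h2

instance ord_t0 : Ord (sc π) (fun z => z.t0) 1 := by unfold Pair.t0; ord
instance ord_V1 : Ord (sc π) (fun z => z.V1 z.p) 1 := by unfold Pair.V1; ord
instance ord_V2 (t : Cfg π → ℝ) [Ord (sc π) t 1] : Ord (sc π) (fun z => z.V2 (t z) z.p) 1 := by
  unfold Pair.V2; ord
instance ord_bb (t : Cfg π → ℝ) [Ord (sc π) t 1] : Ord (sc π) (fun z => z.bb (t z) z.p) 1 := by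
  unfold Pair.bb; ord
instance ord_err11 : Ord (sc π) (fun z => z.err11 z.p) 3 := by unfold Pair.err11; ord
instance ord_α12 (t : Cfg π → ℝ) [Ord (sc π) t 1] : Ord (sc π) (fun z => z.α12 (t z) z.p) 3 := by
  unfold Pair.α12; ord
instance ord_err22 (t : Cfg π → ℝ) [Ord (sc π) t 1] :
    Ord (sc π) (fun z => z.err22 (t z) z.p) 3 := by
  unfold Pair.err22; ord
instance ord_Xs (ς : ℝ) : Ord (sc π) (fun z => z.Xs ς z.p) 3 := by unfold Pair.Xs; ord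
instance ord_sg (ς : ℝ) : Ord (sc π) (fun z => z.sg ς z.D1 z.p) 1 := by unfold Pair.sg; ord
instance ord_wt (ς : ℝ) : Ord (sc π) (fun z => z.wt ς z.D1 z.p) 2 := by
  refine ord_of_le (e := fun z => z.sg ς z.D1 z.p ^ 2) (by ord) fun z => ?_
  unfold Pair.wt
  rw [abs_of_nonneg (pp_nonneg _)]
  rcases le_total (z.sg ς z.D1 z.p) 0 with h | h
  · rw [pp_of_nonpos h]; positivity
  · rw [pp_of_nonneg h]
theorem ord_ςt0 (ς : ℝ) : Ord (sc π) (fun z => ς * z.t0) 1 := by ord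
instance ord_β0 (ς : ℝ) : Ord (sc π) (fun z => z.β0 ς z.p) 1 := by
  have := ord_ςt0 (π := π) ς
  unfold Pair.β0; ord

/-- The positivity constant. -/
def Par.c0 (π : Par) : ℝ := π.eps / (16 * π.M ^ 2)

theorem Par.c0_pos (π : Par) : 0 < π.c0 := by
  have := π.eps_pos; have := π.M_pos; unfold Par.c0; positivity

theorem ev_T (t : Cfg π → ℝ) [Ord (sc π) t 1] (ht : ∀ z, |t z| ≤ z.t0) :
    ∀ᶠ z in (sc π).l, ∀ ξ1 ξ2 : ℝ, π.c0 / 2 * (z.ζ z.p ξ1 ξ2 ^ 2 + z.ρ ^ 2 * ξ2 ^ 2)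
      ≤ Tform z.a11 z.a12 z.a22 z.b1 z.b2 z.V1 (z.V2 (t z)) z.p ξ1 ξ2 := by
  have hM := π.M_pos
  have hc := π.c0_pos
  have hε := π.eps_pos
  have h1 : Ord (sc π) (fun z => z.err11 z.p) (0 + 1) := by ord
  have h2 : Ord (sc π) (fun z => z.α12 (t z) z.p) (1 + 1) := by ord
  have h3 : Ord (sc π) (fun z => z.err22 (t z) z.p) (2 + 1) := by ord
  filter_upwards [h1.small hc, h2.small hc, h3.small hc, ev_a (π := π), ev_ia (π := π)]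
    with z h1 h2 h3 ⟨ha1, ha2, _⟩ ⟨hi1, hi2, _, hi4⟩ ξ1 ξ2
  have hρ := z.hρ
  change |z.err22 (t z) z.p| ≤ π.c0 * z.ρ ^ 2 at h3
  rw [z.Tform_V _ ha1]
  refine quad_lower hc.le ?_ ?_ h2
  · rw [pow_zero, mul_one, abs_le] at h1
    have h4 : π.eps * (2 * π.M)⁻¹ ≤ π.eps * z.a11 z.p := by gcongr
    have h5 : 4 * π.c0 ≤ π.eps * (2 * π.M)⁻¹ := by
      unfold Par.c0
      have := π.hM
      rw [show 4 * (π.eps / (16 * π.M ^ 2)) = π.eps * (4 * π.M ^ 2)⁻¹ by field_simp; norm_num]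
      exact mul_le_mul_of_nonneg_left (inv_anti₀ (by positivity) (by nlinarith)) hε.le
    linarith [h1.1]
  · have hmain : π.eps * z.ρ ^ 2 / 2 ≤ z.main22 (t z) z.p := by
      unfold Pair.main22
      refine main_ge π.hq1 π.hq1' π.hq2 π.hq2' hε π.eps_le hi4 ?_ ?_
      · unfold Par.eps; apply le_of_eq; field_simp; ring
      · have h6 : |t z * z.ia z.p| ≤ π.eps * z.ρ / 2 := by
          rw [abs_mul, abs_of_pos (lt_of_lt_of_le (by positivity) hi1)]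
          calc _ ≤ z.t0 * (2 * π.M) := by
                gcongr
                · exact (lt_of_lt_of_le (by positivity) hi1).le
                · exact (abs_nonneg _).trans (ht z)
                · exact ht z
            _ = _ := by unfold Pair.t0; field_simp; norm_num
        have h7 : (t z * z.ia z.p) ^ 2 ≤ (π.eps * z.ρ / 2) ^ 2 := by
          rw [← sq_abs]; gcongr
        have h8 := π.eps_le
        have h9 : π.eps * (π.eps * z.ρ ^ 2) ≤ 1 * (π.eps * z.ρ ^ 2) := by gcongr; linarith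
        nlinarith
    have hμ := μb_ge z
    have h10 : (2 * π.M)⁻¹ / 2 * π.M⁻¹ * (π.eps * z.ρ ^ 2 / 2)
        ≤ z.ia z.p / 2 * z.μb z.p * z.main22 (t z) z.p := by
      gcongr
      · exact mul_nonneg (by linarith [lt_of_lt_of_le (by positivity) hi1])
          (le_trans (by positivity) hμ)
      · linarith [lt_of_lt_of_le (by positivity) hi1]
    have h11 : (2 * π.M)⁻¹ / 2 * π.M⁻¹ * (π.eps * z.ρ ^ 2 / 2) = 2 * (π.c0 * z.ρ ^ 2) := by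
      unfold Par.c0; field_simp; norm_num
    rw [abs_le] at h3
    linarith [h3.1]

/-- Conversion from the adapted norm to the Euclidean one. -/
theorem ev_conv : ∀ᶠ z in (sc π).l, ∀ ξ1 ξ2 : ℝ,
    z.ρ ^ 3 * (ξ1 ^ 2 + ξ2 ^ 2) ≤ π.c0 / 4 * (z.ζ z.p ξ1 ξ2 ^ 2 + z.ρ ^ 2 * ξ2 ^ 2) := by
  have hc := π.c0_pos
  filter_upwards [ev_ia (π := π), (sc π).ev_le one_pos,
    (sc π).ev_le (c := π.c0 / 4 / (2 * (4 * π.M ^ 2) ^ 2 + 2)) (by positivity)]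
    with z ⟨_, _, _, hi4⟩ h1 h2 ξ1 ξ2
  change z.ρ ≤ _ at h1 h2
  have hρ := z.hρ
  have h3 := sq_le_zeta (ξ1 := ξ1) (ξ2 := ξ2) hi4 hρ h1
  rw [le_div_iff₀ (by positivity)] at h2
  unfold Pair.ζ
  calc z.ρ ^ 3 * (ξ1 ^ 2 + ξ2 ^ 2) = z.ρ * (z.ρ ^ 2 * (ξ1 ^ 2 + ξ2 ^ 2)) := by ring
    _ ≤ z.ρ * ((2 * (4 * π.M ^ 2) ^ 2 + 2)
        * ((ξ1 + z.a12 z.p * z.ia z.p * ξ2) ^ 2 + z.ρ ^ 2 * ξ2 ^ 2)) := by gcongr
    _ = (z.ρ * (2 * (4 * π.M ^ 2) ^ 2 + 2))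
        * ((ξ1 + z.a12 z.p * z.ia z.p * ξ2) ^ 2 + z.ρ ^ 2 * ξ2 ^ 2) := by ring
    _ ≤ _ := by gcongr

theorem ev_T0 : ∀ᶠ z in (sc π).l, ∀ ξ1 ξ2 : ℝ, z.ρ ^ 3 * (ξ1 ^ 2 + ξ2 ^ 2)
      ≤ Tform z.a11 z.a12 z.a22 z.b1 z.b2 z.V1 (z.V2 0) z.p ξ1 ξ2 := by
  have h0 : Ord (sc π) (fun _ => (0 : ℝ)) 1 := Ord.of_bound 0 (Eventually.of_forall fun z => by simp)
  have hc := π.c0_pos
  have hε := π.eps_pos
  have hM := π.M_pos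
  filter_upwards [ev_T (π := π) (fun _ => 0) (fun z => by
    have := z.hρ; unfold Pair.t0; rw [abs_zero]; positivity), ev_conv (π := π)] with z h1 h2 ξ1 ξ2
  refine (h2 ξ1 ξ2).trans (le_trans ?_ (h1 ξ1 ξ2))
  gcongr; norm_num

theorem ev_inner : ∀ᶠ z in (sc π).l, ‖z.p‖ ≤ z.ρ / 2 → z.κ z.p ≤ -(z.ρ ^ 2 / (4 * π.M)) := by
  have hM := π.M_pos
  have h1 : Ord (sc π) (fun z => z.e4 z.p) (2 + 1) := by ord
  filter_upwards [h1.small (c := (4 * π.M)⁻¹) (by positivity)] with z h1 hp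
  change |z.e4 z.p| ≤ (4 * π.M)⁻¹ * z.ρ ^ 2 at h1
  have hμ := μb_ge z
  have hρ := z.hρ
  have hx : z.p.1 ^ 2 ≤ (z.ρ / 2) ^ 2 := by
    rw [← sq_abs]; gcongr; exact (abs_fst_le _).trans hp
  have hy : z.p.2 ^ 2 ≤ (z.ρ / 2) ^ 2 := by
    rw [← sq_abs]; gcongr; exact (abs_snd_le _).trans hp
  have h2 : π.q1 * z.p.1 ^ 2 ≤ 1 * z.p.1 ^ 2 := by gcongr; exact π.hq1'
  have h3 : π.q2 * z.p.2 ^ 2 ≤ 1 * z.p.2 ^ 2 := by gcongr; exact π.hq2'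
  have h4 : z.ρ ^ 2 / 2 ≤ -(π.q1 * z.p.1 ^ 2 + π.q2 * z.p.2 ^ 2 - z.ρ ^ 2) := by nlinarith
  have h5 : π.M⁻¹ * (z.ρ ^ 2 / 2)
      ≤ z.μb z.p * -(π.q1 * z.p.1 ^ 2 + π.q2 * z.p.2 ^ 2 - z.ρ ^ 2) := by
    gcongr; exact le_trans (by positivity) hμ
  unfold Pair.e4 at h1
  rw [abs_le] at h1
  have h6 : π.M⁻¹ * (z.ρ ^ 2 / 2) = 2 * ((4 * π.M)⁻¹ * z.ρ ^ 2) := by field_simp; norm_num
  have h7 : z.ρ ^ 2 / (4 * π.M) = (4 * π.M)⁻¹ * z.ρ ^ 2 := by field_simp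
  linarith [h1.2]

theorem ev_outer : ∀ᶠ z in (sc π).l, 2 / 3 * (π.R * z.ρ) ≤ ‖z.p‖ → z.ρ ^ 3 ≤ z.κ z.p := by
  have hM := π.M_pos
  have h1 : Ord (sc π) (fun z => z.e4 z.p) (2 + 1) := by ord
  filter_upwards [h1.small (c := π.M⁻¹) (by positivity), (sc π).ev_le (c := π.M⁻¹) (by positivity)]
    with z h1 h2 hp
  change |z.e4 z.p| ≤ π.M⁻¹ * z.ρ ^ 2 at h1
  change z.ρ ≤ _ at h2
  have hμ := μb_ge z
  have hρ := z.hρ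
  have hq1 := π.hq1; have hq2 := π.hq2; have hq1' := π.hq1'; have hq2' := π.hq2'
  have hq : π.q1 * π.q2 ≤ 1 := mul_le_one₀ hq1' hq2.le hq2'
  have h3 : 2 * z.ρ ≤ π.q1 * π.q2 * ‖z.p‖ := by
    have : π.q1 * π.q2 * (2 / 3 * (π.R * z.ρ)) = 2 * z.ρ := by unfold Par.R; field_simp
    rw [← this]; gcongr
  have h4 : π.q1 * π.q2 * ‖z.p‖ ^ 2 ≤ π.q1 * z.p.1 ^ 2 + π.q2 * z.p.2 ^ 2 := by
    have h5 : π.q1 * π.q2 ≤ π.q1 := by nlinarith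
    have h6 : π.q1 * π.q2 ≤ π.q2 := by nlinarith
    rw [Prod.norm_def, Real.norm_eq_abs, Real.norm_eq_abs]
    rcases le_total |z.p.1| |z.p.2| with h | h
    · rw [max_eq_right h, sq_abs]
      nlinarith [mul_nonneg hq1.le (sq_nonneg z.p.1), sq_nonneg z.p.2]
    · rw [max_eq_left h, sq_abs]
      nlinarith [mul_nonneg hq2.le (sq_nonneg z.p.2), sq_nonneg z.p.1]
  have h7 : 4 * z.ρ ^ 2 ≤ π.q1 * π.q2 * ‖z.p‖ ^ 2 := by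
    have h8 : (2 * z.ρ) ^ 2 ≤ (π.q1 * π.q2 * ‖z.p‖) ^ 2 := by gcongr
    have h9 : (π.q1 * π.q2) * (π.q1 * π.q2 * ‖z.p‖ ^ 2) ≤ 1 * (π.q1 * π.q2 * ‖z.p‖ ^ 2) := by
      gcongr
    nlinarith
  have h10 : π.M⁻¹ * (3 * z.ρ ^ 2)
      ≤ z.μb z.p * (π.q1 * z.p.1 ^ 2 + π.q2 * z.p.2 ^ 2 - z.ρ ^ 2) := by
    gcongr
    · exact le_trans (by positivity) hμ
    · linarith
  unfold Pair.e4 at h1
  rw [abs_le] at h1
  have h11 : z.ρ * z.ρ ^ 2 ≤ π.M⁻¹ * z.ρ ^ 2 := by gcongr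
  have : 0 ≤ π.M⁻¹ * z.ρ ^ 2 := by positivity
  nlinarith [h1.1]

theorem ev_ell : ∀ᶠ z in (sc π).l, 0 < z.κ z.p → ∀ ξ1 ξ2 : ℝ,
    z.ρ ^ 3 * z.κ z.p * (ξ1 ^ 2 + ξ2 ^ 2) ≤ pform z.a11 z.a12 z.a22 z.p ξ1 ξ2 := by
  have hM := π.M_pos
  have hc := π.c0_pos
  have h1 : Ord (sc π) (fun z => z.κ z.p) (0 + 1) := by ord
  filter_upwards [ev_a (π := π), ev_ia (π := π), ev_conv (π := π), (sc π).ev_le one_pos,
    h1.small one_pos] with z ⟨ha1, _, _⟩ ⟨hi1, _, _, _⟩ h2 h3 h4 hκ ξ1 ξ2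
  change z.ρ ≤ _ at h3
  rw [pow_zero, mul_one, abs_le] at h4
  have hρ := z.hρ
  rw [z.pform_eq ha1]
  have h5 : π.c0 / 4 ≤ (2 * π.M)⁻¹ := by
    have h6 := π.eps_le
    have h7 := π.hM
    unfold Par.c0
    rw [div_div, div_le_iff₀ (by positivity)]
    rw [show (2 * π.M)⁻¹ * (16 * π.M ^ 2 * 4) = 32 * π.M by field_simp; norm_num]
    linarith
  have h8 : z.ρ ^ 2 ≤ 1 := by nlinarith
  calc z.ρ ^ 3 * z.κ z.p * (ξ1 ^ 2 + ξ2 ^ 2) = z.κ z.p * (z.ρ ^ 3 * (ξ1 ^ 2 + ξ2 ^ 2)) := by ring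
    _ ≤ z.κ z.p * (π.c0 / 4 * (z.ζ z.p ξ1 ξ2 ^ 2 + z.ρ ^ 2 * ξ2 ^ 2)) := by
        exact mul_le_mul_of_nonneg_left (h2 ξ1 ξ2) hκ.le
    _ = z.κ z.p * (π.c0 / 4) * z.ζ z.p ξ1 ξ2 ^ 2 + z.κ z.p * (π.c0 / 4) * (z.ρ ^ 2 * ξ2 ^ 2) := by
        ring
    _ ≤ 1 * z.a11 z.p * z.ζ z.p ξ1 ξ2 ^ 2 + z.κ z.p * z.ia z.p * (1 * ξ2 ^ 2) := by
        gcongr
        · exact h4.2
        · exact h5.trans ha1
        · exact mul_nonneg hκ.le (le_trans (by positivity) hi1)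
        · exact h5.trans hi1
    _ = _ := by ring

end ev

end Crest.Agent.R220
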