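import Crest.Agent.R220.PW

/-!
Pointwise lower bound for the localised multiplier.
-/

open scoped ContDiff Topology
open MeasureTheory Set Metric Filter Asymptotics

noncomputable section
namespace Crest.Agent.R220

theorem err_bound {a β k A B t θ E : ℝ} (hβ : t / 2 ≤ β) (hθ : 0 < θ)
    (h1 : θ ≤ a * β) (h2 : |k| * B ^ 2 ≤ θ * t / 8) (h3 : A ^ 2 ≤ θ * E) :
    β * k / 2 + (A + k * B) ^ 2 / (2 * a * β) ≤ β * k / 2 + β * |k| / 4 + E := by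
  have h4 : (A + k * B) ^ 2 ≤ 2 * (θ * (E + |k| * t / 8)) := by
    have h5 : (k * B) ^ 2 = |k| * (|k| * B ^ 2) := by rw [mul_pow, ← sq_abs k]; ring
    have h6 : |k| * (|k| * B ^ 2) ≤ |k| * (θ * t / 8) := by gcongr
    nlinarith [sq_nonneg (A - k * B)]
  have h7 : 0 ≤ E + |k| * t / 8 := by
    by_contra hc
    push Not at hc
    nlinarith [sq_nonneg (A + k * B)]
  have h8 : (A + k * B) ^ 2 / (2 * a * β) ≤ E + |k| * t / 8 := by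
    rw [div_le_iff₀ (by nlinarith)]
    nlinarith
  have h9 : |k| * (t / 2) ≤ |k| * β := by gcongr
  linarith

/-- The constant `θ²/2` in the lower bound for the weights. -/
def Par.g0 (π : Par) : ℝ := ((32 * π.M ^ 2)⁻¹) ^ 2 / 2

theorem Par.g0_pos (π : Par) : 0 < π.g0 := by
  have := π.M_pos; unfold Par.g0; positivity

section ev
variable {π : Par}

theorem ev_g0 : ∀ᶠ z in (sc π).l, z.ρ / 4 ≤ ‖z.p‖ →
    π.g0 * z.ρ ^ 4 ≤ max (z.sg 1 z.D1 z.p) (z.sg (-1) z.D1 z.p) := by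
  have hM := π.M_pos
  have hM1 := π.hM
  have hg := π.g0_pos
  have h1 : Ord (sc π) (fun z => z.D1) (4 + 1) := by ord
  have h2 : Ord (sc π) (fun z => z.e3 z.p) (1 + 1) := by ord
  filter_upwards [h1.small hg, h2.small (c := (32 * π.M)⁻¹) (by positivity), ev_a (π := π),
    (sc π).ev_le one_pos] with z h1 h2 ⟨ha1, _, ha3⟩ h3 hp
  change |z.D1| ≤ π.g0 * z.ρ ^ 4 at h1
  change |z.e3 z.p| ≤ (32 * π.M)⁻¹ * z.ρ ^ 1 at h2
  change z.ρ ≤ 1 at h3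
  have hρ := z.hρ
  rw [pow_one] at h2
  have h4 : max (z.sg 1 z.D1 z.p) (z.sg (-1) z.D1 z.p)
      = |z.η z.p| + z.ρ ^ 2 * z.p.1 ^ 2 - z.D1 := by
    unfold Pair.sg
    rcases le_total 0 (z.η z.p) with h | h
    · rw [abs_of_nonneg h, max_eq_left (by linarith)]; ring
    · rw [abs_of_nonpos h, max_eq_right (by linarith)]; ring
  rw [h4]
  have h5 := le_abs_self z.D1
  set θ := (32 * π.M ^ 2)⁻¹ with hθ
  have hθ0 : 0 < θ := by positivity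
  have hg2 : π.g0 = θ ^ 2 / 2 := rfl
  rcases le_total (θ * z.ρ) |z.p.1| with h | h
  · have h6 : (θ * z.ρ) ^ 2 ≤ z.p.1 ^ 2 := by rw [← sq_abs z.p.1]; gcongr
    have h7 : z.ρ ^ 2 * (θ * z.ρ) ^ 2 ≤ z.ρ ^ 2 * z.p.1 ^ 2 := by gcongr
    have h8 := abs_nonneg (z.η z.p)
    rw [hg2] at h1 ⊢
    nlinarith
  · have hθ1 : θ ≤ (32 * π.M)⁻¹ := inv_anti₀ (by positivity) (by nlinarith)
    have hθ2 : (32 * π.M)⁻¹ ≤ 1 / 8 := by
      rw [one_div]; exact inv_anti₀ (by norm_num) (by linarith)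
    have hy : z.ρ / 4 ≤ |z.p.2| := by
      rw [Prod.norm_def, Real.norm_eq_abs, Real.norm_eq_abs, le_max_iff] at hp
      rcases hp with hp | hp
      · nlinarith
      · exact hp
    have h6 : (2 * π.M)⁻¹ * (z.ρ / 4) ≤ |z.a11 z.p * z.p.2| := by
      rw [abs_mul]; gcongr; exact ha1.trans (le_abs_self _)
    have h7 : |z.a12 z.p * z.p.1| ≤ 2 * π.M * (θ * z.ρ) := by
      rw [abs_mul]; gcongr
    have h8 : 2 * π.M * (θ * z.ρ) = 2 * ((32 * π.M)⁻¹ * z.ρ) := by rw [hθ]; field_simp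
    have h9 : (2 * π.M)⁻¹ * (z.ρ / 4) = 4 * ((32 * π.M)⁻¹ * z.ρ) := by field_simp; norm_num
    have h10 : z.a11 z.p * z.p.2 = z.η z.p - z.e3 z.p + z.a12 z.p * z.p.1 := by
      unfold Pair.e3; ring
    have h11 : |z.a11 z.p * z.p.2| ≤ |z.η z.p| + |z.e3 z.p| + |z.a12 z.p * z.p.1| := by
      rw [h10]
      exact (abs_add_le _ _).trans (by gcongr; exact abs_sub _ _)
    have h12 : θ ^ 2 * z.ρ ^ 4 ≤ (32 * π.M)⁻¹ * z.ρ := by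
      have h13 : θ ^ 2 ≤ (32 * π.M)⁻¹ := by nlinarith
      have h14 : z.ρ ^ 4 ≤ z.ρ := by
        calc z.ρ ^ 4 ≤ z.ρ ^ 1 := pow_le_pow_of_le_one hρ.le h3 (by norm_num)
          _ = z.ρ := pow_one _
      gcongr
    have h15 : 0 ≤ z.ρ ^ 2 * z.p.1 ^ 2 := by positivity
    rw [hg2] at h1 ⊢
    linarith

theorem max_sq_le_wt (Q : Pair π) (D1 : ℝ) (p : P) {g : ℝ} (hg : 0 ≤ g)
    (h : g ≤ max (Q.sg 1 D1 p) (Q.sg (-1) D1 p)) :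
    max (Q.sg 1 D1 p) (Q.sg (-1) D1 p) ^ 2 ≤ Q.wt 1 D1 p + Q.wt (-1) D1 p := by
  unfold Pair.wt
  rcases le_total (Q.sg 1 D1 p) (Q.sg (-1) D1 p) with h1 | h1
  · rw [max_eq_right h1] at h ⊢
    rw [pp_of_nonneg (hg.trans h)]; linarith [pp_nonneg (Q.sg 1 D1 p)]
  · rw [max_eq_left h1] at h ⊢
    rw [pp_of_nonneg (hg.trans h)]; linarith [pp_nonneg (Q.sg (-1) D1 p)]

theorem ev_β0 {ς : ℝ} (hς : ς = 1 ∨ ς = -1) :
    ∀ᶠ z in (sc π).l, 0 < z.sg ς z.D1 z.p → z.t0 / 2 ≤ z.β0 ς z.p := by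
  have hM := π.M_pos
  have hε := π.eps_pos
  have h0 := ord_ςt0 (π := π) ς
  have h1 : Ord (sc π) (fun z => (ς * z.η z.p + z.t0) * z.e1 z.p * z.ia z.p
      - z.V1 z.p * z.Xs ς z.p) (1 + 1) := by ord
  have h2 : Ord (sc π) (fun z => z.ρ ^ 2 * z.p.1 ^ 2) (1 + 1) := by ord
  filter_upwards [h1.small (c := π.eps / (16 * π.M)) (by positivity),
    h2.small (c := π.eps / (16 * π.M)) (by positivity), ev_ia (π := π)]
    with z h1 h2 ⟨_, _, hi, _⟩ hs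
  change |_| ≤ π.eps / (16 * π.M) * z.ρ ^ 1 at h1 h2
  have h3 : π.eps / (16 * π.M) * z.ρ ^ 1 = z.t0 / 4 := by unfold Pair.t0; field_simp; ring
  rw [h3, abs_le] at h1 h2
  have hςς : ς * ς = 1 := by rcases hς with rfl | rfl <;> norm_num
  have h4 : z.β0 ς z.p = ς * z.η z.p + z.t0 + ((ς * z.η z.p + z.t0) * z.e1 z.p * z.ia z.p
      - z.V1 z.p * z.Xs ς z.p) := by
    unfold Pair.β0 Pair.bb Pair.e1
    linear_combination (z.t0 * z.ia z.p * dy z.η z.p) * hςς + (ς * z.η z.p + z.t0) * hi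
  unfold Pair.sg at hs
  have := z.hD0
  linarith [h1.1, h2.2]

theorem ev_flux {ς : ℝ} (hς : ς = 1 ∨ ς = -1) : ∀ᶠ z in (sc π).l, ∀ ξ1 ξ2 : ℝ,
    -((z.wt 1 z.D1 z.p + z.wt (-1) z.D1 z.p)
        * (π.c0 / 16 * z.ρ ^ 2 + z.ρ ^ 3 + (z.ρ ^ 32)⁻¹ * (max (z.κ z.p) 0) ^ 5) * ξ2 ^ 2)
      ≤ Phi z.a11 z.a12 z.a22 z.V1 (z.V2 (ς * z.t0)) z.p (dx (z.wt ς z.D1) z.p)
          (dy (z.wt ς z.D1) z.p) ξ1 ξ2 := by
  have hM := π.M_pos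
  have hM1 := π.hM
  have hε := π.eps_pos
  have hc := π.c0_pos
  have hg := π.g0_pos
  have h0 := ord_ςt0 (π := π) ς
  have h1 : Ord (sc π) (fun z => |z.κ z.p * z.ia z.p| * (z.V1 z.p * (ς * dy z.η z.p)) ^ 2)
      (2 + 1) := by ord
  have h2 : Ord (sc π) (fun z => (z.a11 z.p * z.bb (ς * z.t0) z.p * z.Xs ς z.p) ^ 2) (7 + 1) := by
    ord
  have h3 : Ord (sc π) (fun z => 3 * z.β0 ς z.p * z.ia z.p) (0 + 1) := by ord
  filter_upwards [h1.small (c := π.c0 * π.eps / (32 * π.M)) (by positivity),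
    h2.small (c := π.c0 * (π.eps / (256 * π.M ^ 3))) (by positivity),
    h2.small (c := π.c0 * (π.c0 * π.g0 / 32)) (by positivity),
    h3.small (c := 2 * π.g0) (by positivity), ev_a (π := π), ev_ia (π := π), ev_β0 (π := π) hς,
    ev_inner (π := π), ev_g0 (π := π), (sc π).ev_le one_pos]
    with z h1 h2 h2' h3 ⟨ha1, _, _⟩ ⟨hi1, _, _, _⟩ hβ hin hg0 hρ1 ξ1 ξ2
  change |_| ≤ _ * z.ρ ^ 2 at h1
  change |_| ≤ _ * z.ρ ^ 7 at h2 h2'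
  change z.ρ ≤ 1 at hρ1
  rw [pow_zero, mul_one] at h3
  have hρ := z.hρ
  have hG : 0 ≤ z.wt 1 z.D1 z.p + z.wt (-1) z.D1 z.p := add_nonneg (pp_nonneg _) (pp_nonneg _)
  have hRHS : 0 ≤ (z.wt 1 z.D1 z.p + z.wt (-1) z.D1 z.p)
        * (π.c0 / 16 * z.ρ ^ 2 + z.ρ ^ 3 + (z.ρ ^ 32)⁻¹ * (max (z.κ z.p) 0) ^ 5) * ξ2 ^ 2 := by
    have : 0 ≤ max (z.κ z.p) 0 := le_max_right _ _
    positivity
  rw [z.Phi_V ς z.D1 ha1]
  rcases le_or_gt (z.sg ς z.D1 z.p) 0 with hs | hs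
  · rw [max_eq_right hs]; linarith
  rw [max_eq_left hs.le]
  have ht0 : 0 < z.t0 := by unfold Pair.t0; positivity
  have hβ := hβ hs
  have ha : 0 < z.a11 z.p := lt_of_lt_of_le (by positivity) ha1
  have hia : 0 < z.ia z.p := lt_of_lt_of_le (by positivity) hi1
  have hβ0 : 0 < z.β0 ς z.p := by linarith
  have hfl := flux_lower (k := z.κ z.p * z.ia z.p) (γ := z.γ0 ς z.p) (ζ := z.ζ z.p ξ1 ξ2)
    (ξ := ξ2) ha hβ0
  have hθ : π.c0 * z.ρ ≤ z.a11 z.p * z.β0 ς z.p := by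
    calc π.c0 * z.ρ = (2 * π.M)⁻¹ * (z.t0 / 2) := by
          unfold Par.c0 Pair.t0; field_simp; norm_num
      _ ≤ _ := by gcongr
  have hγ : z.γ0 ς z.p = z.a11 z.p * z.bb (ς * z.t0) z.p * z.Xs ς z.p
      + z.κ z.p * z.ia z.p * (z.V1 z.p * (ς * dy z.η z.p)) := by unfold Pair.γ0; ring
  have hk : |z.κ z.p * z.ia z.p| * (z.V1 z.p * (ς * dy z.η z.p)) ^ 2
      ≤ π.c0 * z.ρ * z.t0 / 8 := by
    refine (le_abs_self _).trans (h1.trans (le_of_eq ?_))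
    unfold Pair.t0; field_simp; norm_num
  set k := z.κ z.p * z.ia z.p with hkdef
  set err := z.β0 ς z.p * k / 2 + z.γ0 ς z.p ^ 2 / (2 * z.a11 z.p * z.β0 ς z.p) with herr
  -- it suffices to bound `2 s err`
  suffices hsuff : 2 * z.sg ς z.D1 z.p * err ≤ (z.wt 1 z.D1 z.p + z.wt (-1) z.D1 z.p)
        * (π.c0 / 16 * z.ρ ^ 2 + z.ρ ^ 3 + (z.ρ ^ 32)⁻¹ * (max (z.κ z.p) 0) ^ 5) by
    have h4 := mul_le_mul_of_nonneg_left hfl (by linarith : 0 ≤ 2 * z.sg ς z.D1 z.p)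
    have h5 := mul_le_mul_of_nonneg_right hsuff (sq_nonneg ξ2)
    linarith
  have hRHS' : 0 ≤ (z.wt 1 z.D1 z.p + z.wt (-1) z.D1 z.p)
        * (π.c0 / 16 * z.ρ ^ 2 + z.ρ ^ 3 + (z.ρ ^ 32)⁻¹ * (max (z.κ z.p) 0) ^ 5) := by
    have : 0 ≤ max (z.κ z.p) 0 := le_max_right _ _
    positivity
  rcases le_total ‖z.p‖ (z.ρ / 2) with hp | hp
  · have he : err ≤ z.β0 ς z.p * k / 2 + z.β0 ς z.p * |k| / 4
        + π.eps / (256 * π.M ^ 3) * z.ρ ^ 6 := by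
      rw [herr, hγ]
      refine err_bound hβ (by positivity) hθ hk ((le_abs_self _).trans (h2.trans (le_of_eq ?_)))
      ring
    have hκ := hin hp
    have hk1 : k ≤ -(z.ρ ^ 2 / (8 * π.M ^ 2)) := by
      have h6 : z.ρ ^ 2 / (4 * π.M) * (2 * π.M)⁻¹ ≤ -z.κ z.p * z.ia z.p := by
        gcongr
        · linarith [show 0 ≤ z.ρ ^ 2 / (4 * π.M) by positivity]
        · linarith
      have h7 : z.ρ ^ 2 / (4 * π.M) * (2 * π.M)⁻¹ = z.ρ ^ 2 / (8 * π.M ^ 2) := by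
        field_simp; norm_num
      rw [hkdef]; linarith
    have hk0 : k ≤ 0 := hk1.trans (by
      have : 0 ≤ z.ρ ^ 2 / (8 * π.M ^ 2) := by positivity
      linarith)
    rw [abs_of_nonpos hk0] at he
    have h8 : z.t0 / 2 * (z.ρ ^ 2 / (8 * π.M ^ 2)) ≤ z.β0 ς z.p * -k := by
      gcongr; linarith
    have h9 : π.eps / (256 * π.M ^ 3) * z.ρ ^ 6 ≤ π.eps / (256 * π.M ^ 3) * z.ρ ^ 3 := by
      gcongr _ * ?_
      exact pow_le_pow_of_le_one hρ.le hρ1 (by norm_num)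
    have h10 : z.t0 / 2 * (z.ρ ^ 2 / (8 * π.M ^ 2)) = 4 * (π.eps / (256 * π.M ^ 3) * z.ρ ^ 3) := by
      unfold Pair.t0; field_simp; norm_num
    have h11 : err ≤ 0 := by linarith
    have h12 : 2 * z.sg ς z.D1 z.p * err ≤ 0 := mul_nonpos_of_nonneg_of_nonpos (by linarith) h11
    linarith
  · have he : err ≤ z.β0 ς z.p * k / 2 + z.β0 ς z.p * |k| / 4
        + π.c0 * π.g0 / 32 * z.ρ ^ 6 := by
      rw [herr, hγ]
      refine err_bound hβ (by positivity) hθ hk ((le_abs_self _).trans (h2'.trans (le_of_eq ?_)))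
      ring
    have hg1 := hg0 (by linarith)
    have hg2 := max_sq_le_wt z.toPair z.D1 z.p (by positivity) hg1
    set G := max (z.sg 1 z.D1 z.p) (z.sg (-1) z.D1 z.p) with hGdef
    have hsG : z.sg ς z.D1 z.p ≤ G := by
      rcases hς with rfl | rfl
      · exact le_max_left _ _
      · exact le_max_right _ _
    set κp := max (z.κ z.p) 0 with hκp
    have hκp0 : 0 ≤ κp := le_max_right _ _
    have hk2 : k / 2 + |k| / 4 ≤ 3 / 4 * (κp * z.ia z.p) := by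
      rcases le_total 0 (z.κ z.p) with h | h
      · rw [hκp, max_eq_left h, abs_of_nonneg (by positivity)]; linarith
      · have : k ≤ 0 := mul_nonpos_of_nonpos_of_nonneg h hia.le
        rw [hκp, max_eq_right h, abs_of_nonpos this]; linarith
    have h4 : z.β0 ς z.p * (k / 2 + |k| / 4) ≤ z.β0 ς z.p * (3 / 4 * (κp * z.ia z.p)) := by gcongr
    have h5 : 3 * z.β0 ς z.p * z.ia z.p * κp ≤ 2 * π.g0 * κp :=
      mul_le_mul_of_nonneg_right ((le_abs_self _).trans h3) hκp0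
    have he2 : err ≤ π.g0 / 2 * (κp + π.c0 / 16 * z.ρ ^ 6) := by nlinarith
    have hy := young5 (A := κp / z.ρ ^ 4) (e := z.ρ ^ 3) (by positivity) (by positivity)
    have h6 : κp ≤ z.ρ ^ 4 * (z.ρ ^ 3 + (z.ρ ^ 32)⁻¹ * κp ^ 5) := by
      rw [div_le_iff₀ (by positivity)] at hy
      refine hy.trans (le_of_eq ?_)
      field_simp
    have he3 : err ≤ π.g0 * z.ρ ^ 4 / 2
        * (π.c0 / 16 * z.ρ ^ 2 + z.ρ ^ 3 + (z.ρ ^ 32)⁻¹ * κp ^ 5) := by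
      refine he2.trans ?_
      have : π.g0 / 2 * κp ≤ π.g0 / 2 * (z.ρ ^ 4 * (z.ρ ^ 3 + (z.ρ ^ 32)⁻¹ * κp ^ 5)) := by gcongr
      nlinarith
    have hB : 0 ≤ π.c0 / 16 * z.ρ ^ 2 + z.ρ ^ 3 + (z.ρ ^ 32)⁻¹ * κp ^ 5 := by positivity
    have hG0 : 0 ≤ G := le_trans (by positivity) hg1
    calc 2 * z.sg ς z.D1 z.p * err
        ≤ 2 * z.sg ς z.D1 z.p * (π.g0 * z.ρ ^ 4 / 2
          * (π.c0 / 16 * z.ρ ^ 2 + z.ρ ^ 3 + (z.ρ ^ 32)⁻¹ * κp ^ 5)) := by gcongr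
      _ = z.sg ς z.D1 z.p * (π.g0 * z.ρ ^ 4)
          * (π.c0 / 16 * z.ρ ^ 2 + z.ρ ^ 3 + (z.ρ ^ 32)⁻¹ * κp ^ 5) := by ring
      _ ≤ G * G * (π.c0 / 16 * z.ρ ^ 2 + z.ρ ^ 3 + (z.ρ ^ 32)⁻¹ * κp ^ 5) := by gcongr
      _ ≤ _ := by gcongr; rw [← sq]; exact hg2

theorem ev_TZ : ∀ᶠ z in (sc π).l, ∀ ξ1 ξ2 : ℝ,
    (z.W z.D1 z.p - (z.ρ ^ 40)⁻¹ * (max (z.κ z.p) 0) ^ 5) * (ξ1 ^ 2 + ξ2 ^ 2)
      ≤ Tform z.a11 z.a12 z.a22 z.b1 z.b2 (z.Z1 z.D1) (z.Z2 z.D1) z.p ξ1 ξ2 := by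
  have hM := π.M_pos
  have hε := π.eps_pos
  have hc := π.c0_pos
  have h1 := ord_ςt0 (π := π) 1
  have h2 := ord_ςt0 (π := π) (-1)
  have ht : ∀ z : Cfg π, 0 ≤ z.t0 := fun z => by
    have := z.hρ; unfold Pair.t0; positivity
  have h3 : Ord (sc π) (fun z => z.wt 1 z.D1 z.p + z.wt (-1) z.D1 z.p) (0 + 1) := by ord
  filter_upwards [ev_T (π := π) (fun z => 1 * z.t0) (fun z => by simp [abs_of_nonneg (ht z)]),
    ev_T (π := π) (fun z => -1 * z.t0) (fun z => by simp [abs_of_nonneg (ht z)]),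
    ev_flux (π := π) (Or.inl rfl), ev_flux (π := π) (Or.inr rfl), ev_conv (π := π),
    h3.small one_half_pos, (sc π).ev_le (c := π.c0 / 16) (by positivity), (sc π).ev_le one_pos]
    with z hT1 hT2 hF1 hF2 hcv h3 h4 hρ1 ξ1 ξ2
  change z.ρ ≤ _ at h4 hρ1
  rw [pow_zero, mul_one] at h3
  have hρ := z.hρ
  rw [z.Tform_Z]
  have hw1 : 0 ≤ z.wt 1 z.D1 z.p := pp_nonneg _
  have hw2 : 0 ≤ z.wt (-1) z.D1 z.p := pp_nonneg _
  have h5 := mul_le_mul_of_nonneg_left (hT1 ξ1 ξ2) hw1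
  have h6 := mul_le_mul_of_nonneg_left (hT2 ξ1 ξ2) hw2
  have h7 := hF1 ξ1 ξ2
  have h8 := hF2 ξ1 ξ2
  have h9 := mul_le_mul_of_nonneg_left (hcv ξ1 ξ2) (add_nonneg hw1 hw2)
  set G := z.wt 1 z.D1 z.p + z.wt (-1) z.D1 z.p with hG
  set κ5 := (max (z.κ z.p) 0) ^ 5 with hκ5
  have hκ0 : 0 ≤ κ5 := pow_nonneg (le_max_right _ _) 5
  have hG0 : 0 ≤ G := add_nonneg hw1 hw2
  have h10 : G * (z.ρ * (z.ρ ^ 2 * ξ2 ^ 2)) ≤ G * (π.c0 / 16 * (z.ρ ^ 2 * ξ2 ^ 2)) := by gcongr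
  have h11 : G * ((z.ρ ^ 32)⁻¹ * κ5 * ξ2 ^ 2)
      ≤ 1 / 2 * ((z.ρ ^ 40)⁻¹ * κ5 * (ξ1 ^ 2 + ξ2 ^ 2)) := by
    have e1 : G ≤ 1 / 2 := (le_abs_self _).trans h3
    have e2 : (z.ρ ^ 32)⁻¹ ≤ (z.ρ ^ 40)⁻¹ :=
      inv_anti₀ (by positivity) (pow_le_pow_of_le_one hρ.le hρ1 (by norm_num))
    have e3 : ξ2 ^ 2 ≤ ξ1 ^ 2 + ξ2 ^ 2 := by linarith [sq_nonneg ξ1]
    gcongr
  have h12 : 0 ≤ G * (π.c0 * z.ζ z.p ξ1 ξ2 ^ 2) := by positivity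
  unfold Pair.W
  rw [← hG]
  have h13 : z.wt 1 z.D1 z.p * (π.c0 / 2 * (z.ζ z.p ξ1 ξ2 ^ 2 + z.ρ ^ 2 * ξ2 ^ 2))
      + z.wt (-1) z.D1 z.p * (π.c0 / 2 * (z.ζ z.p ξ1 ξ2 ^ 2 + z.ρ ^ 2 * ξ2 ^ 2))
      = G * (π.c0 / 2 * (z.ζ z.p ξ1 ξ2 ^ 2 + z.ρ ^ 2 * ξ2 ^ 2)) := by rw [hG]; ring
  nlinarith

theorem ev_W : ∀ᶠ z in (sc π).l, z.ρ / 4 ≤ ‖z.p‖ → z.ρ ^ 13 ≤ z.W z.D1 z.p := by
  have hg := π.g0_pos
  filter_upwards [ev_g0 (π := π), (sc π).ev_le hg] with z h1 h2 hp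
  change z.ρ ≤ _ at h2
  have hρ := z.hρ
  have h3 := h1 hp
  have h4 := max_sq_le_wt z.toPair z.D1 z.p (by positivity) h3
  have h5 : z.ρ * z.ρ ^ 4 ≤ max (z.sg 1 z.D1 z.p) (z.sg (-1) z.D1 z.p) :=
    le_trans (by gcongr) h3
  have h6 : (z.ρ * z.ρ ^ 4) ^ 2 ≤ max (z.sg 1 z.D1 z.p) (z.sg (-1) z.D1 z.p) ^ 2 := by gcongr
  unfold Pair.W
  calc z.ρ ^ 13 = z.ρ ^ 3 * (z.ρ * z.ρ ^ 4) ^ 2 := by ring
    _ ≤ _ := by gcongr; exact h6.trans h4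

end ev

end Crest.Agent.R220
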