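import Crest.Agent.R220.Ord

/-!
Pairs of solutions of the Darboux equation near a small well, and the basic orders of magnitude.
-/

open scoped ContDiff Topology
open MeasureTheory Set Metric Filter Asymptotics

noncomputable section
namespace Crest.Agent.R220

/-- Normalise partial derivatives of sums, products, powers, exponentials. -/
macro "dsimp_d" : tactic => `(tactic| simp (disch := fun_prop) only [dx_add, dy_add, dx_sub, dy_sub,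
  dx_neg, dy_neg, dx_mul, dy_mul, dx_div_const, dy_div_const, dx_pow, dy_pow, dx_exp, dy_exp,
  dx_const, dy_const, dx_fst, dy_fst, dx_snd, dy_snd])

@[fun_prop]
theorem sm_diffAt {f : P → ℝ} (hf : ContDiff ℝ ∞ f) (p : P) : DifferentiableAt ℝ f p :=
  sm_diff hf p

@[fun_prop]
theorem diffAt_dx {f : P → ℝ} (hf : ContDiff ℝ ∞ f) (p : P) : DifferentiableAt ℝ (dx f) p :=
  sm_diff (sm_dx hf) p

@[fun_prop]
theorem diffAt_dy {f : P → ℝ} (hf : ContDiff ℝ ∞ f) (p : P) : DifferentiableAt ℝ (dy f) p :=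
  sm_diff (sm_dy hf) p

theorem phi0_smooth (q1 q2 lam ρ : ℝ) : ContDiff ℝ ∞ (phi0 q1 q2 lam ρ) := by
  unfold phi0; fun_prop

theorem dx_phi0 (q1 q2 lam ρ : ℝ) :
    dx (phi0 q1 q2 lam ρ) = fun p => -q1 * p.1 ^ 3 / 3 + ρ ^ 2 * lam * p.1 := by
  funext p; unfold phi0; dsimp_d; norm_num; ring

theorem dy_phi0 (q1 q2 lam ρ : ℝ) :
    dy (phi0 q1 q2 lam ρ) = fun p => -q2 * p.2 ^ 3 / 3 + ρ ^ 2 * (1 - lam) * p.2 := by
  funext p; unfold phi0; dsimp_d; norm_num; ring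

/-- Fixed parameters. -/
structure Par where
  M : ℝ
  q1 : ℝ
  q2 : ℝ
  lam : ℝ
  hM : 1 ≤ M
  hq1 : 0 < q1
  hq1' : q1 ≤ 1
  hq2 : 0 < q2
  hq2' : q2 ≤ 1
  hlam : 0 ≤ lam
  hlam' : lam ≤ 1

/-- The working radius is `π.R * ρ`. -/
def Par.R (π : Par) : ℝ := 3 / (π.q1 * π.q2)

theorem Par.R_pos (π : Par) : 0 < π.R := by
  have := π.hq1; have := π.hq2; unfold Par.R; positivity

theorem Par.three_le_R (π : Par) : 3 ≤ π.R := by
  have h1 := π.hq1; have h2 := π.hq2; unfold Par.R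
  rw [le_div_iff₀ (by positivity)]
  have : π.q1 * π.q2 ≤ 1 := mul_le_one₀ π.hq1' h2.le π.hq2'
  linarith

theorem Par.M_pos (π : Par) : 0 < π.M := lt_of_lt_of_le one_pos π.hM

/-- A solution of the Darboux equation in the admissible class. -/
structure Sol (π : Par) (ρ : ℝ) where
  u : P → ℝ
  ψ : P → ℝ
  hu : ContDiff ℝ ∞ u
  hψ : ContDiff ℝ ∞ ψ
  cψ : ∀ p, CB 3 (ρ ^ 4) ψ p
  cu : ∀ p, ‖p‖ < π.R * ρ → CB 4 π.M u p
  hyy : ∀ p, ‖p‖ < π.R * ρ → π.M⁻¹ ≤ dy (dy u) p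
  hmu : ∀ p, ‖p‖ < π.R * ρ → π.M⁻¹ ≤ mu (fun q => phi0 π.q1 π.q2 π.lam ρ q + ψ q) u p
  dar : ∀ p, ‖p‖ < π.R * ρ → Darboux (fun q => phi0 π.q1 π.q2 π.lam ρ q + ψ q) u p

namespace Sol
variable {π : Par} {ρ : ℝ} (s : Sol π ρ)

/-- The conformal factor of the solution. -/
def φ : P → ℝ := fun q => phi0 π.q1 π.q2 π.lam ρ q + s.ψ q

theorem hφ : ContDiff ℝ ∞ s.φ := (phi0_smooth _ _ _ _).add s.hψ

theorem dx_φ : dx s.φ = fun p => -π.q1 * p.1 ^ 3 / 3 + ρ ^ 2 * π.lam * p.1 + dx s.ψ p := by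
  funext p
  have := phi0_smooth π.q1 π.q2 π.lam ρ
  have := s.hψ
  unfold φ; dsimp_d; rw [dx_phi0]

theorem dy_φ : dy s.φ = fun p => -π.q2 * p.2 ^ 3 / 3 + ρ ^ 2 * (1 - π.lam) * p.2 + dy s.ψ p := by
  funext p
  have := phi0_smooth π.q1 π.q2 π.lam ρ
  have := s.hψ
  unfold φ; dsimp_d; rw [dy_phi0]

theorem dxx_φ : dx (dx s.φ) = fun p => -π.q1 * p.1 ^ 2 + ρ ^ 2 * π.lam + dx (dx s.ψ) p := by
  funext p
  have := s.hψ
  rw [dx_φ]; dsimp_d; norm_num; ring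

theorem dxy_φ : dx (dy s.φ) = fun p => dx (dy s.ψ) p := by
  funext p
  have := s.hψ
  rw [dy_φ]; dsimp_d; norm_num

theorem dyy_φ : dy (dy s.φ) = fun p => -π.q2 * p.2 ^ 2 + ρ ^ 2 * (1 - π.lam) + dy (dy s.ψ) p := by
  funext p
  have := s.hψ
  rw [dy_φ]; dsimp_d; norm_num; ring

theorem kap_φ : kap s.φ =
    fun p => π.q1 * p.1 ^ 2 + π.q2 * p.2 ^ 2 - ρ ^ 2 - dx (dx s.ψ) p - dy (dy s.ψ) p := by
  funext p
  unfold kap; rw [dxx_φ, dyy_φ]; ring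

theorem dx_kap_φ (p : P) : dx (kap s.φ) p =
    2 * π.q1 * p.1 - dx (dx (dx s.ψ)) p - dx (dy (dy s.ψ)) p := by
  have := s.hψ
  rw [kap_φ]; dsimp_d; norm_num; ring

theorem dy_kap_φ (p : P) : dy (kap s.φ) p =
    2 * π.q2 * p.2 - dy (dx (dx s.ψ)) p - dy (dy (dy s.ψ)) p := by
  have := s.hψ
  rw [kap_φ]; dsimp_d; norm_num; ring

end Sol

/-- A pair of solutions with close 2- and 3-jets at the centre. -/
structure Pair (π : Par) where
  ρ : ℝ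
  hρ : 0 < ρ
  s : Sol π ρ
  s' : Sol π ρ
  jxx : |dx (dx s.u) 0 - dx (dx s'.u) 0| ≤ ρ ^ 2
  jxy : |dx (dy s.u) 0 - dx (dy s'.u) 0| ≤ ρ ^ 2
  jyy : |dy (dy s.u) 0 - dy (dy s'.u) 0| ≤ ρ ^ 2
  jxxx : |dx (dx (dx s.u)) 0 - dx (dx (dx s'.u)) 0| ≤ ρ ^ 2
  jxxy : |dx (dx (dy s.u)) 0 - dx (dx (dy s'.u)) 0| ≤ ρ ^ 2
  jxyy : |dx (dy (dy s.u)) 0 - dx (dy (dy s'.u)) 0| ≤ ρ ^ 2
  jyyy : |dy (dy (dy s.u)) 0 - dy (dy (dy s'.u)) 0| ≤ ρ ^ 2

/-- A pair together with a point of the working ball and a threshold. -/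
structure Cfg (π : Par) extends Pair π where
  p : P
  hp : ‖p‖ < π.R * ρ
  D1 : ℝ
  hD0 : 0 ≤ D1
  hD : D1 ≤ ρ ^ 6

/-- The scale on configurations. -/
def sc (π : Par) : Scale (Cfg π) := ⟨fun z => z.ρ, fun z => z.hρ⟩

section base
variable {π : Par} (σ : (z : Cfg π) → Sol π z.ρ)

instance ord_rho : Ord (sc π) (fun z => z.ρ) 1 := Ord.rho
instance ord_x : Ord (sc π) (fun z => z.p.1) 1 :=
  Ord.of_bound π.R (Eventually.of_forall fun z => by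
    rw [pow_one]; exact (abs_fst_le _).trans z.hp.le)
instance ord_y : Ord (sc π) (fun z => z.p.2) 1 :=
  Ord.of_bound π.R (Eventually.of_forall fun z => by
    rw [pow_one]; exact (abs_snd_le _).trans z.hp.le)
instance ord_norm : Ord (sc π) (fun z => ‖z.p‖) 1 :=
  Ord.of_bound π.R (Eventually.of_forall fun z => by
    rw [pow_one, abs_norm]; exact z.hp.le)
instance ord_D1 : Ord (sc π) (fun z => z.D1) 6 :=
  Ord.of_bound 1 (Eventually.of_forall fun z => by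
    rw [one_mul, abs_of_nonneg z.hD0]; exact z.hD)

theorem ord_of_CB0 {g : (z : Cfg π) → P → ℝ} {C : ℝ} (h : ∀ z, CB 0 C (g z) z.p) :
    Ord (sc π) (fun z => g z z.p) 0 :=
  Ord.of_bound C (Eventually.of_forall fun z => by simpa using (h z).abs_le)

theorem ord_of_CB4 {g : (z : Cfg π) → P → ℝ} (h : ∀ z, CB 0 (z.ρ ^ 4) (g z) z.p) :
    Ord (sc π) (fun z => g z z.p) 4 :=
  Ord.of_bound 1 (Eventually.of_forall fun z => by rw [one_mul]; exact (h z).abs_le)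

instance ord_u : Ord (sc π) (fun z => (σ z).u z.p) 0 :=
  ord_of_CB0 fun z => ((σ z).cu _ z.hp).mono (by norm_num) le_rfl
instance ord_ux : Ord (sc π) (fun z => dx (σ z).u z.p) 0 :=
  ord_of_CB0 fun z => (((σ z).cu _ z.hp).dx (σ z).hu).mono (by norm_num) le_rfl
instance ord_uy : Ord (sc π) (fun z => dy (σ z).u z.p) 0 :=
  ord_of_CB0 fun z => (((σ z).cu _ z.hp).dy (σ z).hu).mono (by norm_num) le_rfl
instance ord_uxx : Ord (sc π) (fun z => dx (dx (σ z).u) z.p) 0 :=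
  ord_of_CB0 fun z => ((((σ z).cu _ z.hp).dx (σ z).hu).dx (sm_dx (σ z).hu)).mono
    (by norm_num) le_rfl
instance ord_uxy : Ord (sc π) (fun z => dx (dy (σ z).u) z.p) 0 :=
  ord_of_CB0 fun z => ((((σ z).cu _ z.hp).dy (σ z).hu).dx (sm_dy (σ z).hu)).mono
    (by norm_num) le_rfl
instance ord_uyy : Ord (sc π) (fun z => dy (dy (σ z).u) z.p) 0 :=
  ord_of_CB0 fun z => ((((σ z).cu _ z.hp).dy (σ z).hu).dy (sm_dy (σ z).hu)).mono
    (by norm_num) le_rfl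
instance ord_uxxx : Ord (sc π) (fun z => dx (dx (dx (σ z).u)) z.p) 0 :=
  ord_of_CB0 fun z => (((((σ z).cu _ z.hp).dx (σ z).hu).dx (sm_dx (σ z).hu)).dx
    (sm_dx (sm_dx (σ z).hu))).mono (by norm_num) le_rfl
instance ord_uxxy : Ord (sc π) (fun z => dx (dx (dy (σ z).u)) z.p) 0 :=
  ord_of_CB0 fun z => (((((σ z).cu _ z.hp).dy (σ z).hu).dx (sm_dy (σ z).hu)).dx
    (sm_dx (sm_dy (σ z).hu))).mono (by norm_num) le_rfl
instance ord_uxyy : Ord (sc π) (fun z => dx (dy (dy (σ z).u)) z.p) 0 :=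
  ord_of_CB0 fun z => (((((σ z).cu _ z.hp).dy (σ z).hu).dy (sm_dy (σ z).hu)).dx
    (sm_dy (sm_dy (σ z).hu))).mono (by norm_num) le_rfl
instance ord_uyyy : Ord (sc π) (fun z => dy (dy (dy (σ z).u)) z.p) 0 :=
  ord_of_CB0 fun z => (((((σ z).cu _ z.hp).dy (σ z).hu).dy (sm_dy (σ z).hu)).dy
    (sm_dy (sm_dy (σ z).hu))).mono (by norm_num) le_rfl

instance ord_ψ : Ord (sc π) (fun z => (σ z).ψ z.p) 4 :=
  ord_of_CB4 fun z => ((σ z).cψ _).mono (by norm_num) le_rfl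
instance ord_ψx : Ord (sc π) (fun z => dx (σ z).ψ z.p) 4 :=
  ord_of_CB4 fun z => (((σ z).cψ _).dx (σ z).hψ).mono (by norm_num) le_rfl
instance ord_ψy : Ord (sc π) (fun z => dy (σ z).ψ z.p) 4 :=
  ord_of_CB4 fun z => (((σ z).cψ _).dy (σ z).hψ).mono (by norm_num) le_rfl
instance ord_ψxx : Ord (sc π) (fun z => dx (dx (σ z).ψ) z.p) 4 :=
  ord_of_CB4 fun z => ((((σ z).cψ _).dx (σ z).hψ).dx (sm_dx (σ z).hψ)).mono
    (by norm_num) le_rfl
instance ord_ψxy : Ord (sc π) (fun z => dx (dy (σ z).ψ) z.p) 4 :=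
  ord_of_CB4 fun z => ((((σ z).cψ _).dy (σ z).hψ).dx (sm_dy (σ z).hψ)).mono
    (by norm_num) le_rfl
instance ord_ψyy : Ord (sc π) (fun z => dy (dy (σ z).ψ) z.p) 4 :=
  ord_of_CB4 fun z => ((((σ z).cψ _).dy (σ z).hψ).dy (sm_dy (σ z).hψ)).mono
    (by norm_num) le_rfl
instance ord_ψxxx : Ord (sc π) (fun z => dx (dx (dx (σ z).ψ)) z.p) 4 :=
  ord_of_CB4 fun z => (((((σ z).cψ _).dx (σ z).hψ).dx (sm_dx (σ z).hψ)).dx
    (sm_dx (sm_dx (σ z).hψ)))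
instance ord_ψyxx : Ord (sc π) (fun z => dy (dx (dx (σ z).ψ)) z.p) 4 :=
  ord_of_CB4 fun z => (((((σ z).cψ _).dx (σ z).hψ).dx (sm_dx (σ z).hψ)).dy
    (sm_dx (sm_dx (σ z).hψ)))
instance ord_ψxyy : Ord (sc π) (fun z => dx (dy (dy (σ z).ψ)) z.p) 4 :=
  ord_of_CB4 fun z => (((((σ z).cψ _).dy (σ z).hψ).dy (sm_dy (σ z).hψ)).dx
    (sm_dy (sm_dy (σ z).hψ)))
instance ord_ψyyy : Ord (sc π) (fun z => dy (dy (dy (σ z).ψ)) z.p) 4 :=
  ord_of_CB4 fun z => (((((σ z).cψ _).dy (σ z).hψ).dy (sm_dy (σ z).hψ)).dy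
    (sm_dy (sm_dy (σ z).hψ)))

instance ord_φ : Ord (sc π) (fun z => (σ z).φ z.p) 4 := by
  unfold Sol.φ phi0; ord
instance ord_φx : Ord (sc π) (fun z => dx (σ z).φ z.p) 3 := by
  simp only [Sol.dx_φ]; ord
instance ord_φy : Ord (sc π) (fun z => dy (σ z).φ z.p) 3 := by
  simp only [Sol.dy_φ]; ord
instance ord_φxx : Ord (sc π) (fun z => dx (dx (σ z).φ) z.p) 2 := by
  simp only [Sol.dxx_φ]; ord
instance ord_φxy : Ord (sc π) (fun z => dx (dy (σ z).φ) z.p) 4 := by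
  simp only [Sol.dxy_φ]; ord
instance ord_φyy : Ord (sc π) (fun z => dy (dy (σ z).φ) z.p) 2 := by
  simp only [Sol.dyy_φ]; ord
instance ord_kap : Ord (sc π) (fun z => kap (σ z).φ z.p) 2 := by
  simp only [Sol.kap_φ]; ord
instance ord_kapx : Ord (sc π) (fun z => dx (kap (σ z).φ) z.p) 1 := by
  simp only [Sol.dx_kap_φ]; ord
instance ord_kapy : Ord (sc π) (fun z => dy (kap (σ z).φ) z.p) 1 := by
  simp only [Sol.dy_kap_φ]; ord

instance ord_E : Ord (sc π) (fun z => Real.exp (2 * (σ z).φ z.p)) 0 := by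
  have h : Ord (sc π) (fun z => (σ z).φ z.p) (0 + 1) := by ord
  refine Ord.of_bound (Real.exp 2) ?_
  filter_upwards [h.small one_pos] with z hz
  rw [abs_of_pos (Real.exp_pos _), pow_zero, mul_one]
  rw [pow_zero, mul_one] at hz
  exact Real.exp_le_exp.2 (by linarith [le_abs_self ((σ z).φ z.p)])

instance ord_mu : Ord (sc π) (fun z => mu (σ z).φ (σ z).u z.p) 0 := by
  unfold mu; ord

end base

end Crest.Agent.R220
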